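import Crest.Agent.R1.WBound

/-!
# R1 / BadLow : the two bad events at a low scale `a`

Both proofs: `stop` at scale `a` with a suitable `Ψ`; `max R (3t) = 3t`, so the result is
`5 Ψ · 9 t²/(t a²) = 45 Ψ t/a²`.  In the hypothesis of `stop` we have `3t' < R' < 3a`, so `t' < a`.
-/

set_option autoImplicit false

noncomputable section

open scoped Classical

namespace Crest.Agent.R1

open Finset

theorem bl_cube {x : ℝ} (hx : 0 ≤ x) : x ^ 3 ≤ 6 * Real.exp x := by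
  have h := Real.pow_div_factorial_le_exp x hx 3
  norm_num [Nat.factorial] at h
  linarith

/-- `stop` in the form used for the bad events -/
theorem bl_stop (hP : PAP) : ∃ t1 : ℕ, 1 ≤ t1 ∧ ∀ (Z T a : ℕ) (Q : Finset ℕ → Prop),
    LowStable a Q → 5 * Z ≤ 3 * T → 8 * a ≤ T → ∀ Ψ : ℝ, 0 ≤ Ψ →
    (∀ R t : ℕ, 1 ≤ t → t < a → a ≤ R → R < 3 * a → WW Z T Q R t ≤ Ψ / t) →
    ∀ R t : ℕ, t1 ≤ t → R ≤ 3 * t → 3 * t < a → WW Z T Q R t ≤ 45 * Ψ * t / (a : ℝ) ^ 2 := by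
  obtain ⟨t1, ht1, h⟩ := stop hP
  refine ⟨t1, ht1, fun Z T a Q hQ hZ h8 Ψ hΨ hyp R t ht hR h3 => ?_⟩
  refine (h Z T a Q hQ (by omega) Ψ hΨ (fun R t h1 h2 h3 h4 => hyp R t (by omega) (by omega) h3 h4)
    R t ht (by omega)).trans (le_of_eq ?_)
  have : (t : ℝ) ≠ 0 := by exact_mod_cast (by omega : t ≠ 0)
  rw [max_eq_right hR]
  push_cast
  field_simp
  ring

/-- `WW_split` at level `a` with `Q' h := C8 a ≤ R' + sg h` (as `sg g + R' = T`), then `WS_le`: with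
`u = sg h / a ≥ C8 - 3` the summand is `≤ wt h · C (u + 6)³ a/T²`, `(u+6)³ ≤ C' e^{u/2}`,
`1 ≤ e^{(u - C8 + 3)/2}`, and `rankin` on `PL t' (a-1) ⊆ PL t' a` gives `Ψ = C'' e^{-C8/2} a²/T²`.  Choose
`C8` with `45 C'' e^{-C8/2} ≤ ε`. -/
theorem badE_le (hP : PAP) : ∃ t1 : ℕ, ∀ ε : ℝ, 0 < ε → ∃ C8 : ℕ, 1 ≤ C8 ∧ ∀ Z T a : ℕ,
    5 * Z ≤ 3 * T → 8 * a ≤ T → a ^ 2 ≤ T → ∀ R t : ℕ, t1 ≤ t → R ≤ 3 * t → 3 * t < a →
      WW Z T (BadE T a (C8 * a)) R t ≤ ε * t / (T : ℝ) ^ 2 := by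
  obtain ⟨t1, ht1, hst⟩ := bl_stop hP
  obtain ⟨t2, D, -, hD, hW⟩ := WS_le hP
  obtain ⟨C, hC, hr⟩ := rankin hP
  refine ⟨max t1 t2, fun ε hε => ?_⟩
  obtain ⟨C8, hC8, hE⟩ : ∃ C8 : ℕ, 1 ≤ C8 ∧ 2160 * D * C * Real.exp ((9 - C8) / 2) ≤ ε := by
    refine ⟨⌈9 - 2 * Real.log (ε / (2160 * D * C))⌉₊ + 1, by omega, ?_⟩
    rw [← le_div_iff₀' (by positivity), ← Real.le_log_iff_exp_le (by positivity)]
    have := Nat.le_ceil (9 - 2 * Real.log (ε / (2160 * D * C)))
    push_cast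
    linarith
  refine ⟨C8, hC8, fun Z T a hZ h8 ha2 R t ht hR h3 => ?_⟩
  have ht2' := le_of_max_le_right ht
  have ha0 : (0 : ℝ) < a := by exact_mod_cast (by omega : 0 < a)
  refine (hst Z T a _ (lowStable_badE T a (C8 * a)) hZ h8
    (48 * D * C * Real.exp ((9 - C8) / 2) * a ^ 2 / (T : ℝ) ^ 2) (by positivity)
    (fun R t ht hta haR hR => ?_) R t (le_of_max_le_left ht) hR h3).trans ?_
  · refine (WW_split Z T _ (fun h => C8 * a ≤ R + sg h) R t a fun g h1 h2 => ?_).trans ?_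
    · have := sg_filter_add g a
      unfold BadE at h2
      omega
    refine (sum_le_sum (g := fun h => 48 * D * Real.exp ((9 - C8) / 2) * a / (T : ℝ) ^ 2 *
      (wt h * Real.exp ((sg h : ℝ) / a))) fun h hh => ?_).trans ?_
    · rw [mul_left_comm]
      refine mul_le_mul_of_nonneg_left ((hW Z T hZ (by omega) _ a (by omega) ha2).trans ?_)
        (wt_nonneg h)
      have b1 : ((R + sg h : ℕ) : ℝ) / a ≤ sg h / a + 3 := by
        have : (R : ℝ) ≤ 3 * a := by exact_mod_cast hR.le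
        rw [div_add' _ _ _ ha0.ne']
        push_cast
        gcongr ?_ / _
        linarith
      have b2 : (C8 : ℝ) ≤ ((R + sg h : ℕ) : ℝ) / a := by
        rw [le_div_iff₀ ha0]
        simp only [mem_filter] at hh
        exact_mod_cast hh.2
      have b3 := bl_cube (x := ((sg h : ℝ) / a + 6) / 2) (by positivity)
      have b4 : Real.exp (((sg h : ℝ) / a + 6) / 2) ≤
          Real.exp ((9 - C8) / 2) * Real.exp ((sg h : ℝ) / a) := by
        rw [← Real.exp_add, Real.exp_le_exp]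
        linarith
      have b5 : (((R + sg h : ℕ) : ℝ) / a + 3) ^ 3 ≤
          48 * (Real.exp ((9 - C8) / 2) * Real.exp ((sg h : ℝ) / a)) := by
        calc _ ≤ (2 * (((sg h : ℝ) / a + 6) / 2)) ^ 3 := by
              gcongr
              linarith
          _ = 8 * (((sg h : ℝ) / a + 6) / 2) ^ 3 := by ring
          _ ≤ _ := by linarith
      calc _ ≤ D * (48 * (Real.exp ((9 - C8) / 2) * Real.exp ((sg h : ℝ) / a))) * a / (T : ℝ) ^ 2 := by
            gcongr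
        _ = _ := by ring
    · rw [← mul_sum]
      refine (mul_le_mul_of_nonneg_left ((sum_le_sum_of_subset_of_nonneg
        (fun h hh => powerset_mono.2 (PL_mono le_rfl (Nat.sub_le a 1)) (by
          simp only [mem_filter] at hh
          exact hh.1))
        fun h _ _ => mul_nonneg (wt_nonneg h) (Real.exp_pos _).le).trans
        (hr t a (by omega) hta.le)) (by positivity)).trans (le_of_eq ?_)
      ring
  · calc _ = 2160 * D * C * Real.exp ((9 - C8) / 2) * t / (T : ℝ) ^ 2 := by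
          field_simp
          ring
      _ ≤ _ := by gcongr

/-- `WW_split` at level `b + 1` with `Q' = BadTie a b`, `WS_le` with `a := b + 1`: `(R' + sg h)/(b+1) + 3 ≤ u + 6`,
`u = sg h / b`, `(u+6)³ ≤ C' e^u`, `rankin_tie`: `Ψ = C'' b²/(a T²)`. -/
theorem badTie_le (hP : PAP) : ∃ (t1 : ℕ) (C : ℝ), 0 ≤ C ∧ ∀ Z T a b : ℕ,
    5 * Z ≤ 3 * T → 8 * a ≤ T → a ≤ b → (b + 1) ^ 2 ≤ T → ∀ R t : ℕ, t1 ≤ t → R ≤ 3 * t → 3 * t < a →
      WW Z T (BadTie a b) R t ≤ C * ((b : ℝ) / a) ^ 2 / a * t / (T : ℝ) ^ 2 := by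
  obtain ⟨t1, ht1, hst⟩ := bl_stop hP
  obtain ⟨t2, D, -, hD, hW⟩ := WS_le hP
  obtain ⟨C, hC, hr⟩ := rankin_tie hP
  refine ⟨max t1 t2, 540 * D * C * Real.exp 6, by positivity,
    fun Z T a b hZ h8 hab hb2 R t ht hR h3 => ?_⟩
  have ht2' := le_of_max_le_right ht
  have ha0 : (0 : ℝ) < a := by exact_mod_cast (by omega : 0 < a)
  have hb1 : (1 : ℝ) ≤ b := by exact_mod_cast (by omega : 1 ≤ b)
  refine (hst Z T a _ (lowStable_badTie a b) hZ h8
    (12 * D * C * Real.exp 6 * b ^ 2 / (a * (T : ℝ) ^ 2)) (by positivity)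
    (fun R t ht hta haR hR => ?_) R t (le_of_max_le_left ht) hR h3).trans (le_of_eq ?_)
  · refine (WW_split Z T _ (BadTie a b) R t (b + 1) fun g _ h2 => ?_).trans ?_
    · obtain ⟨π, hπ, π', hπ', h1, h2, h3, h4⟩ := h2
      exact ⟨π, mem_filter.2 ⟨hπ, by omega⟩, π', mem_filter.2 ⟨hπ', by omega⟩, h1, h2, h3, h4⟩
    rw [Nat.add_sub_cancel]
    refine (sum_le_sum (g := fun h => 12 * D * Real.exp 6 * b / (T : ℝ) ^ 2 *
      (wt h * Real.exp ((sg h : ℝ) / b))) fun h hh => ?_).trans ?_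
    · rw [mul_left_comm]
      refine mul_le_mul_of_nonneg_left ((hW Z T hZ (by omega) _ (b + 1) (by omega) hb2).trans ?_)
        (wt_nonneg h)
      have b1 : ((R + sg h : ℕ) : ℝ) / (b + 1 : ℕ) ≤ sg h / b + 3 := by
        have : (R : ℝ) ≤ 3 * (b + 1) := by exact_mod_cast (by omega : R ≤ 3 * (b + 1))
        push_cast
        rw [add_div, add_comm]
        refine add_le_add (by gcongr; linarith) ?_
        rw [div_le_iff₀ (by positivity)]
        exact this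
      have b3 := bl_cube (x := (sg h : ℝ) / b + 6) (by positivity)
      rw [Real.exp_add] at b3
      have b5 : (((R + sg h : ℕ) : ℝ) / (b + 1 : ℕ) + 3) ^ 3 ≤
          6 * (Real.exp ((sg h : ℝ) / b) * Real.exp 6) := by
        exact le_trans (pow_le_pow_left₀ (by positivity) (by linarith) 3) b3
      have b6 : ((b + 1 : ℕ) : ℝ) ≤ 2 * b := by
        push_cast
        linarith
      calc _ ≤ D * (6 * (Real.exp ((sg h : ℝ) / b) * Real.exp 6)) * (2 * b) / (T : ℝ) ^ 2 := by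
            gcongr
        _ = _ := by ring
    · rw [← mul_sum]
      refine (mul_le_mul_of_nonneg_left (hr t a b (by omega) (by omega) (by omega))
        (by positivity)).trans (le_of_eq ?_)
      ring
  · ring

end Crest.Agent.R1
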