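import Crest.Agent.R1.BadLow

/-!
# R1 / BadTop : the two bad events at the top scale `η ≈ T/K`

Both proofs: `stop` at scale `η` with a suitable `Ψ`; the result is `45 Ψ t/η²`.  In the hypothesis of `stop`
we have `3t' < R' < 3η`, so `t' < η`.  Drop the conditions `Supp`, `Odd`.
-/

set_option autoImplicit false

noncomputable section

open scoped Classical

namespace Crest.Agent.R1

open Finset

/-- remove one element -/
theorem bt_rem (𝒢 𝒢' : Finset (Finset ℕ)) (P : Finset ℕ → Finset ℕ)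
    (h : ∀ g ∈ 𝒢, ∃ π ∈ g, g.erase π ∈ 𝒢' ∧ π ∈ P (g.erase π)) :
    ∑ g ∈ 𝒢, wt g ≤ ∑ g ∈ 𝒢', wt g * ∑ π ∈ P g, 1 / (π : ℝ) := by
  choose! f hf h1 h2 using h
  rw [← sum_fiberwise_of_maps_to h1]
  refine sum_le_sum fun g' _ => ?_
  have e : ∀ g ∈ 𝒢.filter (fun g => g.erase (f g) = g'), g = insert (f g) g' ∧ f g ∉ g' := by
    intro g hg
    obtain ⟨a, b⟩ := mem_filter.1 hg
    rw [← b]
    exact ⟨(insert_erase (hf g a)).symm, notMem_erase _ _⟩
  rw [sum_congr rfl (g := fun g => wt g' * (1 / (f g : ℝ))) fun g hg => by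
    conv_lhs => rw [(e g hg).1, wt_insert (e g hg).2, mul_comm], ← mul_sum]
  refine mul_le_mul_of_nonneg_left ?_ (wt_nonneg _)
  rw [← sum_image (g := f) (f := fun π : ℕ => 1 / (π : ℝ)) fun g hg g'' hg'' h => by
    rw [(e g hg).1, (e g'' hg'').1, h]]
  refine sum_le_sum_of_subset_of_nonneg (fun π hπ => ?_) fun _ _ _ => by positivity
  obtain ⟨g, hg, rfl⟩ := mem_image.1 hπ
  obtain ⟨a, b⟩ := mem_filter.1 hg
  exact b ▸ h2 g a

/-- union bound -/
theorem bt_union {ι : Type} (𝒢 : Finset (Finset ℕ)) (I : Finset ι) (ℋ : ι → Finset (Finset ℕ))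
    (h : ∀ g ∈ 𝒢, ∃ i ∈ I, g ∈ ℋ i) : ∑ g ∈ 𝒢, wt g ≤ ∑ i ∈ I, ∑ g ∈ ℋ i, wt g := by
  rcases I.eq_empty_or_nonempty with rfl | ⟨i0, -⟩
  · rw [eq_empty_of_forall_notMem (s := 𝒢) fun g hg => by simpa using h g hg]
    simp
  have : Nonempty ι := ⟨i0⟩
  choose! f h1 h2 using h
  rw [← sum_fiberwise_of_maps_to h1]
  refine sum_le_sum fun i _ => sum_le_sum_of_subset_of_nonneg (fun g hg => ?_)
    fun _ _ _ => wt_nonneg _
  obtain ⟨a, b⟩ := mem_filter.1 hg
  exact b ▸ h2 g a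

/-- `η = T/K ≥ T/(2K)`, `K ≥ 100`, `U = T - R' ≥ 0.97 T`.  If `g` has no element of level `≥ η` then
`g ⊆ PL t' η` and `comp_le` gives `(C/t') e^{-U/η} ≤ (C/t') e^{-K/3}`.  If it has exactly one, `π` of level
`j ∈ [η, Z]`, then `g' = g.erase π ⊆ PL t' η`, `sg g' = U - j ≥ T/3`, `j` is determined by `g'`, `mm j ≤ C/η`, and
`rankin_tail` gives `(C/η) · C (η/t') e^{-K/3}`.  So `Ψ = C' e^{-K/3}` and the result is
`≤ 180 K² C' e^{-K/3} t/T²`; choose `K`. -/
theorem badOne_le (hP : PAP) : ∃ t1 : ℕ, ∀ ε : ℝ, 0 < ε → ∃ K : ℕ, 100 ≤ K ∧ ∀ Z T : ℕ,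
    5 * Z ≤ 3 * T → K ≤ T → ∀ R t : ℕ, t1 ≤ t → R ≤ 3 * t → 3 * t < T / K →
      WW Z T (BadOne (T / K)) R t ≤ ε * t / (T : ℝ) ^ 2 := by
  obtain ⟨t1, ht1, hst⟩ := bl_stop hP
  obtain ⟨C, hC, hm⟩ := mm_le hP
  obtain ⟨D, hD, hc⟩ := comp_le hP
  obtain ⟨E, hE, hr⟩ := rankin_tail hP
  refine ⟨t1, fun ε hε => ?_⟩
  obtain ⟨K, hK, hε'⟩ : ∃ K : ℕ, 100 ≤ K ∧
      180 * (D + C * E) * (K : ℝ) ^ 2 * Real.exp (-(K / 3)) ≤ ε := by
    refine ⟨⌈29160 * (D + C * E) / ε⌉₊ + 100, by omega, ?_⟩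
    set K := ⌈29160 * (D + C * E) / ε⌉₊ + 100 with hK
    have h1 : 29160 * (D + C * E) / ε ≤ K := (Nat.le_ceil _).trans (by exact_mod_cast (by omega))
    have h0 : (0 : ℝ) < K := by exact_mod_cast (by omega : 0 < K)
    have h2 := bl_cube (x := (K : ℝ) / 3) (by positivity)
    rw [div_le_iff₀ hε] at h1
    rw [Real.exp_neg, ← div_eq_mul_inv, div_le_iff₀ (Real.exp_pos _)]
    calc _ = 29160 * (D + C * E) * (K : ℝ) ^ 2 / 162 := by ring
      _ ≤ K * ε * (K : ℝ) ^ 2 / 162 := by gcongr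
      _ = ε * (((K : ℝ) / 3) ^ 3 / 6) := by ring
      _ ≤ _ := by gcongr; linarith
  refine ⟨K, hK, fun Z T hZ hKT R t ht hR h3 => ?_⟩
  set η := T / K with hη
  have hη1 : 1 ≤ η := by omega
  have hKη : K * η ≤ T := Nat.mul_div_le T K
  have hKη2 : T ≤ 2 * K * η := by
    have := Nat.lt_mul_div_succ T (show 0 < K by omega)
    nlinarith
  have h100 : 100 * η ≤ T := (Nat.mul_le_mul_right η hK).trans hKη
  have hη0 : (0 : ℝ) < η := by exact_mod_cast hη1
  have hKη' : (K : ℝ) * η ≤ T := by exact_mod_cast hKη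
  refine (hst Z T η _ (lowStable_badOne η) hZ (by omega) ((D + C * E) * Real.exp (-(K / 3)))
    (by positivity) (fun R t ht htη hηR hR => ?_) R t ht hR h3).trans ?_
  · have ht0 : (0 : ℝ) < t := by exact_mod_cast ht
    set 𝒢 := (PL t Z).powerset.filter (fun g => Supp T g ∧ Odd g.card ∧ sg g + R = T ∧ BadOne η g)
      with h𝒢
    change ∑ g ∈ 𝒢, wt g ≤ _
    rw [← sum_filter_add_sum_filter_not 𝒢 (fun g => ∀ π ∈ g, lv π < η), add_mul, add_div]
    refine add_le_add ?_ ?_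
    · refine (sum_le_sum_of_subset_of_nonneg (t := (PL t η).powerset.filter (fun g => sg g = T - R))
        (fun g hg => ?_) fun _ _ _ => wt_nonneg _).trans
        ((hc t η (T - R) ht hη1 (by omega)).trans ?_)
      · simp only [h𝒢, mem_filter, mem_powerset] at hg ⊢
        refine ⟨fun π hπ => ?_, by omega⟩
        have := mem_PL.1 (hg.1.1 hπ)
        exact mem_PL.2 ⟨this.1, this.2.1, (hg.2 π hπ).le⟩
      · rw [div_mul_eq_mul_div]
        gcongr D * Real.exp (- ?_) / t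
        rw [div_le_div_iff₀ (by norm_num) hη0]
        have : ((T : ℕ) : ℝ) ≤ ((T - R : ℕ) : ℝ) * 3 := by
          exact_mod_cast (by omega : T ≤ (T - R) * 3)
        linarith
    · refine (bt_rem _ ((PL t η).powerset.filter (fun g => (T : ℝ) / 3 ≤ (sg g : ℝ)))
        (fun g => if η ≤ T - R - sg g then B (T - R - sg g) else ∅) fun g hg => ?_).trans ?_
      · simp only [h𝒢, mem_filter, mem_powerset, not_forall, not_lt] at hg ⊢
        obtain ⟨⟨h1, -, -, h2, h4⟩, π, hπ, h5⟩ := hg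
        have h6 := mem_PL.1 (h1 hπ)
        have h7 : sg g = lv π + sg (g.erase π) := by
          conv_lhs => rw [← insert_erase hπ, sg_insert (notMem_erase π g)]
        refine ⟨π, hπ, ⟨fun π' hπ' => ?_, ?_⟩, ?_⟩
        · obtain ⟨h8, h9⟩ := mem_erase.1 hπ'
          have := mem_PL.1 (h1 h9)
          refine mem_PL.2 ⟨this.1, this.2.1, le_of_not_gt fun h => h8 ?_⟩
          exact card_le_one.1 h4 _ (mem_filter.2 ⟨h9, h.le⟩) _ (mem_filter.2 ⟨hπ, h5⟩)
        · rw [div_le_iff₀ (by norm_num)]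
          exact_mod_cast (by omega : T ≤ sg (g.erase π) * 3)
        · rw [show T - R - sg (g.erase π) = lv π by omega, if_pos h5]
          exact mem_B.2 ⟨h6.1, rfl⟩
      · refine (sum_le_sum (g := fun g => wt g * (C / η)) fun g _ =>
          mul_le_mul_of_nonneg_left ?_ (wt_nonneg g)).trans ?_
        · split_ifs with h
          · refine (hm _ (hη1.trans h)).trans ?_
            gcongr
          · rw [sum_empty]
            positivity
        · rw [← sum_mul]
          refine (mul_le_mul_of_nonneg_right (hr t η _ ht htη.le) (by positivity)).trans ?_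
          calc _ = C * E * Real.exp (-((T : ℝ) / 3 / η)) / t := by field_simp
            _ ≤ _ := by
              gcongr C * E * Real.exp (- ?_) / t
              rw [le_div_iff₀ hη0]
              linarith
  · have hT0 : (0 : ℝ) < T := by exact_mod_cast (by omega : 0 < T)
    have h4 : (T : ℝ) ≤ 2 * K * η := by exact_mod_cast hKη2
    rw [div_le_div_iff₀ (by positivity) (by positivity)]
    calc _ ≤ 45 * ((D + C * E) * Real.exp (-(K / 3))) * t * (2 * K * η : ℝ) ^ 2 := by gcongr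
      _ = 180 * (D + C * E) * (K : ℝ) ^ 2 * Real.exp (-(K / 3)) * t * (η : ℝ) ^ 2 := by ring
      _ ≤ _ := by gcongr

/-- Remove the two elements `π, π'` of levels `η ≤ j ≤ j' ≤ j + Δ`, `j ≤ Z ≤ T` (at most `T (Δ+1)` pairs
`(j, j')`, `mm j · mm j' ≤ C²/η²`).  The rest `g''` has `sg g'' = U - j - j'`, `U = T - R'`.  If this is `≥ 1` its mass is
`≤ C/t'` (`comp_le`); if it is `0` then `g'' = ∅` has mass `1`, and `j + j' = U` leaves at most `Δ + 1` pairs.
Since `t' ≤ T`: `Ψ = 2 C³ T (Δ+1)/η²`. -/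
theorem badClose_le (hP : PAP) : ∃ (t1 : ℕ) (C : ℝ), 0 ≤ C ∧ ∀ Z T η Δ : ℕ,
    5 * Z ≤ 3 * T → 8 * η ≤ T → ∀ R t : ℕ, t1 ≤ t → R ≤ 3 * t → 3 * t < η →
      WW Z T (BadClose η Δ) R t ≤ C * (Δ + 1) * (T : ℝ) ^ 3 / (η : ℝ) ^ 4 * t / (T : ℝ) ^ 2 := by
  obtain ⟨t1, ht1, hst⟩ := bl_stop hP
  obtain ⟨C, hC, hm⟩ := mm_le hP
  obtain ⟨D, hD, hc⟩ := comp_le hP
  refine ⟨t1, 90 * C ^ 2 * D, by positivity, fun Z T η Δ hZ h8 R t ht hR h3 => ?_⟩
  have hη1 : 1 ≤ η := by omega
  have hη0 : (0 : ℝ) < η := by exact_mod_cast hη1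
  have hT0 : (0 : ℝ) < T := by exact_mod_cast (by omega : 0 < T)
  refine (hst Z T η _ (lowStable_badClose η Δ) hZ h8 ((Δ + 1) * ((C / η) ^ 2 * (2 * D * T)))
    (by positivity) (fun R t ht htη hηR hR => ?_) R t ht hR h3).trans (le_of_eq ?_)
  · have ht0 : (0 : ℝ) < t := by exact_mod_cast ht
    have hmm : ∀ j, η ≤ j → mm j ≤ C / η := fun j hj => (hm j (hη1.trans hj)).trans (by gcongr)
    have hM : ∀ V : ℕ, 1 ≤ Z → ∑ g ∈ (PL t Z).powerset.filter (fun g => sg g + V = T), wt g ≤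
        D / t + if V = T then 1 else 0 := fun V hZ1 => by
      rcases lt_trichotomy V T with h | h | h
      · rw [if_neg h.ne, add_zero, filter_congr (q := fun g => sg g = T - V) fun g _ => by omega]
        refine (hc t Z (T - V) ht hZ1 (by omega)).trans (mul_le_of_le_one_right (by positivity) ?_)
        exact Real.exp_le_one_iff.2 (neg_nonpos.2 (by positivity))
      · rw [if_pos h]
        refine (sum_le_sum_of_subset_of_nonneg (t := {∅}) (fun g hg => ?_)
          fun _ _ _ => wt_nonneg _).trans ?_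
        · rw [mem_filter, mem_powerset] at hg
          rw [mem_singleton, eq_empty_iff_forall_notMem]
          intro π hπ
          have h1 := (mem_PL.1 (hg.1 hπ)).2.1
          have h2 : lv π ≤ sg g := single_le_sum (f := lv) (fun _ _ => Nat.zero_le _) hπ
          omega
        · simp only [sum_singleton, wt, prod_empty]
          exact le_add_of_nonneg_left (by positivity)
      · rw [filter_eq_empty_iff.2 fun g _ => by omega, sum_empty]
        positivity
    refine (bt_union _ (range (Δ + 1) ×ˢ Icc η Z) (fun x => (PL t Z).powerset.filter (fun g =>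
      sg g + R = T ∧ ∃ π ∈ g, ∃ π' ∈ g, π ≠ π' ∧ lv π = x.2 ∧ lv π' = x.2 + x.1))
      fun g hg => ?_).trans ?_
    · simp only [mem_filter, mem_powerset] at hg
      obtain ⟨h1, -, -, h2, π, hπ, π', hπ', h4, h5, h6, h7⟩ := hg
      refine ⟨(lv π' - lv π, lv π), mem_product.2 ⟨mem_range.2 (by simp only; omega),
        mem_Icc.2 ⟨h5, (mem_PL.1 (h1 hπ)).2.2⟩⟩, mem_filter.2 ⟨mem_powerset.2 h1, h2, π, hπ, π', hπ',
        h4, rfl, by simp only; omega⟩⟩
    rw [sum_product, mul_div_assoc]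
    refine (sum_le_card_nsmul _ _ ((C / η) ^ 2 * (2 * D * T) / t) fun δ _ => ?_).trans
      (by rw [card_range, nsmul_eq_mul, Nat.cast_succ])
    refine (sum_le_sum (g := fun j => (C / η) ^ 2 * (D / t + if R + (j + δ) + j = T then 1 else 0))
      fun j hj => ?_).trans ?_
    · rw [mem_Icc] at hj
      refine (bt_rem _ ((PL t Z).powerset.filter (fun g => sg g + (R + (j + δ)) = T ∧
        ∃ π ∈ g, lv π = j)) (fun _ => B (j + δ)) fun g hg => ?_).trans ?_
      · simp only [mem_filter, mem_powerset] at hg ⊢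
        obtain ⟨h1, h2, π, hπ, π', hπ', h4, h5, h6⟩ := hg
        have h7 : sg g = lv π' + sg (g.erase π') := by
          conv_lhs => rw [← insert_erase hπ', sg_insert (notMem_erase π' g)]
        exact ⟨π', hπ', ⟨(erase_subset _ _).trans h1, by omega, π, mem_erase.2 ⟨h4, hπ⟩, h5⟩,
          mem_B.2 ⟨(mem_PL.1 (h1 hπ')).1, h6⟩⟩
      rw [← sum_mul, sq, mul_assoc, mul_comm (C / η)]
      refine mul_le_mul ?_ (hmm _ (by omega)) (mm_nonneg _) (by positivity)
      refine (bt_rem _ ((PL t Z).powerset.filter (fun g => sg g + (R + (j + δ) + j) = T))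
        (fun _ => B j) fun g hg => ?_).trans ?_
      · simp only [mem_filter, mem_powerset] at hg ⊢
        obtain ⟨h1, h2, π, hπ, h5⟩ := hg
        have h7 : sg g = lv π + sg (g.erase π) := by
          conv_lhs => rw [← insert_erase hπ, sg_insert (notMem_erase π g)]
        exact ⟨π, hπ, ⟨(erase_subset _ _).trans h1, by omega⟩, mem_B.2 ⟨(mem_PL.1 (h1 hπ)).1, h5⟩⟩
      rw [← sum_mul, mul_comm (C / η)]
      exact mul_le_mul (hM _ (by omega)) (hmm _ hj.1) (mm_nonneg _) (by positivity)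
    · rw [← mul_sum, mul_div_assoc, sum_add_distrib, sum_const, sum_boole, nsmul_eq_mul]
      refine mul_le_mul_of_nonneg_left ?_ (by positivity)
      have a1 : ((Icc η Z).card : ℝ) ≤ T := by
        rw [Nat.card_Icc]
        exact_mod_cast (by omega : Z + 1 - η ≤ T)
      have a2 : (((Icc η Z).filter (fun j => R + (j + δ) + j = T)).card : ℝ) ≤ 1 := by
        exact_mod_cast card_le_one.2 fun j hj j' hj' => by
          rw [mem_filter] at hj hj'
          omega
      have a3 : 1 ≤ D * T / t := by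
        rw [le_div_iff₀ ht0]
        have : (t : ℝ) ≤ T := by exact_mod_cast (by omega : t ≤ T)
        nlinarith
      calc _ ≤ T * (D / t) + D * T / t := add_le_add (by gcongr) (a2.trans a3)
        _ = _ := by ring
  · field_simp
    ring

end Crest.Agent.R1
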