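import Crest.Agent.R1.Defs

/-!
# R1 / Basic1 : levels, boxes, products, counting in progressions, `Lam`

Elementary API.  `lv p = Nat.clog 2 p` (`Nat.clog_le_iff_le_pow`/`Nat.le_pow_iff_clog_le`,
`Nat.pow_lt_iff_lt_clog`, `Nat.clog_mono_right`, `Nat.pow_pred_clog_lt_self`).
-/

set_option autoImplicit false

noncomputable section

open scoped Classical

namespace Crest.Agent.R1

open Finset

theorem lv_le_iff {p j : ℕ} : lv p ≤ j ↔ p ≤ 2 ^ j := by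
  exact Nat.clog_le_iff_le_pow one_lt_two

theorem lt_lv_iff {p j : ℕ} : j < lv p ↔ 2 ^ j < p := by
  exact Nat.lt_clog_iff_pow_lt one_lt_two

theorem le_two_pow_lv (p : ℕ) : p ≤ 2 ^ lv p := by
  exact lv_le_iff.1 le_rfl

theorem two_pow_lv_lt {p : ℕ} (hp : 2 ≤ p) : 2 ^ lv p < 2 * p := by
  have h1 : 1 ≤ lv p := Nat.clog_pos one_lt_two hp
  have h2 : 2 ^ (lv p - 1) < p := lt_lv_iff.1 (by omega)
  rw [← Nat.sub_add_cancel h1, pow_succ]
  omega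

theorem two_pow_lv_pred_lt {p : ℕ} (hp : 2 ≤ p) : 2 ^ (lv p - 1) < p := by
  have h1 : 0 < lv p := Nat.clog_pos one_lt_two hp
  exact lt_lv_iff.1 (by omega)

theorem lv_mono {p q : ℕ} (h : p ≤ q) : lv p ≤ lv q := by
  exact Nat.clog_mono_right 2 h

theorem lt_of_lv_lt {p q : ℕ} (h : lv p < lv q) : p < q := by
  exact lt_of_not_ge fun h' => absurd (lv_mono h') (not_le.2 h)

theorem one_le_lv {p : ℕ} (hp : 2 ≤ p) : 1 ≤ lv p := by
  exact Nat.clog_pos one_lt_two hp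

theorem mem_B {p j : ℕ} : p ∈ B j ↔ p.Prime ∧ lv p = j := by
  rw [B, mem_filter, mem_range, Nat.lt_succ_iff, ← lv_le_iff]
  exact ⟨fun h => h.2, fun h => ⟨h.2.le, h⟩⟩

theorem mem_PL {p a b : ℕ} : p ∈ PL a b ↔ p.Prime ∧ a ≤ lv p ∧ lv p ≤ b := by
  rw [PL, mem_filter, mem_range, Nat.lt_succ_iff, ← lv_le_iff]
  tauto

theorem mem_SP {π t0 p : ℕ} : π ∈ SP t0 p ↔ π.Prime ∧ t0 < lv π ∧ π < p := by
  rw [SP, mem_filter, mem_range]
  tauto

theorem PL_mono {a a' b b' : ℕ} (ha : a' ≤ a) (hb : b ≤ b') : PL a b ⊆ PL a' b' := by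
  intro p hp
  rw [mem_PL] at hp ⊢
  exact ⟨hp.1, ha.trans hp.2.1, hp.2.2.trans hb⟩

theorem card_B_le (j : ℕ) : (B j).card ≤ 2 ^ j := by
  have h : B j ⊆ Icc 1 (2 ^ j) := fun p hp =>
    mem_Icc.2 ⟨(mem_B.1 hp).1.pos, lv_le_iff.1 (mem_B.1 hp).2.le⟩
  simpa using card_le_card h

theorem sum_PL (a b : ℕ) (F : ℕ → ℝ) : ∑ p ∈ PL a b, F p = ∑ j ∈ Icc a b, ∑ p ∈ B j, F p := by
  rw [← sum_fiberwise_of_maps_to (g := lv) (t := Icc a b) fun p hp => mem_Icc.2 (mem_PL.1 hp).2]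
  refine sum_congr rfl fun j hj => sum_congr ?_ fun _ _ => rfl
  ext p
  rw [mem_filter, mem_PL, mem_B]
  exact ⟨fun h => ⟨h.1.1, h.2⟩, fun h => ⟨⟨h.1, h.2 ▸ mem_Icc.1 hj⟩, h.2⟩⟩

theorem sum_PL_lv (a b : ℕ) (F : ℕ → ℝ) :
    ∑ p ∈ PL a b, 1 / (p : ℝ) * F (lv p) = ∑ j ∈ Icc a b, mm j * F j := by
  rw [sum_PL]
  refine sum_congr rfl fun j _ => ?_
  rw [mm, sum_mul]
  exact sum_congr rfl fun p hp => by rw [(mem_B.1 hp).2]

theorem mm_nonneg (j : ℕ) : 0 ≤ mm j := by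
  exact sum_nonneg fun _ _ => by positivity

theorem wt_nonneg (d : Finset ℕ) : 0 ≤ wt d := by
  exact prod_nonneg fun _ _ => by positivity

theorem wt_eq (d : Finset ℕ) : wt d = 1 / (pr d : ℝ) := by
  simp [wt, pr]

theorem wb_nonneg (x : ℕ × Finset ℕ) : 0 ≤ wb x := by
  exact div_nonneg (wt_nonneg _) (by positivity)

theorem wt_insert {p : ℕ} {d : Finset ℕ} (h : p ∉ d) : wt (insert p d) = 1 / (p : ℝ) * wt d := by
  exact prod_insert h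

theorem sg_insert {p : ℕ} {d : Finset ℕ} (h : p ∉ d) : sg (insert p d) = lv p + sg d := by
  exact sum_insert h

theorem pr_insert {p : ℕ} {d : Finset ℕ} (h : p ∉ d) : pr (insert p d) = p * pr d := by
  exact prod_insert h

theorem wt_union {d e : Finset ℕ} (h : Disjoint d e) : wt (d ∪ e) = wt d * wt e := by
  exact prod_union h

theorem sg_union {d e : Finset ℕ} (h : Disjoint d e) : sg (d ∪ e) = sg d + sg e := by
  exact sum_union h

theorem pr_union {d e : Finset ℕ} (h : Disjoint d e) : pr (d ∪ e) = pr d * pr e := by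
  exact prod_union h

theorem sg_mono {d e : Finset ℕ} (h : d ⊆ e) : sg d ≤ sg e := by
  exact sum_le_sum_of_subset h

theorem sg_filter_add (d : Finset ℕ) (a : ℕ) :
    sg (d.filter (fun π => lv π < a)) + sg (d.filter (fun π => a ≤ lv π)) = sg d := by
  simpa only [sg, not_lt] using sum_filter_add_sum_filter_not d (fun π => lv π < a) lv

theorem wt_filter_mul (d : Finset ℕ) (a : ℕ) :
    wt (d.filter (fun π => lv π < a)) * wt (d.filter (fun π => a ≤ lv π)) = wt d := by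
  simpa only [wt, not_lt] using
    prod_filter_mul_prod_filter_not d (fun π => lv π < a) fun p => 1 / (p : ℝ)

theorem pr_le (d : Finset ℕ) : pr d ≤ 2 ^ sg d := by
  rw [sg, ← prod_pow_eq_pow_sum]
  exact prod_le_prod' fun p _ => le_two_pow_lv p

theorem two_pow_sg_le {d : Finset ℕ} (hd : ∀ p ∈ d, p.Prime) : 2 ^ sg d ≤ 2 ^ d.card * pr d := by
  rw [sg, ← prod_pow_eq_pow_sum, pr, ← prod_const, ← prod_mul_distrib]
  exact prod_le_prod' fun p hp => (two_pow_lv_lt (hd p hp).two_le).le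

theorem pr_pos {d : Finset ℕ} (hd : ∀ p ∈ d, p.Prime) : 0 < pr d := by
  exact prod_pos fun p hp => (hd p hp).pos

theorem primeFactors_pr {d : Finset ℕ} (hd : ∀ p ∈ d, p.Prime) : (pr d).primeFactors = d := by
  exact Nat.primeFactors_prod hd

theorem prime_dvd_pr {d : Finset ℕ} (hd : ∀ p ∈ d, p.Prime) {π : ℕ} (hπ : π.Prime) :
    π ∣ pr d ↔ π ∈ d := by
  rw [← primeFactors_pr hd, Nat.mem_primeFactors, primeFactors_pr hd]
  exact ⟨fun h => ⟨hπ, h, (pr_pos hd).ne'⟩, fun h => h.2.1⟩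

theorem pr_inj {d e : Finset ℕ} (hd : ∀ p ∈ d, p.Prime) (he : ∀ p ∈ e, p.Prime) (h : pr d = pr e) :
    d = e := by
  rw [← primeFactors_pr hd, h, primeFactors_pr he]

theorem pr_dvd_iff {d : Finset ℕ} (hd : ∀ p ∈ d, p.Prime) (n : ℤ) :
    ((pr d : ℕ) : ℤ) ∣ n ↔ ∀ p ∈ d, (p : ℤ) ∣ n := by
  simp only [Int.natCast_dvd]
  exact ⟨fun h p hp => (dvd_prod_of_mem _ hp).trans h,
    prod_primes_dvd _ fun p hp => (hd p hp).prime⟩

theorem coprime_pr {d : Finset ℕ} (hd : ∀ p ∈ d, p.Prime) {n : ℕ} (h : ∀ p ∈ d, ¬ p ∣ n) :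
    Nat.Coprime n (pr d) := by
  exact Nat.Coprime.prod_right fun p hp => ((hd p hp).coprime_iff_not_dvd.2 (h p hp)).symm

/-- a family of sets of primes with products `≤ Y` has at most `Y` members -/
theorem card_le_of_pr_le (𝒟 : Finset (Finset ℕ)) (Y : ℕ)
    (h : ∀ d ∈ 𝒟, (∀ p ∈ d, p.Prime) ∧ pr d ≤ Y) : 𝒟.card ≤ Y := by
  have := card_le_card_of_injOn (t := Icc 1 Y) pr
    (fun d hd => mem_coe.2 (mem_Icc.2 ⟨pr_pos (h d hd).1, (h d hd).2⟩))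
    fun d hd e he => pr_inj (h d hd).1 (h e he).1
  simpa using this

/-- a non-zero integer of size `≤ 2^((j-1) K)` has at most `K` prime divisors in `B j` -/
theorem card_B_dvd_le {j K : ℕ} (hj : 2 ≤ j) {n : ℤ} (hn : n ≠ 0) (h : |n| ≤ 2 ^ ((j - 1) * K)) :
    ((B j).filter (fun π : ℕ => (π : ℤ) ∣ n)).card ≤ K := by
  have h1 : ∀ p ∈ (B j).filter (fun π : ℕ => (π : ℤ) ∣ n), p.Prime := fun p hp =>
    (mem_B.1 (mem_filter.1 hp).1).1
  have h2 := Int.le_of_dvd (abs_pos.2 hn)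
    ((dvd_abs _ _).2 ((pr_dvd_iff h1 n).2 fun p hp => (mem_filter.1 hp).2))
  have h3 := pow_card_le_prod ((B j).filter (fun π : ℕ => (π : ℤ) ∣ n)) (fun p => p) (2 ^ (j - 1))
    fun p hp => (lt_lv_iff.1 (by rw [(mem_B.1 (mem_filter.1 hp).1).2]; omega)).le
  have h4 : pr ((B j).filter (fun π : ℕ => (π : ℤ) ∣ n)) ≤ 2 ^ ((j - 1) * K) := by
    exact_mod_cast h2.trans h
  have h5 := h3.trans h4
  rw [← pow_mul, Nat.pow_le_pow_iff_right one_lt_two] at h5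
  exact Nat.le_of_mul_le_mul_left h5 (by omega)

/-- counting in a progression (compare `Crest.Agent.R19.count_dvd`, `Nat.count_modEq_card`,
`Int.Ico_filter_modEq_card`) -/
theorem cnt_ap (a : ℤ) (M F I : ℕ) (hF : 1 ≤ F) (h : Nat.Coprime M F) :
    |(((range I).filter (fun i : ℕ => (F : ℤ) ∣ a + M * i)).card : ℝ) - I / F| ≤ 1 := by
  have : NeZero F := ⟨by omega⟩
  have hu : IsUnit (M : ZMod F) := (ZMod.isUnit_iff_coprime M F).2 h
  obtain ⟨v, hv⟩ : ∃ v : ℕ, (a : ZMod F) = -(M * v) := by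
    obtain ⟨w, hw⟩ := hu.exists_right_inv
    refine ⟨(-(w * a)).val, ?_⟩
    rw [ZMod.natCast_zmod_val, mul_neg, neg_neg, ← mul_assoc, hw, one_mul]
  have e : (range I).filter (fun i : ℕ => (F : ℤ) ∣ a + M * i) =
      (range I).filter (fun i => i ≡ v [MOD F]) := filter_congr fun i _ => by
    rw [← ZMod.intCast_zmod_eq_zero_iff_dvd, ← ZMod.natCast_eq_natCast_iff]
    push_cast
    rw [hv, neg_add_eq_zero, hu.mul_right_inj, eq_comm]
  rw [e, ← Nat.count_eq_card_filter_range, Nat.count_modEq_card _ hF, ← Nat.floor_div_eq_div (K := ℝ)]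
  have h1 := Nat.floor_le (show (0 : ℝ) ≤ I / F by positivity)
  have h2 := Nat.lt_floor_add_one ((I : ℝ) / F)
  rw [abs_le]
  split_ifs <;> push_cast <;> constructor <;> linarith

theorem cnt_approx (a0 : ℤ) (X m : ℕ) (hm : 1 ≤ m) : |(cnt a0 X m : ℝ) - X / m| ≤ 1 := by
  simpa [cnt] using cnt_ap a0 1 m X hm (Nat.coprime_one_left m)

theorem le_two_pow_Lam (N : ℕ) : N ≤ 2 ^ Lam N := by
  exact le_two_pow_lv N

theorem two_pow_Lam_lt {N : ℕ} (hN : 2 ≤ N) : 2 ^ Lam N < 2 * N := by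
  exact two_pow_lv_lt hN

theorem b1_poly (A k κ : ℕ) (hκ : 1 ≤ κ) : ∃ N0 : ℕ, ∀ N ≥ N0, A * N ^ k ≤ 2 ^ (N / κ) := by
  obtain ⟨M0, h⟩ := Filter.eventually_atTop.1 ((tendsto_pow_const_div_const_pow_of_one_lt k
    (r := 2) one_lt_two).eventually_le_const
    (show (0 : ℝ) < 1 / ((A * (2 * κ) ^ k : ℕ) + 1) by positivity))
  refine ⟨κ * (M0 + 1), fun N hN => ?_⟩
  have h1 : M0 + 1 ≤ N / κ := (Nat.le_div_iff_mul_le hκ).2 (by rwa [mul_comm])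
  have h2 := h (N / κ) (by omega)
  rw [div_le_div_iff₀ (by positivity) (by positivity), one_mul] at h2
  have h3 : (N / κ) ^ k * (A * (2 * κ) ^ k + 1) ≤ 2 ^ (N / κ) := by exact_mod_cast h2
  have h4 : N ≤ 2 * κ * (N / κ) := by
    have := Nat.lt_mul_div_succ N hκ
    nlinarith
  calc A * N ^ k ≤ A * (2 * κ * (N / κ)) ^ k := by gcongr
    _ ≤ _ := le_trans (by rw [mul_pow]; nlinarith [Nat.zero_le ((N / κ) ^ k)]) h3

theorem b1_lam (A k : ℕ) : ∃ N0 : ℕ, ∀ N ≥ N0, A + 8 ≤ Lam N ∧ 2 ^ (Lam N - 1) < N ∧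
    A * Lam N ^ k ≤ 2 ^ (Lam N / 4) := by
  obtain ⟨L0, h⟩ := b1_poly A k 4 (by norm_num)
  refine ⟨2 ^ (L0 + A + 8) + 1, fun N hN => ?_⟩
  have h1 : L0 + A + 8 < Lam N := lt_lv_iff.2 hN
  exact ⟨by omega, lt_lv_iff.1 (Nat.sub_one_lt (n := Lam N) (by omega)), h _ (by omega)⟩

/-- `Λ → ∞` and `Λ^k = o(N)` -/
theorem lam_small (A k : ℕ) : ∃ N0 : ℕ, ∀ N ≥ N0, A ≤ Lam N ∧ A * Lam N ^ k ≤ N := by
  obtain ⟨N0, h⟩ := b1_lam A k
  refine ⟨N0, fun N hN => ?_⟩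
  obtain ⟨h1, h2, h3⟩ := h N hN
  exact ⟨by omega, h3.trans ((Nat.pow_le_pow_right two_pos (by omega)).trans h2.le)⟩

/-- `Λ^k √N = o(N)` in the form used for blocks of size `2^((Λ+1)/2)` -/
theorem lam_small_sqrt (A k : ℕ) :
    ∃ N0 : ℕ, ∀ N ≥ N0, A * Lam N ^ k * 2 ^ ((Lam N + 1) / 2) ≤ N := by
  obtain ⟨N0, h⟩ := b1_lam A k
  refine ⟨N0, fun N hN => ?_⟩
  obtain ⟨h1, h2, h3⟩ := h N hN
  refine (Nat.mul_le_mul_right _ h3).trans (le_trans ?_ h2.le)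
  rw [← pow_add]
  exact Nat.pow_le_pow_right two_pos (by omega)

/-- `A N^k ≤ 2^(N/κ)` eventually -/
theorem poly_le_two_pow (A k κ : ℕ) (hκ : 1 ≤ κ) : ∃ N0 : ℕ, ∀ N ≥ N0, A * N ^ k ≤ 2 ^ (N / κ) := by
  exact b1_poly A k κ hκ

theorem params : ∃ N0 : ℕ, ∀ N ≥ N0, TT N + 3 * Lam N = N ∧ 5 * ZZ N ≤ 3 * TT N ∧ N ≤ 2 * TT N ∧
    TT N ≤ 2 * ZZ N ∧ 2 * ZZ N ≤ N + 2 + 6 * Lam N ∧ N + 1 + 6 * Lam N ≤ 2 * ZZ N ∧ 100 ≤ TT N ∧
    3 ≤ Lam N := by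
  obtain ⟨N0, h⟩ := lam_small 100 1
  refine ⟨N0, fun N hN => ?_⟩
  obtain ⟨h1, h2⟩ := h N hN
  rw [pow_one] at h2
  unfold TT ZZ
  omega

end Crest.Agent.R1
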