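import Crest.Agent.R1.Basic1

/-!
# R1 / Basic2 : the support condition `Supp`, boundary pairs, elementary facts on `WW`

`Supp T d` says: for each `p ∈ d` whose rank from the top `(up d p).card` is even,
`sg (up d p) + 2 lv p < T`.
-/

set_option autoImplicit false

noncomputable section

open scoped Classical

namespace Crest.Agent.R1

open Finset

theorem supp_empty (T : ℕ) : Supp T ∅ := by
  exact fun p hp => absurd hp (notMem_empty p)

/-- an upward closed subset: `up d' p = up d p` for `p ∈ d'` -/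
theorem Supp.upward {T : ℕ} {d d' : Finset ℕ} (h : Supp T d) (hd : d' ⊆ d)
    (hup : ∀ p ∈ d', ∀ π ∈ d, p ≤ π → π ∈ d') : Supp T d' := by
  intro p hp
  have e : up d' p = up d p := by
    ext π
    simp only [up, mem_filter]
    exact ⟨fun h => ⟨hd h.1, h.2⟩, fun h => ⟨hup p hp π h.1 h.2, h.2⟩⟩
  rw [e]
  exact h p (hd hp)

theorem Supp.filter_lv {T : ℕ} {d : Finset ℕ} (h : Supp T d) (a : ℕ) :
    Supp T (d.filter (fun π => a ≤ lv π)) := by
  exact h.upward (filter_subset _ _) fun p hp π hπ hle =>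
    mem_filter.2 ⟨hπ, (mem_filter.1 hp).2.trans (lv_mono hle)⟩

theorem Supp.of_insert_min {T p : ℕ} {g : Finset ℕ} (h : Supp T (insert p g)) (hp : ∀ π ∈ g, p < π) :
    Supp T g := by
  exact h.upward (subset_insert _ _) fun q hq π hπ hle =>
    (mem_insert.1 hπ).resolve_left fun e => absurd (hp q hq) (not_lt.2 (e ▸ hle))

/-- adding a new minimum: the only new condition is the one at `p` (rank `g.card + 1`) -/
theorem supp_insert_min {T p : ℕ} {g : Finset ℕ} (hp : ∀ π ∈ g, p < π) :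
    Supp T (insert p g) ↔ Supp T g ∧ (Odd g.card → sg g + 3 * lv p < T) := by
  have h0 : p ∉ g := fun h => lt_irrefl _ (hp p h)
  have e : up (insert p g) p = insert p g := filter_true_of_mem fun π hπ =>
    (mem_insert.1 hπ).elim (fun h => h.ge) fun h => (hp π h).le
  have e2 : (Even (up (insert p g) p).card → sg (up (insert p g) p) + 2 * lv p < T) ↔
      (Odd g.card → sg g + 3 * lv p < T) := by
    rw [e, card_insert_of_notMem h0, sg_insert h0, Nat.even_add_one, Nat.not_even_iff_odd]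
    exact imp_congr_right fun _ => by omega
  refine ⟨fun h => ⟨h.of_insert_min hp, e2.1 (h p (mem_insert_self _ _))⟩, fun h q hq => ?_⟩
  rcases mem_insert.1 hq with rfl | hq
  · exact e2.2 h.2
  · rw [up, filter_insert, if_neg (not_le.2 (hp q hq))]
    exact h.1 q hq

theorem b2_min {d : Finset ℕ} (h : 0 < d.card) :
    ∃ x g, d = insert x g ∧ x ∉ g ∧ ∀ π ∈ g, x < π := by
  obtain ⟨x, hx, h1⟩ := exists_min_image d id (card_pos.1 h)
  exact ⟨x, d.erase x, (insert_erase hx).symm, notMem_erase _ _, fun π hπ =>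
    lt_of_le_of_ne (h1 π (mem_of_mem_erase hπ)) (ne_of_mem_erase hπ).symm⟩

/-- If `d` has at least two elements and `p` is a lower bound for `d` then `sg d + lv p < T`:
look at the minimum `x₀` (if `d.card` is even) or at the second smallest element `x₁` (if it is odd:
`sg d - lv x₀ + 2 lv x₁ < T` and `lv p ≤ lv x₀ ≤ lv x₁`). -/
theorem Supp.room {T p : ℕ} {d : Finset ℕ} (h : Supp T d) (h2 : 2 ≤ d.card) (hp : ∀ π ∈ d, p ≤ π) :
    sg d + lv p < T := by
  obtain ⟨x, g, rfl, hx, h3⟩ := b2_min (d := d) (by omega)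
  have h4 := lv_mono (hp x (mem_insert_self _ _))
  obtain ⟨h5, h6⟩ := (supp_insert_min h3).1 h
  rw [card_insert_of_notMem hx] at h2
  rw [sg_insert hx]
  rcases Nat.even_or_odd g.card with h7 | h7
  · obtain ⟨y, g', rfl, hy, h8⟩ := b2_min (d := g) (by omega)
    rw [card_insert_of_notMem hy, Nat.even_add_one, Nat.not_even_iff_odd] at h7
    have h9 := ((supp_insert_min h8).1 h5).2 h7
    have h10 := lv_mono (h3 y (mem_insert_self _ _)).le
    rw [sg_insert hy]
    omega
  · have := h6 h7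
    omega

theorem Supp.sg_lt {T Z : ℕ} {d : Finset ℕ} (h : Supp T d) (hZ : ∀ p ∈ d, lv p ≤ Z) (hZT : Z < T) :
    sg d < T := by
  rcases le_or_gt 2 d.card with h2 | h2
  · exact lt_of_le_of_lt (Nat.le_add_right _ _) (h.room (p := 0) h2 fun _ _ => Nat.zero_le _)
  · have h3 : sg d ≤ d.card * Z := sum_le_card_nsmul d lv Z hZ
    have h4 : d.card * Z ≤ 1 * Z := Nat.mul_le_mul_right _ (by omega)
    omega

/-- Replace `π ∈ d` by `π'` with the same position in the order and with smaller or equal level.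
For `x ∈ d`, `x ≠ π`, the sets `up` have the same cardinality and `sg` does not increase. -/
theorem Supp.replace {T π π' : ℕ} {d : Finset ℕ} (h : Supp T d) (hπ : π ∈ d)
    (hord : ∀ x ∈ d, x ≠ π → (x < π → x < π') ∧ (π < x → π' < x)) (hl : lv π' ≤ lv π) :
    Supp T (insert π' (d.erase π)) := by
  obtain ⟨φ, h1, h2⟩ : ∃ φ : ℕ → ℕ, φ π = π' ∧ ∀ x, x ≠ π → φ x = x :=
    ⟨fun x => if x = π then π' else x, if_pos rfl, fun x hx => if_neg hx⟩
  have h3 : StrictMonoOn φ d := fun x hx y hy hxy => by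
    by_cases ex : x = π
    · rw [ex] at hxy ⊢
      rw [h1, h2 y hxy.ne']
      exact (hord y hy hxy.ne').2 hxy
    · by_cases ey : y = π
      · rw [ey] at hxy ⊢
        rw [h1, h2 x ex]
        exact (hord x hx ex).1 hxy
      · rwa [h2 x ex, h2 y ey]
  have h4 : ∀ x, lv (φ x) ≤ lv x := fun x => by
    by_cases ex : x = π
    · rwa [ex, h1]
    · rw [h2 x ex]
  have e : insert π' (d.erase π) = d.image φ := by
    conv_rhs => rw [← insert_erase hπ, image_insert, h1,
      image_congr (g := id) fun x hx => h2 x (ne_of_mem_erase hx), image_id]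
  rw [e]
  intro y hy
  obtain ⟨x, hx, rfl⟩ := mem_image.1 hy
  have e2 : up (d.image φ) (φ x) = (up d x).image φ := by
    rw [up, up, filter_image, filter_congr fun z hz => h3.le_iff_le hx hz]
  have h5 : Set.InjOn φ (up d x) := h3.injOn.mono (coe_subset.2 (filter_subset _ _))
  rw [e2, card_image_of_injOn h5, sg, sum_image h5]
  intro h6
  have h7 := h x hx h6
  have h8 : ∑ z ∈ up d x, lv (φ z) ≤ sg (up d x) := sum_le_sum fun z _ => h4 z
  have h9 := h4 x
  omega

theorem mem_SS {t0 Z T : ℕ} {d : Finset ℕ} :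
    d ∈ SS t0 Z T ↔ (∀ p ∈ d, p.Prime ∧ t0 < lv p ∧ lv p ≤ Z) ∧ Supp T d := by
  simp only [SS, mem_filter, mem_powerset, subset_iff, mem_PL, Nat.succ_le_iff]

theorem mem_BP {t0 Z T : ℕ} {x : ℕ × Finset ℕ} :
    x ∈ BP t0 Z T ↔ (x.1.Prime ∧ t0 < lv x.1 ∧ lv x.1 ≤ Z) ∧
      (∀ p ∈ x.2, p.Prime ∧ t0 < lv p ∧ lv p ≤ Z) ∧ IsBd T x := by
  simp only [BP, mem_filter, mem_product, mem_powerset, subset_iff, mem_PL, Nat.succ_le_iff, and_assoc]

/-- `pr d ≤ 2^(sg d) ≤ 2^T` and `card_le_of_pr_le` -/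
theorem card_SS_le {t0 Z T : ℕ} (hZT : Z < T) : (SS t0 Z T).card ≤ 2 ^ T := by
  refine card_le_of_pr_le _ _ fun d hd => ?_
  obtain ⟨h1, h2⟩ := mem_SS.1 hd
  exact ⟨fun p hp => (h1 p hp).1, (pr_le d).trans (Nat.pow_le_pow_right two_pos
    (h2.sg_lt (fun p hp => (h1 p hp).2.2) hZT).le)⟩

/-- `(p, g) ↦ insert p g` is injective on boundary pairs (`p` is the minimum) and
`pr (insert p g) ≤ 2^(2Z)`: trivial if `g.card = 1`, otherwise `Supp.room`. -/
theorem card_BP_le {t0 Z T : ℕ} (hT : T ≤ 2 * Z) : (BP t0 Z T).card ≤ 2 ^ (2 * Z) := by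
  have h0 : ∀ x ∈ BP t0 Z T, ∀ π ∈ x.2, x.1 < π := fun x hx => (mem_BP.1 hx).2.2.2.2.1
  have h1 : ∀ x ∈ BP t0 Z T, x.1 ∉ x.2 := fun x hx h => lt_irrefl _ (h0 x hx _ h)
  rw [← card_image_of_injOn (f := fun x : ℕ × Finset ℕ => insert x.1 x.2) fun x hx y hy h => ?_]
  · refine card_le_of_pr_le _ _ fun d hd => ?_
    obtain ⟨x, hx, rfl⟩ := mem_image.1 hd
    obtain ⟨h2, h3, h4, h5, -⟩ := mem_BP.1 hx
    refine ⟨fun p hp => (mem_insert.1 hp).elim (fun e => e ▸ h2.1) fun h => (h3 p h).1,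
      (pr_le _).trans (Nat.pow_le_pow_right two_pos ?_)⟩
    rw [sg_insert (h1 x hx)]
    rcases le_or_gt 2 x.2.card with h6 | h6
    · have := h4.room h6 fun π hπ => (h0 x hx π hπ).le
      omega
    · have h7 : sg x.2 ≤ x.2.card * Z := sum_le_card_nsmul _ lv Z fun p hp => (h3 p hp).2.2
      have h8 : x.2.card * Z ≤ 1 * Z := Nat.mul_le_mul_right _ (by omega)
      omega
  · have h' : insert x.1 x.2 = insert y.1 y.2 := h
    have e : x.1 = y.1 := by
      by_contra hne
      exact lt_asymm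
        (h0 y hy _ ((mem_insert.1 (h' ▸ mem_insert_self x.1 x.2)).resolve_left hne))
        (h0 x hx _ ((mem_insert.1 (h' ▸ mem_insert_self y.1 y.2)).resolve_left (Ne.symm hne)))
    refine Prod.ext e ?_
    rw [← erase_insert (h1 x hx), h', e, erase_insert (h1 y hy)]

theorem WW_nonneg (Z T : ℕ) (Q : Finset ℕ → Prop) (R t : ℕ) : 0 ≤ WW Z T Q R t := by
  exact sum_nonneg fun _ _ => wt_nonneg _

theorem WS_nonneg (Z T R a : ℕ) : 0 ≤ WS Z T R a := by
  exact sum_nonneg fun _ _ => wt_nonneg _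

theorem WW_mono (Z T : ℕ) {Q Q' : Finset ℕ → Prop} (h : ∀ g, Q g → Q' g) (R t : ℕ) :
    WW Z T Q R t ≤ WW Z T Q' R t := by
  refine sum_le_sum_of_subset_of_nonneg (fun g hg => ?_) fun _ _ _ => wt_nonneg _
  rw [mem_filter] at hg ⊢
  exact ⟨hg.1, hg.2.1, hg.2.2.1, hg.2.2.2.1, h g hg.2.2.2.2⟩

theorem WW_or (Z T : ℕ) (Q Q' : Finset ℕ → Prop) (R t : ℕ) :
    WW Z T (fun g => Q g ∨ Q' g) R t ≤ WW Z T Q R t + WW Z T Q' R t := by
  rw [WW, WW, WW, ← sum_union_inter]
  refine le_add_of_le_of_nonneg (sum_le_sum_of_subset_of_nonneg (fun g hg => ?_)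
    fun _ _ _ => wt_nonneg _) (sum_nonneg fun _ _ => wt_nonneg _)
  simp only [mem_filter, mem_union] at hg ⊢
  tauto

/-- Split `g` at level `a`: `g ↦ (g.filter (lv < a), g.filter (a ≤ lv))` is injective, the low part lies
in `PL t (a-1)`, the high part lies in `PL a Z` and is supported (`Supp.filter_lv`). -/
theorem WW_split (Z T : ℕ) (Q Q' : Finset ℕ → Prop) (R t a : ℕ)
    (hQ : ∀ g, sg g + R = T → Q g → Q' (g.filter (fun π => lv π < a))) :
    WW Z T Q R t ≤ ∑ h ∈ (PL t (a - 1)).powerset.filter Q', wt h * WS Z T (R + sg h) a := by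
  rw [WW, ← sum_fiberwise_of_maps_to (g := fun g => g.filter (fun π => lv π < a))
    (t := (PL t (a - 1)).powerset.filter Q') fun g hg => ?_]
  · refine sum_le_sum fun h _ => ?_
    have e : ∀ g : Finset ℕ, g.filter (fun π => lv π < a) ∪ g.filter (fun π => a ≤ lv π) = g :=
      fun g => by simpa only [not_lt] using filter_union_filter_not_eq (fun π => lv π < a) g
    rw [sum_congr rfl fun g hg => by rw [← wt_filter_mul g a, (mem_filter.1 hg).2], ← mul_sum,
      ← sum_image (g := fun g : Finset ℕ => g.filter (fun π => a ≤ lv π)) fun g hg g' hg' h1 => by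
        rw [← e g, ← e g', (mem_filter.1 hg).2, (mem_filter.1 hg').2, show g.filter _ = _ from h1]]
    refine mul_le_mul_of_nonneg_left (sum_le_sum_of_subset_of_nonneg (fun g' hg' => ?_)
      fun _ _ _ => wt_nonneg _) (wt_nonneg _)
    obtain ⟨g, hg, rfl⟩ := mem_image.1 hg'
    obtain ⟨h1, rfl⟩ := mem_filter.1 hg
    obtain ⟨h2, h3, -, h4, -⟩ := mem_filter.1 h1
    refine mem_filter.2 ⟨mem_powerset.2 fun π hπ => ?_, h3.filter_lv a, ?_⟩
    · obtain ⟨h5, h6⟩ := mem_filter.1 hπ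
      have h7 := mem_PL.1 (mem_powerset.1 h2 h5)
      exact mem_PL.2 ⟨h7.1, h6, h7.2.2⟩
    · have := sg_filter_add g a
      omega
  · obtain ⟨h2, -, -, h4, h5⟩ := mem_filter.1 hg
    refine mem_filter.2 ⟨mem_powerset.2 fun π hπ => ?_, hQ g h4 h5⟩
    obtain ⟨h5, h6⟩ := mem_filter.1 hπ
    have h7 := mem_PL.1 (mem_powerset.1 h2 h5)
    exact mem_PL.2 ⟨h7.1, h7.2.1, by omega⟩

theorem lowStable_true (a : ℕ) : LowStable a (fun _ => True) := by
  exact fun _ _ _ _ h => h

theorem lowStable_badE (T a ρ : ℕ) : LowStable a (BadE T a ρ) := by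
  exact fun _ _ h _ h2 => le_trans (Nat.add_le_add_right (sg_mono (filter_subset_filter _ h)) _) h2

theorem lowStable_badTie (a b : ℕ) : LowStable a (BadTie a b) := by
  rintro g g' - h ⟨π, h1, π', h2, h3, h4, h5⟩
  exact ⟨π, by_contra fun h6 => absurd (h π h1 h6) (by omega), π',
    by_contra fun h6 => absurd (h π' h2 h6) (by omega), h3, h4, h5⟩

theorem lowStable_badOne (η : ℕ) : LowStable η (BadOne η) := by
  exact fun _ _ h _ h2 => le_trans (card_le_card (filter_subset_filter _ h)) h2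

theorem lowStable_badClose (η Δ : ℕ) : LowStable η (BadClose η Δ) := by
  rintro g g' - h ⟨π, h1, π', h2, h3, h4, h5⟩
  exact ⟨π, by_contra fun h6 => absurd (h π h1 h6) (by omega), π',
    by_contra fun h6 => absurd (h π' h2 h6) (by omega), h3, h4, h5⟩

end Crest.Agent.R1
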