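import Crest.Agent.R1.Basic2

/-!
# R1 / Good : the good boundary pairs (definitions), structure of the slots


-/

set_option autoImplicit false

noncomputable section

open scoped Classical

namespace Crest.Agent.R1

open Finset

/-- the union of the four bad events -/
def Bad (T a ρ b η Δ : ℕ) (g : Finset ℕ) : Prop :=
  BadE T a ρ g ∨ BadTie a b g ∨ BadOne η g ∨ BadClose η Δ g

/-- boundary pairs without bad event -/
def G1 (t0 Z T ω tm a ρ b η Δ : ℕ) : Finset (ℕ × Finset ℕ) :=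
  (BP t0 Z T).filter (fun x => x.2.card + 1 ≤ ω ∧ lv x.1 ≤ tm ∧ ¬ Bad T a ρ b η Δ x.2)

/-- `k = (j0, J, k1, k2)` is a system of slot levels inside the set of levels `L` -/
def Slots (a ρ b r η : ℕ) (L : Finset ℕ) (k : ℕ × Finset ℕ × ℕ × ℕ) : Prop :=
  k.1 ∈ L ∧ a ≤ k.1 ∧ k.1 ≤ ρ ∧ k.2.1 ⊆ L ∧ k.2.1.card = r ∧ (∀ j ∈ k.2.1, k.1 < j ∧ j ≤ b) ∧
    k.2.2.1 ∈ L ∧ k.2.2.2 ∈ L ∧ η ≤ k.2.2.1 ∧ k.2.2.1 < k.2.2.2

/-- boundary pairs with slots and with room `T - sg g - t ≥ 3t/2` -/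
def G2 (t0 Z T ω tm a ρ b r η : ℕ) : Finset (ℕ × Finset ℕ) :=
  (BP t0 Z T).filter (fun x => x.2.card + 1 ≤ ω ∧ lv x.1 ≤ tm ∧ 2 * sg x.2 + 5 * lv x.1 ≤ 2 * T ∧
    ¬ BadTie a b x.2 ∧ ¬ BadClose η 0 x.2 ∧ ∃ k, Slots a ρ b r η (x.2.image lv) k)

/-- Induction on `r`, for all `ρ` and `h`.  `sg h > T - ρ ≥ Z` forces `2 ≤ h.card`; for the minimum `x₀` of `h`,
`Supp.room` gives `sg h + lv x₀ < T`, so `lv x₀ < ρ`.  Then `h' = h.erase x₀` is supported and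
`T < sg h' + 2ρ`. -/
theorem loc_count (Z T r : ℕ) : ∀ (ρ : ℕ) (h : Finset ℕ), Supp T h → (∀ π ∈ h, lv π ≤ Z) →
    T < sg h + ρ → 2 ^ r * ρ + Z ≤ T →
    ∀ i ≤ r, i + 1 ≤ (h.filter (fun π => lv π < 2 ^ i * ρ)).card := by
  have key : ∀ (i ρ : ℕ) (h : Finset ℕ), Supp T h → (∀ π ∈ h, lv π ≤ Z) → T < sg h + ρ →
      2 ^ i * ρ + Z ≤ T → i + 1 ≤ (h.filter (fun π => lv π < 2 ^ i * ρ)).card := fun i => by
    induction i using Nat.strong_induction_on with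
    | _ i ih =>
      intro ρ h h1 h2 h3 h4
      have h5 : ρ ≤ 2 ^ i * ρ := Nat.le_mul_of_pos_left _ (by positivity)
      have h6 : 2 ≤ h.card := by
        by_contra h7
        have h8 : sg h ≤ h.card * Z := sum_le_card_nsmul h lv Z h2
        have h9 : h.card * Z ≤ 1 * Z := Nat.mul_le_mul_right _ (by omega)
        omega
      obtain ⟨x, g, rfl, hx, h7⟩ := b2_min (d := h) (by omega)
      have h8 := h1.room (p := x) h6 fun π hπ =>
        (mem_insert.1 hπ).elim (fun e => e.ge) fun h => (h7 π h).le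
      rw [filter_insert, if_pos (by omega), card_insert_of_notMem fun h => hx (mem_filter.1 h).1,
        Nat.add_le_add_iff_right]
      rw [sg_insert hx] at h3 h8
      cases i with
      | zero => exact Nat.zero_le _
      | succ i =>
        rw [pow_succ, mul_assoc] at h4 ⊢
        exact ih i (Nat.lt_succ_self i) _ g (h1.of_insert_min h7)
          (fun π hπ => h2 π (mem_insert_of_mem hπ)) (by omega) h4
  intro ρ h h1 h2 h3 h4 i hi
  have := Nat.mul_le_mul_right ρ (Nat.pow_le_pow_right two_pos hi)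
  exact key i ρ h h1 h2 h3 (by omega)

/-- Apply `loc_count` to `h = g.filter (a ≤ lv)`.  By `¬ BadTie` the map `lv` is injective on the `≥ r + 1` elements
with level in `[a, b)`; `j0` is the least of these levels (`< ρ` by the case `i = 0`), `J` any `r` of the
others. -/
theorem exists_low_slots {Z T a ρ r : ℕ} {g : Finset ℕ} (hg : Supp T g) (hZ : ∀ π ∈ g, lv π ≤ Z)
    (hE : ¬ BadE T a ρ g) (hT : ¬ BadTie a (2 ^ r * ρ) g) (hr : 2 ^ r * ρ + Z ≤ T) :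
    ∃ (j0 : ℕ) (J : Finset ℕ), j0 ∈ g.image lv ∧ a ≤ j0 ∧ j0 ≤ ρ ∧ J ⊆ g.image lv ∧ J.card = r ∧
      ∀ j ∈ J, j0 < j ∧ j ≤ 2 ^ r * ρ := by
  have h1 := loc_count Z T r ρ _ (hg.filter_lv a) (fun π hπ => hZ π (mem_filter.1 hπ).1)
    (not_le.1 hE) hr
  obtain ⟨π0, h2⟩ := card_pos.1 (h1 0 (Nat.zero_le r))
  have h3 := h1 r le_rfl
  have h5 : ρ ≤ 2 ^ r * ρ := Nat.le_mul_of_pos_left _ (by positivity)
  rw [filter_filter] at h3
  simp only [mem_filter, pow_zero, one_mul] at h2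
  rw [← card_image_of_injOn (f := lv) fun π hπ π' hπ' e => by_contra fun hne =>
    hT ⟨π, (mem_filter.1 hπ).1, π', (mem_filter.1 hπ').1, hne, e, (mem_filter.1 hπ).2.1,
      (mem_filter.1 hπ).2.2.le⟩] at h3
  obtain ⟨j0, L, e, hj0, h4⟩ := b2_min (lt_of_lt_of_le (Nat.succ_pos r) h3)
  have h6 : ∀ j, j ∈ insert j0 L ↔ ∃ π, (π ∈ g ∧ a ≤ lv π ∧ lv π < 2 ^ r * ρ) ∧ lv π = j := fun j => by
    rw [← e]
    simp only [mem_image, mem_filter]
  rw [e, card_insert_of_notMem hj0, Nat.add_le_add_iff_right] at h3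
  obtain ⟨J, hJ, h7⟩ := exists_subset_card_eq h3
  obtain ⟨π1, ⟨a1, a2, -⟩, a3⟩ := (h6 j0).1 (mem_insert_self _ _)
  refine ⟨j0, J, mem_image.2 ⟨π1, a1, a3⟩, a3 ▸ a2, ?_, fun j hj => ?_, h7, fun j hj => ?_⟩
  · rcases mem_insert.1 ((h6 _).2 ⟨π0, ⟨h2.1.1, h2.1.2, by omega⟩, rfl⟩) with h | h
    · omega
    · have := h4 _ h
      omega
  · obtain ⟨π, b1, b2⟩ := (h6 j).1 (mem_insert_of_mem (hJ hj))
    exact mem_image.2 ⟨π, b1.1, b2⟩
  · obtain ⟨π, b1, b2⟩ := (h6 j).1 (mem_insert_of_mem (hJ hj))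
    exact ⟨h4 j (hJ hj), b2 ▸ b1.2.2.le⟩

/-- a slot level is the level of exactly one element -/
theorem G2_unique {t0 Z T ω tm a ρ b r η : ℕ} (hρ : ρ ≤ b) {x : ℕ × Finset ℕ}
    (hx : x ∈ G2 t0 Z T ω tm a ρ b r η) {k : ℕ × Finset ℕ × ℕ × ℕ}
    (hk : Slots a ρ b r η (x.2.image lv) k) :
    ∀ j ∈ insert k.2.2.1 (insert k.2.2.2 (insert k.1 k.2.1)),
      (x.2.filter (fun π => lv π = j)).card = 1 := by
  obtain ⟨-, -, -, -, h1, h2, -⟩ := mem_filter.1 hx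
  obtain ⟨k1, k2, k3, k4, -, k6, k7, k8, k9, k10⟩ := hk
  intro j hj
  have h3 : j ∈ x.2.image lv ∧ (η ≤ j ∨ a ≤ j ∧ j ≤ b) := by
    simp only [mem_insert] at hj
    rcases hj with rfl | rfl | rfl | hj
    · exact ⟨k7, Or.inl k9⟩
    · exact ⟨k8, Or.inl (by omega)⟩
    · exact ⟨k1, Or.inr ⟨k2, by omega⟩⟩
    · exact ⟨k4 hj, Or.inr (by have := k6 j hj; omega)⟩
  obtain ⟨π0, h4, h5⟩ := mem_image.1 h3.1
  refine le_antisymm (card_le_one.2 fun π hπ π' hπ' => by_contra fun hne => ?_)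
    (card_pos.2 ⟨π0, mem_filter.2 ⟨h4, h5⟩⟩)
  obtain ⟨a1, a2⟩ := mem_filter.1 hπ
  obtain ⟨b1, b2⟩ := mem_filter.1 hπ'
  rcases h3.2 with h | h
  · exact h2 ⟨π, a1, π', b1, hne, by omega⟩
  · exact h1 ⟨π, a1, π', b1, hne, by omega⟩

/-- `G2` and the set of levels are invariant under replacing an element that is alone on its level (and of
level `> lv p`) by another prime of the same level (`Supp.replace`; `lt_of_lv_lt` gives the order
condition; `sg`, `card`, `image lv` do not change; a tie in the new set gives a tie in the old one). -/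
theorem G2_replace {t0 Z T ω tm a ρ b r η : ℕ} {x : ℕ × Finset ℕ}
    (hx : x ∈ G2 t0 Z T ω tm a ρ b r η) {π π' : ℕ} (hπ : π ∈ x.2)
    (h1 : (x.2.filter (fun y => lv y = lv π)).card = 1) (hp : lv x.1 < lv π) (hπ' : π' ∈ B (lv π)) :
    (x.1, insert π' (x.2.erase π)) ∈ G2 t0 Z T ω tm a ρ b r η ∧
      (insert π' (x.2.erase π)).image lv = x.2.image lv := by
  obtain ⟨hB, g1, g2, g3, g4, g5, g6⟩ := mem_filter.1 hx
  obtain ⟨b1, b2, b3, b4, b5, b6⟩ := mem_BP.1 hB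
  obtain ⟨p1, p2⟩ := mem_B.1 hπ'
  have h2 : ∀ y ∈ x.2, y ≠ π → lv y ≠ lv π := fun y hy hne e =>
    hne (card_le_one.1 h1.le _ (mem_filter.2 ⟨hy, e⟩) _ (mem_filter.2 ⟨hπ, rfl⟩))
  have h3 : π' ∉ x.2.erase π := fun h => h2 π' (mem_of_mem_erase h) (ne_of_mem_erase h) p2
  have h4 : ∀ y ∈ insert π' (x.2.erase π), ∀ y' ∈ insert π' (x.2.erase π), y ≠ y' → lv y = lv y' →
      y ∈ x.2 ∧ y' ∈ x.2 := fun y hy y' hy' hne e => by
    rcases mem_insert.1 hy with rfl | a1 <;> rcases mem_insert.1 hy' with rfl | a2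
    · exact absurd rfl hne
    · exact absurd (e.symm.trans p2) (h2 _ (mem_of_mem_erase a2) (ne_of_mem_erase a2))
    · exact absurd (e.trans p2) (h2 _ (mem_of_mem_erase a1) (ne_of_mem_erase a1))
    · exact ⟨mem_of_mem_erase a1, mem_of_mem_erase a2⟩
  have e1 : (insert π' (x.2.erase π)).image lv = x.2.image lv := by
    rw [image_insert, p2, ← image_insert, insert_erase hπ]
  have e2 : sg (insert π' (x.2.erase π)) = sg x.2 := by
    rw [sg_insert h3, p2, ← sg_insert (notMem_erase _ _), insert_erase hπ]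
  have e3 : (insert π' (x.2.erase π)).card = x.2.card := by
    rw [card_insert_of_notMem h3, card_erase_add_one hπ]
  refine ⟨mem_filter.2 ⟨mem_BP.2 ⟨b1, fun y hy => ?_, b3.replace hπ (fun y hy hne => ?_) p2.le,
    e3 ▸ b4, fun y hy => ?_, e2 ▸ b6⟩, e3 ▸ g1, g2, e2 ▸ g3, ?_, ?_, e1 ▸ g6⟩, e1⟩
  · rcases mem_insert.1 hy with rfl | h
    · exact ⟨p1, p2 ▸ (b2 π hπ).2⟩
    · exact b2 y (mem_of_mem_erase h)
  · have := h2 y hy hne
    exact ⟨fun h => lt_of_lv_lt (by have := lv_mono h.le; omega),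
      fun h => lt_of_lv_lt (by have := lv_mono h.le; omega)⟩
  · rcases mem_insert.1 hy with rfl | h
    · exact lt_of_lv_lt (p2 ▸ hp)
    · exact b5 y (mem_of_mem_erase h)
  · rintro ⟨y, hy, y', hy', hne, e⟩
    obtain ⟨a1, a2⟩ := h4 y hy y' hy' hne e.1
    exact g4 ⟨y, a1, y', a2, hne, e⟩
  · rintro ⟨y, hy, y', hy', hne, e⟩
    obtain ⟨a1, a2⟩ := h4 y hy y' hy' hne (by omega)
    exact g5 ⟨y, a1, y', a2, hne, e⟩

end Crest.Agent.R1
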