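import Crest.Agent.R1.NBound
import Crest.Agent.R1.BadLow
import Crest.Agent.R1.BadTop
import Crest.Agent.R1.Good

/-!
# R1 / Conc : the boundary mass is concentrated on good pairs


-/

set_option autoImplicit false

noncomputable section

open scoped Classical

namespace Crest.Agent.R1

open Finset

theorem cc_small (A k : ℕ) : ∀ᶠ N in Filter.atTop, A ≤ Lam N ∧ A * Lam N ^ k ≤ TT N := by
  filter_upwards [Filter.eventually_atTop.2 (lam_small (2 * A) k), Filter.eventually_atTop.2 params]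
    with N h1 h2
  have h3 := h1.2
  rw [mul_assoc] at h3
  omega

theorem cc_close {C δ : ℝ} (hδ : 0 < δ) {K T a Δ : ℕ} (hK : 0 < K) (hKT : K ≤ T)
    (hΔ : Δ + 1 ≤ a) (h : ⌈16 * K ^ 4 * C / δ⌉₊ * a ≤ T) :
    C * (Δ + 1) * (T : ℝ) ^ 3 / ((T / K : ℕ) : ℝ) ^ 4 ≤ δ := by
  have h1 : 0 < T / K := Nat.div_pos hKT hK
  have h2 : T ≤ 2 * K * (T / K) := by
    have := Nat.lt_mul_div_succ T hK
    nlinarith
  have h3 : (T : ℝ) ≤ 2 * K * (T / K : ℕ) := by exact_mod_cast h2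
  have h4 : 16 * K ^ 4 * C / δ * (Δ + 1) ≤ T := by
    refine le_trans (mul_le_mul (Nat.le_ceil _) (?_ : _ ≤ (a : ℝ)) (by positivity) (by positivity)) ?_
    · exact_mod_cast hΔ
    · exact_mod_cast h
  have h5 : (0 : ℝ) < K := by exact_mod_cast hK
  rw [div_mul_eq_mul_div, div_le_iff₀ hδ] at h4
  rw [div_le_iff₀ (by positivity)]
  refine le_of_mul_le_mul_left (a := 16 * (K : ℝ) ^ 4) ?_ (by positivity)
  calc 16 * K ^ 4 * (C * (Δ + 1) * (T : ℝ) ^ 3) = 16 * K ^ 4 * C * (Δ + 1) * (T : ℝ) ^ 3 := by ring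
    _ ≤ T * δ * (T : ℝ) ^ 3 := by gcongr
    _ = δ * (T : ℝ) ^ 4 := by ring
    _ ≤ δ * (2 * K * (T / K : ℕ)) ^ 4 := by gcongr
    _ = _ := by ring

/-- Let `C` be the constant of `NN_split`; `T = TT N ≥ N/2` (`params`).  Choose `M ≥ 1` with `4 C/M ≤ ε/2`, then
`ε' > 0` with `4 C (4ε') M ≤ ε/2`, `C8` from `badE_le`, `K` from `badOne_le` (both with `ε'`).  With
`a = A2 Λ`, `b = 2^r C8 a`, `η = T/K ≥ T/(2K)`, `Δ = 2Mτ ≤ 2MAΛ`: for `t ≤ Mτ` we have `3t ≤ 3MAΛ < a`, and for `N` large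
`3t < η`, `8a ≤ T`, `(b+1)² ≤ T`, `C (b/a)²/a ≤ ε'`, `C (Δ+1) T³/η⁴ ≤ 16 K⁴ C (Δ+1)/T ≤ ε'` (`lam_small`).
`WW_or` three times gives the hypothesis of `NN_split` with `4ε'`. -/
theorem conc (hP : PAP) : ∃ t1 : ℕ, ∀ t0 ≥ t1, ∀ ε : ℝ, 0 < ε → ∃ M C8 K : ℕ, 1 ≤ M ∧ 1 ≤ C8 ∧ 1 ≤ K ∧
    ∀ A A2 r : ℕ, 3 * M * A < A2 → ∃ N0 : ℕ, ∀ N ≥ N0, ∀ ω τ : ℕ, 1 ≤ τ → τ ≤ A * Lam N →
      NN t0 (ZZ N) (TT N) ω τ ≤
        ∑ x ∈ G1 t0 (ZZ N) (TT N) ω (M * τ) (A2 * Lam N) (C8 * (A2 * Lam N))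
          (2 ^ r * (C8 * (A2 * Lam N))) (TT N / K) (2 * (M * τ)), wb x + ε * τ / (N : ℝ) ^ 2 := by
  obtain ⟨ta, C, hC, hN⟩ := NN_split hP
  obtain ⟨tb, hE⟩ := badE_le hP
  obtain ⟨tc, Ct, hCt, hT⟩ := badTie_le hP
  obtain ⟨td, hO⟩ := badOne_le hP
  obtain ⟨te, Cc, hCc, hCl⟩ := badClose_le hP
  refine ⟨ta + tb + tc + td + te, fun t0 ht0 ε hε => ?_⟩
  obtain ⟨M, hM, hMε⟩ : ∃ M : ℕ, 1 ≤ M ∧ 8 * C / ε ≤ M :=
    ⟨⌈8 * C / ε⌉₊ + 1, by omega, (Nat.le_ceil _).trans (by push_cast; linarith)⟩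
  have hM0 : (0 : ℝ) < M := by exact_mod_cast hM
  obtain ⟨δ, hδ, hδε⟩ : ∃ δ : ℝ, 0 < δ ∧ C * (1 / M + 4 * δ * M) * 4 ≤ ε := by
    refine ⟨ε / (32 * (C + 1) * M), by positivity, ?_⟩
    have h1 : C / M ≤ ε / 8 := by
      rw [div_le_iff₀ hε] at hMε
      rw [div_le_iff₀ hM0]
      linarith
    have h2 : C / (C + 1) * ε ≤ ε := mul_le_of_le_one_left hε.le (div_le_one_of_le₀ (by linarith) (by linarith))
    have e : C * (1 / M + 4 * (ε / (32 * (C + 1) * M)) * M) * 4 = 4 * (C / M) + C / (C + 1) * ε / 2 := by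
      field_simp
      ring
    linarith
  obtain ⟨C8, hC8, hE⟩ := hE δ hδ
  obtain ⟨K, hK, hO⟩ := hO δ hδ
  refine ⟨M, C8, K, hM, hC8, by omega, fun A A2 r hA => Filter.eventually_atTop.1 ?_⟩
  filter_upwards [cc_small ⌈Ct * (2 ^ r * C8) ^ 2 / δ⌉₊ 0, cc_small (⌈16 * K ^ 4 * Cc / δ⌉₊ * A2) 1,
    cc_small (K * A2) 1, cc_small (4 * (2 ^ r * (C8 * A2)) ^ 2) 2, Filter.eventually_atTop.2 params]
    with N ⟨h1, _⟩ ⟨_, h2⟩ ⟨_, h3⟩ ⟨_, h4⟩ ⟨_, p2, p3, _, _, _, p7, p8⟩ ω τ hτ hτA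
  rw [pow_one, mul_assoc] at h2 h3
  have a0 : Lam N ≤ A2 * Lam N := Nat.le_mul_of_pos_left _ (by omega)
  have a1 : 3 * (M * τ) < A2 * Lam N :=
    calc 3 * (M * τ) ≤ 3 * (M * (A * Lam N)) := by gcongr
      _ = 3 * M * A * Lam N := by ring
      _ < _ := Nat.mul_lt_mul_of_pos_right hA (by omega)
  have a2 : 4 * (2 ^ r * (C8 * (A2 * Lam N))) ^ 2 ≤ TT N := le_of_eq_of_le (by ring) h4
  generalize A2 * Lam N = a at *
  generalize TT N = T at *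
  have a3 : a ≤ 2 ^ r * (C8 * a) :=
    (Nat.le_mul_of_pos_left _ hC8).trans (Nat.le_mul_of_pos_left _ (by positivity))
  have a4 : (2 ^ r * (C8 * a) + 1) ^ 2 ≤ T :=
    (Nat.pow_le_pow_left (by omega : _ ≤ 2 * (2 ^ r * (C8 * a))) 2).trans (by rwa [mul_pow])
  have a5 : a ≤ T / K := (Nat.le_div_iff_mul_le (by omega)).2 (by rwa [mul_comm])
  have a6 : K ≤ T := (Nat.le_mul_of_pos_right _ (by omega)).trans h3
  have a7 : 8 * (T / K) ≤ T := (Nat.mul_le_mul_right _ (by omega)).trans (Nat.mul_div_le T K)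
  have a8 : (0 : ℝ) < a := by exact_mod_cast (by omega : 0 < a)
  have a9 : Ct * (((2 ^ r * (C8 * a) : ℕ) : ℝ) / a) ^ 2 / a ≤ δ := by
    have h5 : Ct * (2 ^ r * C8) ^ 2 / δ ≤ a := (Nat.le_ceil _).trans (by exact_mod_cast h1.trans a0)
    rw [div_le_iff₀ hδ] at h5
    rw [div_le_iff₀' a8]
    push_cast
    rwa [← mul_assoc, mul_div_cancel_right₀ _ a8.ne']
  have a10 := cc_close hδ (Δ := 2 * (M * τ)) (by omega) a6 (by omega) h2
  refine (hN t0 (by omega) (ZZ N) T ω τ M (4 * δ)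
    (Bad T a (C8 * a) (2 ^ r * (C8 * a)) (T / K) (2 * (M * τ))) p2 (by omega) hτ hM (by positivity)
    fun R t h5 h6 h7 => ?_).trans (add_le_add (le_of_eq (by rw [G1])) ?_)
  · have b1 := hE _ T a p2 (by omega) ((Nat.pow_le_pow_left (by omega) 2).trans a4) R t (by omega) h7 (by omega)
    have b2 := (hT _ T a _ p2 (by omega) a3 a4 R t (by omega) h7 (by omega)).trans
      (show _ ≤ δ * t / (T : ℝ) ^ 2 by gcongr)
    have b3 := hO _ T p2 a6 R t (by omega) h7 (by omega)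
    have b4 := (hCl _ T _ (2 * (M * τ)) p2 a7 R t (by omega) h7 (by omega)).trans
      (show _ ≤ δ * t / (T : ℝ) ^ 2 by gcongr)
    refine ((WW_or _ _ _ _ _ _).trans (add_le_add b1 ((WW_or _ _ _ _ _ _).trans (add_le_add b2
      ((WW_or _ _ _ _ _ _).trans (add_le_add b3 b4)))))).trans (le_of_eq (by ring))
  · have b1 : (0 : ℝ) < T := by exact_mod_cast (by omega : 0 < T)
    have b2 : (0 : ℝ) < N := by exact_mod_cast (by omega : 0 < N)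
    have b3 : (N : ℝ) ≤ 2 * T := by exact_mod_cast p3
    rw [div_le_div_iff₀ (by positivity) (by positivity)]
    calc C * (1 / M + 4 * δ * M) * τ * (N : ℝ) ^ 2 ≤ C * (1 / M + 4 * δ * M) * τ * (2 * T) ^ 2 := by
          gcongr
      _ = C * (1 / M + 4 * δ * M) * 4 * τ * (T : ℝ) ^ 2 := by ring
      _ ≤ _ := by gcongr

end Crest.Agent.R1
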