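import Crest.Agent.R1.EDefs

/-!
# R1 / Cover : entropy (covering) lemma and the line lemma


-/

set_option autoImplicit false

noncomputable section

open scoped Classical

namespace Crest.Agent.R1

open Finset

/-- Partition `Bs` into groups of sizes in `[wH, 2wH]` (`exists_blocks`).  If `|Bs| ≤ w · #special` then some
group `Γ` has `|Γ| ≤ w · #special(Γ)`, so it contains `H` special elements.  Take for `𝒞` the union over
`y ∈ Ty` and `x ∈ Bs` (`Γ` = group of `x`) of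
`powersetCard H (Γ.biUnion fun P => (Sp y P).image (P, ·))`; `choose n H ≤ n^H`. -/
theorem cover {τ : Type} (Bs : Finset ℕ) (Ty : Finset τ) (Sp : τ → ℕ → Finset ℕ) (s H w : ℕ)
    (hH : 1 ≤ H) (hw : 1 ≤ w) (hB : w * H ≤ Bs.card) (hSp : ∀ y ∈ Ty, ∀ P ∈ Bs, (Sp y P).card ≤ s) :
    ∃ 𝒞 : Finset (Finset (ℕ × ℕ)), 𝒞.card ≤ Ty.card * Bs.card * (2 * w * H * s) ^ H ∧
      ∀ y ∈ Ty, ∀ c : ℕ → ℕ, Bs.card ≤ w * (Bs.filter (fun P => c P ∈ Sp y P)).card →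
        ∃ 𝓗 ⊆ Bs, 𝓗.card = H ∧ 𝓗.image (fun P => (P, c P)) ∈ 𝒞 := by
  obtain ⟨blk, hb⟩ := exists_blocks Bs (w * H) (Nat.mul_pos hw hH) hB
  refine ⟨(Ty ×ˢ Bs).biUnion fun z => powersetCard H
    ((Bs.filter fun P => blk P = blk z.2).biUnion fun P => (Sp z.1 P).image fun a => (P, a)), ?_,
    fun y hy c hc => ?_⟩
  · refine card_biUnion_le.trans ?_
    rw [← card_product, ← smul_eq_mul]
    refine sum_le_card_nsmul _ _ _ fun z hz => ?_
    obtain ⟨h1, h2⟩ := mem_product.1 hz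
    rw [card_powersetCard]
    refine (Nat.choose_le_pow _ _).trans (Nat.pow_le_pow_left ?_ _)
    refine card_biUnion_le.trans ((sum_le_card_nsmul _ _ s fun P hP =>
      card_image_le.trans (hSp _ h1 P (mem_filter.1 hP).1)).trans ?_)
    rw [smul_eq_mul, mul_assoc 2]
    exact Nat.mul_le_mul_right _ (hb _ h2).2
  · have hne : Bs.Nonempty := card_pos.1 (lt_of_lt_of_le (Nat.mul_pos hw hH) hB)
    obtain ⟨x, hx, h1⟩ : ∃ x ∈ Bs, (Bs.filter fun P => blk P = blk x).card ≤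
        w * ((Bs.filter fun P => c P ∈ Sp y P).filter fun P => blk P = blk x).card := by
      by_contra h0
      push Not at h0
      rw [card_eq_sum_card_fiberwise (f := blk) (t := Bs.image blk) fun P hP => mem_image_of_mem _ hP,
        card_eq_sum_card_fiberwise (f := blk) (t := Bs.image blk)
          (s := Bs.filter fun P => c P ∈ Sp y P)
          fun P hP => mem_image_of_mem _ (mem_filter.1 hP).1, mul_sum] at hc
      refine absurd hc (not_le.2 (sum_lt_sum_of_nonempty (hne.image _) fun k hk => ?_))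
      obtain ⟨x, hx, rfl⟩ := mem_image.1 hk
      exact h0 x hx
    obtain ⟨𝓗, h2, h3⟩ := exists_subset_card_eq (Nat.le_of_mul_le_mul_left ((hb x hx).1.trans h1) hw)
    have h4 := fun P (hP : P ∈ 𝓗) => mem_filter.1 (h2 hP)
    refine ⟨𝓗, fun P hP => (mem_filter.1 (h4 P hP).1).1, h3,
      mem_biUnion.2 ⟨(y, x), mem_product.2 ⟨hy, hx⟩, mem_powersetCard.2 ⟨fun z hz => ?_, ?_⟩⟩⟩
    · obtain ⟨P, hP, rfl⟩ := mem_image.1 hz
      exact mem_biUnion.2 ⟨P, mem_filter.2 ⟨(mem_filter.1 (h4 P hP).1).1, (h4 P hP).2⟩,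
        mem_image_of_mem _ (mem_filter.1 (h4 P hP).1).2⟩
    · rw [card_image_of_injective _ fun a b h => congrArg Prod.fst h, h3]

/-- Let `g₁ < g₂` be the minimum and maximum of `G`.  For `g ∈ G` the integer
`det = (g₂-g₁)(n g - n g₁) - (g-g₁)(n g₂ - n g₁)` is divisible by `PP` (because `n g - n g₁ ≡ (g - g₁) v`) and
`|det| < 2X² ≤ PP`, so it is `0`.  Let `δ = gcd (g₂-g₁, n g₂ - n g₁)`, `q = (g₂-g₁)/δ`, `u = (n g₂ - n g₁)/δ`
(coprime).  Then `q (n g - n g₁) = u (g - g₁)`, so `q ∣ g - g₁` and `|G| ≤ δ + 1`, i.e. `M ≤ δ`; hence `q M ≤ X`,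
`|u| M ≤ X`.  With `b = u g₁ - q n g₁`: `b - q a0 = u g - q (a0 + n g)` is divisible by `g`. -/
theorem line_lemma (a0 : ℤ) (X M PP : ℕ) (hM : 1 ≤ M) (hPP : 2 * X ^ 2 ≤ PP) (v : ℤ) (G : Finset ℕ)
    (n : ℕ → ℕ)
    (hG : ∀ g ∈ G, 1 ≤ g ∧ g ≤ X ∧ n g < X ∧ (g : ℤ) ∣ a0 + n g ∧ (PP : ℤ) ∣ a0 + n g - g * v)
    (hcard : M < G.card) :
    ∃ (b : ℤ) (q : ℕ), 1 ≤ q ∧ q * M ≤ X ∧ |b| * M ≤ 2 * (X : ℤ) ^ 2 ∧
      ∀ g ∈ G, (g : ℤ) ∣ b - q * a0 := by
  have hne : G.Nonempty := card_pos.1 (by omega)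
  obtain ⟨g1, hg1, hmin⟩ := exists_min_image G id hne
  obtain ⟨g2, hg2, hmax⟩ := exists_max_image G id hne
  simp only [id] at hmin hmax
  have hlt : g1 < g2 := by
    by_contra h0
    have h1 : G ⊆ {g1} := fun g hg => mem_singleton.2 (by
      have := hmin g hg
      have := hmax g hg
      omega)
    have := card_le_card h1
    rw [card_singleton] at this
    omega
  obtain ⟨a1, a2, a3, -, a5⟩ := hG g1 hg1
  obtain ⟨b1, b2, b3, -, b5⟩ := hG g2 hg2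
  have hdet : ∀ g ∈ G, ((g2 : ℤ) - g1) * ((n g : ℤ) - n g1) - ((g : ℤ) - g1) * ((n g2 : ℤ) - n g1) = 0 := by
    intro g hg
    obtain ⟨c1, c2, c3, -, c5⟩ := hG g hg
    have c6 := hmin g hg
    refine Int.eq_zero_of_abs_lt_dvd (m := PP) ?_ ?_
    · have := ((c5.sub a5).mul_left ((g2 : ℤ) - g1)).sub ((b5.sub a5).mul_left ((g : ℤ) - g1))
      exact (congrArg _ (by ring)).mp this
    · have h1 : |((g2 : ℤ) - g1) * ((n g : ℤ) - n g1)| < X * X := by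
        rw [abs_mul]
        exact mul_lt_mul'' (abs_lt.2 ⟨by omega, by omega⟩) (abs_lt.2 ⟨by omega, by omega⟩)
          (abs_nonneg _) (abs_nonneg _)
      have h2 : |((g : ℤ) - g1) * ((n g2 : ℤ) - n g1)| < X * X := by
        rw [abs_mul]
        exact mul_lt_mul'' (abs_lt.2 ⟨by omega, by omega⟩) (abs_lt.2 ⟨by omega, by omega⟩)
          (abs_nonneg _) (abs_nonneg _)
      have h3 : 2 * (X : ℤ) ^ 2 ≤ PP := by exact_mod_cast hPP
      have h4 := abs_sub (((g2 : ℤ) - g1) * ((n g : ℤ) - n g1)) (((g : ℤ) - g1) * ((n g2 : ℤ) - n g1))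
      nlinarith
  have hD : (0 : ℤ) < (g2 : ℤ) - g1 := by omega
  have hδ : 0 < Int.gcd ((g2 : ℤ) - g1) ((n g2 : ℤ) - n g1) := Int.gcd_pos_of_ne_zero_left _ hD.ne'
  obtain ⟨q, u, hqu, e1, e2⟩ := Int.exists_gcd_one hδ
  generalize Int.gcd ((g2 : ℤ) - g1) ((n g2 : ℤ) - n g1) = δ at hδ e1 e2
  have hδ' : (0 : ℤ) < δ := by exact_mod_cast hδ
  have hq : 0 < q := (pos_iff_pos_of_mul_pos (e1 ▸ hD)).2 hδ'
  have hlin : ∀ g ∈ G, q * ((n g : ℤ) - n g1) = u * ((g : ℤ) - g1) := by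
    intro g hg
    have h1 := hdet g hg
    rw [e1, e2] at h1
    refine mul_left_cancel₀ hδ'.ne' ?_
    linear_combination h1
  have hdvd : ∀ g ∈ G, q ∣ (g : ℤ) - g1 := fun g hg =>
    (Int.isCoprime_iff_gcd_eq_one.2 hqu).dvd_of_dvd_mul_left ⟨_, (hlin g hg).symm⟩
  have hMδ : M ≤ δ := by
    have h1 : G.card ≤ (Icc (0 : ℤ) δ).card := by
      refine card_le_card_of_injOn (fun g => ((g : ℤ) - g1) / q) (fun g hg => ?_) fun g hg g' hg' h => ?_
      · have h2 := hmin g hg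
        have h3 := hmax g hg
        refine mem_coe.2 (mem_Icc.2 ⟨Int.ediv_nonneg (by omega) hq.le, ?_⟩)
        exact Int.ediv_le_of_le_mul hq (by rw [mul_comm, ← e1]; omega)
      · have h2 := Int.mul_ediv_cancel' (hdvd g hg)
        have h3 := Int.mul_ediv_cancel' (hdvd g' hg')
        simp only at h
        rw [h] at h2
        omega
    rw [Int.card_Icc] at h1
    omega
  have hMδ' : (M : ℤ) ≤ δ := by exact_mod_cast hMδ
  have hqM : q * M ≤ X := (mul_le_mul_of_nonneg_left hMδ' hq.le).trans (by rw [← e1]; omega)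
  have huM : |u| * M ≤ X := by
    refine (mul_le_mul_of_nonneg_left hMδ' (abs_nonneg u)).trans ?_
    rw [← abs_of_pos hδ', ← abs_mul, ← e2]
    exact abs_le.2 ⟨by omega, by omega⟩
  lift q to ℕ using hq.le
  refine ⟨u * g1 - q * n g1, q, by exact_mod_cast hq, by exact_mod_cast hqM, ?_, fun g hg => ?_⟩
  · have h1 := abs_sub (u * g1) ((q : ℤ) * n g1)
    rw [abs_mul, abs_mul, Nat.abs_cast, Nat.abs_cast, Nat.abs_cast] at h1
    have h2 : |u| * M * g1 ≤ X * X :=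
      mul_le_mul huM (by exact_mod_cast a2) (Nat.cast_nonneg _) (Nat.cast_nonneg _)
    have h3 : (q : ℤ) * M * n g1 ≤ X * X :=
      mul_le_mul hqM (by exact_mod_cast a3.le) (Nat.cast_nonneg _) (Nat.cast_nonneg _)
    have h4 := mul_le_mul_of_nonneg_right h1 (Nat.cast_nonneg (α := ℤ) M)
    nlinarith
  · have h1 := ((dvd_refl (g : ℤ)).mul_left u).sub ((hG g hg).2.2.2.1.mul_left q)
    exact (congrArg _ (by linear_combination -hlin g hg)).mp h1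

/-- From classes to fractions.  Every `g ∈ G` (`1 ≤ g ≤ X`, `n g < X`, `a0 + n g = g · ν g`) comes with a set `𝓗` of
primes with `2X² ≤ pr 𝓗` whose graph `P ↦ (ν g % P).toNat` lies in `𝒞`.  Choose such a class `cl g ∈ 𝒞` for each
`g ∈ G`.  Two `g, g₀` with the same class have the same `𝓗` (first projection) and `pr 𝓗 ∣ ν g - ν g₀`
(`pr_dvd_iff`), so `line_lemma` applies to a fibre with more than `M` elements (`v = ν g₀`).  `U` is the union
of the fibres with at most `M` elements, `𝔅` has one fraction for each large fibre. -/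
theorem classes_to_lines (a0 : ℤ) (X M : ℕ) (hM : 1 ≤ M) (𝒞 : Finset (Finset (ℕ × ℕ)))
    (G : Finset ℕ) (n : ℕ → ℕ) (ν : ℕ → ℤ)
    (hG : ∀ g ∈ G, 1 ≤ g ∧ g ≤ X ∧ n g < X ∧ a0 + n g = g * ν g ∧ ∃ 𝓗 : Finset ℕ,
      (∀ P ∈ 𝓗, P.Prime) ∧ 2 * X ^ 2 ≤ pr 𝓗 ∧ 𝓗.image (fun P : ℕ => (P, (ν g % P).toNat)) ∈ 𝒞) :
    ∃ (𝔅 : Finset (ℤ × ℕ)) (U : Finset ℕ), 𝔅.card ≤ 𝒞.card ∧ U.card ≤ 𝒞.card * M ∧
      (∀ β ∈ 𝔅, 1 ≤ β.2 ∧ β.2 * M ≤ X ∧ |β.1| * M ≤ 2 * (X : ℤ) ^ 2) ∧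
      ∀ g ∈ G, g ∈ U ∨ ∃ β ∈ 𝔅, (g : ℤ) ∣ β.1 - β.2 * a0 := by
  choose! h1 h2 h3 h4 𝓗 h5 h6 h7 using hG
  obtain ⟨cl, hcl⟩ : ∃ cl : ℕ → Finset (ℕ × ℕ),
      ∀ g, cl g = (𝓗 g).image (fun P : ℕ => (P, (ν g % P).toNat)) := ⟨_, fun _ => rfl⟩
  have key : ∀ C : Finset (ℕ × ℕ), ∃ β : ℤ × ℕ, M < (G.filter fun g => cl g = C).card →
      (1 ≤ β.2 ∧ β.2 * M ≤ X ∧ |β.1| * M ≤ 2 * (X : ℤ) ^ 2) ∧
        ∀ g ∈ G.filter fun g => cl g = C, (g : ℤ) ∣ β.1 - β.2 * a0 := by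
    intro C
    by_cases hc : M < (G.filter fun g => cl g = C).card
    swap
    · exact ⟨(0, 0), fun h => absurd h hc⟩
    obtain ⟨g0, hg0⟩ := card_pos.1 (lt_of_le_of_lt (Nat.zero_le _) hc)
    obtain ⟨hg0, e0⟩ := mem_filter.1 hg0
    obtain ⟨b, q, k1, k2, k3, k4⟩ := line_lemma a0 X M (pr (𝓗 g0)) hM (h6 g0 hg0) (ν g0) _ n
      (fun g hg => by
        obtain ⟨hg, e⟩ := mem_filter.1 hg
        refine ⟨h1 g hg, h2 g hg, h3 g hg, ⟨_, h4 g hg⟩, ?_⟩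
        rw [h4 g hg, ← mul_sub]
        refine Dvd.dvd.mul_left ((pr_dvd_iff (h5 g0 hg0) _).2 fun P hP => ?_) _
        have k1 : (P, (ν g0 % P).toNat) ∈ cl g := by
          rw [e, ← e0, hcl]
          exact mem_image_of_mem _ hP
        rw [hcl] at k1
        obtain ⟨P', -, k2⟩ := mem_image.1 k1
        obtain ⟨rfl, k3⟩ := Prod.mk.inj k2
        have k4 : (P' : ℤ) ≠ 0 := by exact_mod_cast (h5 g0 hg0 P' hP).ne_zero
        have k5 := Int.emod_nonneg (ν g) k4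
        have k6 := Int.emod_nonneg (ν g0) k4
        exact Int.ModEq.dvd (show ν g0 % P' = ν g % P' by omega)) hc
    exact ⟨(b, q), fun _ => ⟨⟨k1, k2, k3⟩, k4⟩⟩
  choose β hβ using key
  refine ⟨(𝒞.filter fun C => M < (G.filter fun g => cl g = C).card).image β,
    (𝒞.filter fun C => ¬ M < (G.filter fun g => cl g = C).card).biUnion
      fun C => G.filter fun g => cl g = C,
    card_image_le.trans (card_filter_le _ _), ?_, fun b hb => ?_, fun g hg => ?_⟩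
  · refine card_biUnion_le.trans ((sum_le_card_nsmul _ _ M fun C hC =>
      not_lt.1 (mem_filter.1 hC).2).trans ?_)
    exact Nat.mul_le_mul_right _ (card_filter_le _ _)
  · obtain ⟨C, hC, rfl⟩ := mem_image.1 hb
    exact (hβ C (mem_filter.1 hC).2).1
  · have hC : cl g ∈ 𝒞 := hcl g ▸ h7 g hg
    by_cases hc : M < (G.filter fun g' => cl g' = cl g).card
    · exact Or.inr ⟨β (cl g), mem_image_of_mem _ (mem_filter.2 ⟨hC, hc⟩),
        (hβ _ hc).2 g (mem_filter.2 ⟨hg, rfl⟩)⟩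
    · exact Or.inl (mem_biUnion.2 ⟨cl g, mem_filter.2 ⟨hC, hc⟩, mem_filter.2 ⟨hg, rfl⟩⟩)

end Crest.Agent.R1
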