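import Crest.Agent.R1.Basic1

/-!
# R1 / Primes : estimates for primes in boxes

Use `hP : PAP` with `q = 1`, `a = 0` or `1`: `θ(y) = y + O(y^(1-c))`.
-/

set_option autoImplicit false

noncomputable section

open scoped Classical

namespace Crest.Agent.R1

open Finset

/-- Chebyshev's function at an integer -/
def prTh (n : ℕ) : ℝ := ∑ p ∈ (Icc 1 n).filter Nat.Prime, Real.log p

theorem prTh_est (hP : PAP) : ∃ c : ℝ, 0 < c ∧ c ≤ 1 ∧ ∃ C : ℝ, 0 ≤ C ∧ ∀ y : ℝ, 1 ≤ y →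
    |prTh ⌊y⌋₊ - y| ≤ C * y ^ (1 - c) := by
  obtain ⟨c, hc, C, hC, h⟩ := hP
  refine ⟨min c 1, lt_min hc one_pos, min_le_right _ _, C, hC, fun y hy => ?_⟩
  have h1 := h y 1 0 le_rfl (by exact_mod_cast hy) (by simp)
  simp only [Nat.modEq_one, and_true, Nat.totient_one, Nat.cast_one, div_one] at h1
  refine h1.trans (mul_le_mul_of_nonneg_left ?_ hC)
  exact Real.rpow_le_rpow_of_exponent_le hy (by linarith [min_le_left c 1])

theorem prTh_succ (n : ℕ) :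
    prTh (n + 1) = prTh n + if (n + 1).Prime then Real.log ((n + 1 : ℕ) : ℝ) else 0 := by
  simp only [prTh, sum_filter]
  rw [sum_Icc_succ_top (by omega)]

theorem prTh_sub {a b : ℕ} (h : a ≤ b) :
    prTh b - prTh a = ∑ p ∈ (Ioc a b).filter Nat.Prime, Real.log p := by
  obtain ⟨m, rfl⟩ := Nat.exists_eq_add_of_le h
  induction m with
  | zero => simp
  | succ m ih =>
    rw [← add_assoc, prTh_succ, sum_filter, sum_Ioc_succ_top (by omega), ← sum_filter,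
      ← ih (by omega)]
    ring

theorem pr_harm {Y : ℕ} (hY : 1 ≤ Y) (m : ℕ) :
    0 ≤ Real.log ((Y + m : ℕ) : ℝ) - Real.log Y - ∑ n ∈ Ioc Y (Y + m), 1 / (n : ℝ) ∧
    Real.log ((Y + m : ℕ) : ℝ) - Real.log Y - ∑ n ∈ Ioc Y (Y + m), 1 / (n : ℝ) ≤
      1 / (Y : ℝ) - 1 / ((Y + m : ℕ) : ℝ) := by
  induction m with
  | zero => simp
  | succ m ih =>
    rw [← add_assoc, sum_Ioc_succ_top (by omega)]
    have hn : (0 : ℝ) < ((Y + m : ℕ) : ℝ) := by exact_mod_cast (by omega : 0 < Y + m)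
    set n : ℝ := ((Y + m : ℕ) : ℝ) with hn'
    have e : ((Y + m + 1 : ℕ) : ℝ) = n + 1 := by rw [hn']; push_cast; ring
    rw [e]
    have h1 : Real.log (n + 1) - Real.log n ≤ 1 / n := by
      rw [← Real.log_div (by linarith) hn.ne']
      refine (Real.log_le_sub_one_of_pos (by positivity)).trans (le_of_eq ?_)
      field_simp; ring
    have h2 : Real.log n - Real.log (n + 1) ≤ -(1 / (n + 1)) := by
      rw [← Real.log_div hn.ne' (by linarith)]
      refine (Real.log_le_sub_one_of_pos (by positivity)).trans (le_of_eq ?_)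
      field_simp; ring
    constructor <;> linarith [ih.1, ih.2]

theorem pr_abel {Y : ℕ} (hY : 1 ≤ Y) (E : ℝ) (m : ℕ)
    (hE : ∀ n, Y ≤ n → n ≤ Y + m → |prTh n - n| ≤ E) :
    |∑ p ∈ (Ioc Y (Y + m)).filter Nat.Prime, Real.log p / p - ∑ n ∈ Ioc Y (Y + m), 1 / (n : ℝ) -
      (prTh (Y + m) - (Y + m : ℕ)) / (Y + m : ℕ) + (prTh Y - Y) / Y| ≤
      E * (1 / (Y : ℝ) - 1 / ((Y + m : ℕ) : ℝ)) := by
  induction m with
  | zero => simp
  | succ m ih =>
    have ih' := ih fun n h1 h2 => hE n h1 (by omega)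
    have hA := hE (Y + m) (by omega) (by omega)
    rw [← add_assoc, sum_filter, sum_Ioc_succ_top (by omega), ← sum_filter,
      sum_Ioc_succ_top (by omega), prTh_succ]
    have hn : (0 : ℝ) < ((Y + m : ℕ) : ℝ) := by exact_mod_cast (by omega : 0 < Y + m)
    set n : ℝ := ((Y + m : ℕ) : ℝ) with hn'
    have e : ((Y + m + 1 : ℕ) : ℝ) = n + 1 := by rw [hn']; push_cast; ring
    rw [e]
    have e2 : (if (Y + m + 1).Prime then Real.log (n + 1) / (n + 1) else 0) =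
        (if (Y + m + 1).Prime then Real.log (n + 1) else 0) / (n + 1) := by
      split_ifs <;> simp
    rw [e2]
    set l := (if (Y + m + 1).Prime then Real.log (n + 1) else 0)
    set S := ∑ p ∈ (Ioc Y (Y + m)).filter Nat.Prime, Real.log p / p
    set H := ∑ n ∈ Ioc Y (Y + m), 1 / (n : ℝ)
    have e3 : S + l / (n + 1) - (H + 1 / (n + 1)) - (prTh (Y + m) + l - (n + 1)) / (n + 1) +
        (prTh Y - Y) / Y = (S - H - (prTh (Y + m) - n) / n + (prTh Y - Y) / Y) +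
          (prTh (Y + m) - n) * (1 / n - 1 / (n + 1)) := by
      field_simp; ring
    rw [e3]
    have hd : 0 ≤ 1 / n - 1 / (n + 1) := sub_nonneg.2 (one_div_le_one_div_of_le hn (by linarith))
    refine (abs_add_le _ _).trans ?_
    rw [abs_mul, abs_of_nonneg hd]
    have := mul_le_mul_of_nonneg_right hA hd
    linarith

theorem pr_B_eq {j : ℕ} (hj : 1 ≤ j) :
    B j = (Ioc (2 ^ (j - 1)) (2 ^ (j - 1) + 2 ^ (j - 1))).filter Nat.Prime := by
  have e : 2 ^ (j - 1) + 2 ^ (j - 1) = 2 ^ j := by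
    obtain ⟨k, rfl⟩ := Nat.exists_eq_add_of_le' hj
    rw [Nat.add_sub_cancel, pow_succ]; ring
  ext p
  rw [e, mem_B, mem_filter, mem_Ioc, ← lt_lv_iff, ← lv_le_iff]
  constructor
  · rintro ⟨h1, h2⟩; exact ⟨⟨by omega, by omega⟩, h1⟩
  · rintro ⟨⟨h1, h2⟩, h3⟩; exact ⟨h3, by omega⟩

theorem pr_logsum (hP : PAP) : ∃ C : ℝ, 0 ≤ C ∧ ∀ j : ℕ, 1 ≤ j →
    |∑ p ∈ B j, Real.log p / p - Real.log 2| ≤ C / j := by
  obtain ⟨c, hc, hc1, C, hC, h⟩ := prTh_est hP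
  have hl : 0 < Real.log 2 := Real.log_pos one_lt_two
  have hl1 : Real.log 2 ≤ 1 := by linarith [Real.log_two_lt_d9]
  refine ⟨(6 * C + 1) / (c * Real.log 2), by positivity, fun j hj => ?_⟩
  have hj' : (1 : ℝ) ≤ j := by exact_mod_cast hj
  set Y : ℕ := 2 ^ (j - 1) with hYd
  have hY : 1 ≤ Y := Nat.one_le_two_pow
  have hY' : (1 : ℝ) ≤ Y := by exact_mod_cast hY
  have hY0 : (0 : ℝ) < Y := by linarith
  set u : ℝ := (Y : ℝ) ^ (-c) with hu
  have hu0 : 0 < u := Real.rpow_pos_of_pos hY0 _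
  have hE : ∀ n, Y ≤ n → n ≤ Y + Y → |prTh n - n| ≤ 2 * C * Y * u := by
    intro n h1 h2
    have h1' : (Y : ℝ) ≤ n := by exact_mod_cast h1
    have h2' : (n : ℝ) ≤ Y + Y := by exact_mod_cast h2
    have h3 := h n (hY'.trans h1')
    rw [Nat.floor_natCast] at h3
    refine h3.trans ?_
    have h4 : (n : ℝ) ^ (1 - c) ≤ 2 * Y * u := by
      rw [sub_eq_add_neg, Real.rpow_add (by linarith), Real.rpow_one]
      exact mul_le_mul (by linarith) (Real.rpow_le_rpow_of_nonpos hY0 h1' (by linarith))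
        (by positivity) (by positivity)
    calc C * (n : ℝ) ^ (1 - c) ≤ C * (2 * Y * u) := mul_le_mul_of_nonneg_left h4 hC
      _ = _ := by ring
  have hab := pr_abel hY _ Y hE
  have hh := pr_harm hY Y
  have e1 : ((Y + Y : ℕ) : ℝ) = 2 * Y := by push_cast; ring
  have hA1 := hE Y le_rfl (by omega)
  have hA2 := hE (Y + Y) (by omega) le_rfl
  rw [e1] at hab hh hA2
  rw [Real.log_mul two_ne_zero hY0.ne'] at hh
  rw [pr_B_eq hj, ← hYd]
  have b1 : |(prTh Y - Y) / Y| ≤ 2 * C * u := by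
    rw [abs_div, abs_of_pos hY0, div_le_iff₀ hY0]; linarith
  have b2 : |(prTh (Y + Y) - 2 * Y) / (2 * Y)| ≤ 2 * C * u := by
    rw [abs_div, abs_of_pos (by positivity : (0 : ℝ) < 2 * Y), div_le_iff₀ (by positivity)]
    have : 0 ≤ C * Y * u := by positivity
    nlinarith
  have b3 : 2 * C * Y * u * (1 / (Y : ℝ) - 1 / (2 * Y)) ≤ 2 * C * u := by
    have : 2 * C * Y * u * (1 / (Y : ℝ) - 1 / (2 * Y)) = C * u := by field_simp; ring
    rw [this]
    have : 0 ≤ C * u := by positivity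
    linarith
  have b4 : 1 / (Y : ℝ) ≤ u := by
    rw [one_div, ← Real.rpow_neg_one]
    exact Real.rpow_le_rpow_of_exponent_le hY' (by linarith)
  have b5 : 0 ≤ 1 / (2 * (Y : ℝ)) := by positivity
  have b6 : u ≤ 1 / (c * Real.log 2 * j) := by
    have h1 : c * Real.log 2 * j ≤ (Y : ℝ) ^ c := by
      rw [Real.rpow_def_of_pos hY0, hYd]
      push_cast
      rw [Real.log_pow, Nat.cast_sub hj, Nat.cast_one]
      refine le_trans ?_ (Real.add_one_le_exp _)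
      have : c * Real.log 2 ≤ 1 := mul_le_one₀ hc1 hl.le hl1
      nlinarith
    rw [hu, Real.rpow_neg hY0.le, ← one_div]
    exact one_div_le_one_div_of_le (by positivity) h1
  have b7 : (6 * C + 1) * u ≤ (6 * C + 1) / (c * Real.log 2) / j := by
    refine (mul_le_mul_of_nonneg_left b6 (by positivity)).trans (le_of_eq ?_)
    field_simp
  refine le_trans ?_ b7
  rw [abs_le] at hab b1 b2 ⊢
  constructor <;> linarith [hab.1, hab.2, b1.1, b1.2, b2.1, b2.2, hh.1, hh.2]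

theorem pr_sum_inv_sq (s : Finset ℕ) : ∑ j ∈ s, 1 / (j : ℝ) ^ 2 ≤ 2 := by
  have h := sum_Ioo_inv_sq_le (α := ℝ) 0 (s.sup id + 1)
  simp only [Nat.cast_zero, zero_add, div_one] at h
  refine le_trans ?_ h
  rw [← sum_erase s (a := 0) (by simp)]
  simp only [one_div]
  refine sum_le_sum_of_subset_of_nonneg (fun j hj => ?_) fun _ _ _ => by positivity
  have h1 := le_sup (f := id) (mem_erase.1 hj).2
  have h2 := (mem_erase.1 hj).1
  rw [mem_Ioo]
  simp only [id] at h1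
  omega

theorem pr_harm_le {a b : ℕ} (ha : 1 ≤ a) (hab : a ≤ b) :
    ∑ j ∈ Icc a b, 1 / (j : ℝ) ≤ Real.log b - Real.log a + 1 := by
  obtain ⟨m, rfl⟩ := Nat.exists_eq_add_of_le hab
  rw [Icc_eq_cons_Ioc hab, sum_cons]
  have h1 : 1 / (a : ℝ) ≤ 1 := by
    rw [div_le_one (by exact_mod_cast ha)]; exact_mod_cast ha
  linarith [(pr_harm ha m).1]

theorem pr_harm_ge {a b : ℕ} (ha : 1 ≤ a) (hb : 1 ≤ b) :
    Real.log b - Real.log a - 1 ≤ ∑ j ∈ Icc a b, 1 / (j : ℝ) := by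
  rcases le_or_gt a b with hab | hab
  · obtain ⟨m, rfl⟩ := Nat.exists_eq_add_of_le hab
    rw [Icc_eq_cons_Ioc hab, sum_cons]
    have h1 : 1 / (a : ℝ) ≤ 1 := by
      rw [div_le_one (by exact_mod_cast ha)]; exact_mod_cast ha
    have h2 : 0 ≤ 1 / (a : ℝ) := by positivity
    have h3 : 0 ≤ 1 / ((a + m : ℕ) : ℝ) := by positivity
    linarith [(pr_harm ha m).2]
  · have h1 : Real.log b ≤ Real.log a :=
      Real.log_le_log (by exact_mod_cast hb) (by exact_mod_cast hab.le)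
    have h2 : 0 ≤ ∑ j ∈ Icc a b, 1 / (j : ℝ) := sum_nonneg fun _ _ => by positivity
    linarith


/-- `∑_{2^(j-1) < p ≤ 2^j} 1/p = 1/j + O(1/j²)`.  With `Y = 2^(j-1)`: `log p ∈ ((j-1) log 2, j log 2]`, so it is
enough to show `∑_{Y<p≤2Y} log p / p = log 2 + O(Y^(-c))` (`Y^(-c) ≤ C/j`); Abel summation
(`sum_mul_eq_sub_sub_integral_mul`, see `Crest.Agent.R20.mertens_interval` for a model), or cut `(Y, 2Y]`
into `j` equal pieces and compare with a Riemann sum, or discrete summation by parts with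
`θ(n) - n = O(Y^(1-c))` and `∑_{Y<n≤2Y} 1/n = log 2 + O(1/Y)`.  Small `j` are absorbed in `C`. -/
theorem mm_bounds (hP : PAP) :
    ∃ C : ℝ, 1 ≤ C ∧ ∀ j : ℕ, 1 ≤ j → |mm j - 1 / (j : ℝ)| ≤ C / (j : ℝ) ^ 2 := by
  obtain ⟨C, hC, h⟩ := pr_logsum hP
  have hl : 0 < Real.log 2 := Real.log_pos one_lt_two
  set D := C / Real.log 2 with hD
  have hD0 : 0 ≤ D := by positivity
  refine ⟨2 * D + 2, by linarith, fun j hj => ?_⟩
  have hj' : (1 : ℝ) ≤ j := by exact_mod_cast hj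
  have hj0 : (0 : ℝ) < j := by linarith
  have hm := mm_nonneg j
  have hS := abs_le.1 (h j hj)
  have hCD : C / j = Real.log 2 * (D / j) := by rw [hD]; field_simp
  rw [hCD] at hS
  have h1 : ∑ p ∈ B j, Real.log p / p ≤ Real.log 2 * (j * mm j) := by
    rw [mm, mul_sum, mul_sum]
    refine sum_le_sum fun p hp => ?_
    obtain ⟨hp1, hp2⟩ := mem_B.1 hp
    have hp0 : (0 : ℝ) < p := by exact_mod_cast hp1.pos
    have h2 : Real.log p ≤ Real.log 2 * j := by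
      rw [mul_comm, ← Real.log_pow]
      exact Real.log_le_log hp0 (by exact_mod_cast lv_le_iff.1 hp2.le)
    calc Real.log p / p ≤ Real.log 2 * j / p := by gcongr
      _ = _ := by ring
  have h2 : Real.log 2 * ((j - 1) * mm j) ≤ ∑ p ∈ B j, Real.log p / p := by
    rw [mm, mul_sum, mul_sum]
    refine sum_le_sum fun p hp => ?_
    obtain ⟨hp1, hp2⟩ := mem_B.1 hp
    have hp0 : (0 : ℝ) < p := by exact_mod_cast hp1.pos
    have h2 : Real.log 2 * (j - 1) ≤ Real.log p := by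
      have h3 := two_pow_lv_pred_lt hp1.two_le
      rw [hp2] at h3
      rw [mul_comm, ← Nat.cast_one (R := ℝ), ← Nat.cast_sub hj, ← Real.log_pow]
      exact Real.log_le_log (by positivity) (by exact_mod_cast h3.le)
    calc Real.log 2 * ((j - 1) * (1 / (p : ℝ))) = Real.log 2 * (j - 1) / p := by ring
      _ ≤ _ := by gcongr
  have h3 : 1 - D / j ≤ j * mm j := by
    refine le_of_mul_le_mul_left ?_ hl
    linarith [hS.1]
  have h4 : (j - 1) * mm j ≤ 1 + D / j := by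
    refine le_of_mul_le_mul_left ?_ hl
    linarith [hS.2]
  have e1 : mm j - 1 / (j : ℝ) = (j * (j * mm j - 1)) / (j : ℝ) ^ 2 := by field_simp
  have e2 : (j : ℝ) * (D / j) = D := by field_simp
  rw [e1, abs_div, abs_of_pos (by positivity : (0 : ℝ) < (j : ℝ) ^ 2)]
  refine div_le_div_of_nonneg_right ?_ (by positivity)
  have h5 := mul_le_mul_of_nonneg_left h3 hj0.le
  have h6 := mul_le_mul_of_nonneg_left h4 hj0.le
  rw [abs_le]
  refine ⟨by linarith, ?_⟩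
  rcases hj.eq_or_lt with rfl | hj2
  · have h7 : mm 1 ≤ 2 := by
      rw [mm]
      refine (sum_le_card_nsmul _ _ 1 fun p hp => ?_).trans ?_
      · have := (mem_B.1 hp).1.one_le
        rw [div_le_one (by exact_mod_cast this)]; exact_mod_cast this
      · rw [nsmul_eq_mul, mul_one]; exact_mod_cast card_B_le 1
    simp only [Nat.cast_one, one_mul]
    linarith
  · have hj3 : (2 : ℝ) ≤ j := by exact_mod_cast hj2
    have h7 : D / j ≤ D / 2 := div_le_div_of_nonneg_left hD0 two_pos hj3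
    have h8 : j * mm j ≤ 2 * ((j - 1) * mm j) := by nlinarith
    linarith

theorem mm_le (hP : PAP) : ∃ C : ℝ, 1 ≤ C ∧ ∀ j : ℕ, 1 ≤ j → mm j ≤ C / j := by
  obtain ⟨C, hC, h⟩ := mm_bounds hP
  refine ⟨C + 1, by linarith, fun j hj => ?_⟩
  have hj' : (1 : ℝ) ≤ j := by exact_mod_cast hj
  have h1 := (abs_le.1 (h j hj)).2
  have h2 : C / (j : ℝ) ^ 2 ≤ C / j :=
    div_le_div_of_nonneg_left (by linarith) (by linarith) (by nlinarith)
  rw [add_div]; linarith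

theorem mm_two_sided (hP : PAP) :
    ∃ j1 : ℕ, 1 ≤ j1 ∧ ∀ j ≥ j1, 1 / (2 * (j : ℝ)) ≤ mm j ∧ mm j ≤ 2 / j := by
  obtain ⟨C, hC, h⟩ := mm_bounds hP
  refine ⟨⌈2 * C⌉₊ + 1, by omega, fun j hj => ?_⟩
  have hj1 : 1 ≤ j := by omega
  have hj' : (1 : ℝ) ≤ j := by exact_mod_cast hj1
  have hjC : 2 * C ≤ j := (Nat.le_ceil _).trans (by exact_mod_cast (by omega : ⌈2 * C⌉₊ ≤ j))
  have h1 := abs_le.1 (h j hj1)
  have h2 : C / (j : ℝ) ^ 2 ≤ 1 / (2 * j) := by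
    rw [div_le_div_iff₀ (by positivity) (by positivity)]; nlinarith
  have e1 : 1 / (j : ℝ) = 1 / (2 * j) + 1 / (2 * j) := by field_simp; ring
  have e2 : 2 / (j : ℝ) = 2 * (1 / j) := by ring
  have h3 : 0 ≤ 1 / (2 * (j : ℝ)) := by positivity
  constructor <;> linarith [h1.1, h1.2]

/-- `mm j ≤ |B j| / 2^(j-1)` -/
theorem card_B_ge (hP : PAP) : ∃ j1 : ℕ, ∀ j ≥ j1, 2 ^ j ≤ 4 * j * (B j).card := by
  obtain ⟨j1, hj1, h⟩ := mm_two_sided hP
  refine ⟨j1, fun j hj => ?_⟩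
  have hj0 : 1 ≤ j := hj1.trans hj
  have hj' : (1 : ℝ) ≤ j := by exact_mod_cast hj0
  have h1 : mm j ≤ (B j).card * (2 / 2 ^ j) := by
    rw [mm, ← nsmul_eq_mul]
    refine sum_le_card_nsmul _ _ _ fun p hp => ?_
    obtain ⟨hp1, hp2⟩ := mem_B.1 hp
    have h3 := two_pow_lv_lt hp1.two_le
    rw [hp2] at h3
    rw [div_le_div_iff₀ (by exact_mod_cast hp1.pos) (by positivity), one_mul]
    exact_mod_cast h3.le
  have h2 := (h j hj).1.trans h1
  rw [← mul_div_assoc, div_le_div_iff₀ (by positivity) (by positivity)] at h2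
  have h3 : (2 : ℝ) ^ j ≤ 4 * j * (B j).card := by linarith
  exact_mod_cast h3

/-- `∑_{a ≤ j ≤ b} mm j ≤ log (b/a) + C` -/
theorem sum_mm_le (hP : PAP) : ∃ C : ℝ, 0 ≤ C ∧ ∀ a b : ℕ, 1 ≤ a → a ≤ b →
    ∑ j ∈ Icc a b, mm j ≤ Real.log ((b : ℝ) / a) + C := by
  obtain ⟨C, hC, h⟩ := mm_bounds hP
  refine ⟨2 * C + 1, by linarith, fun a b ha hab => ?_⟩
  have h1 : ∑ j ∈ Icc a b, mm j ≤ ∑ j ∈ Icc a b, (1 / (j : ℝ) + C * (1 / (j : ℝ) ^ 2)) := by
    refine sum_le_sum fun j hj => ?_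
    have := (abs_le.1 (h j (ha.trans (mem_Icc.1 hj).1))).2
    rw [mul_one_div]; linarith
  rw [sum_add_distrib, ← mul_sum] at h1
  have h2 := mul_le_mul_of_nonneg_left (pr_sum_inv_sq (Icc a b)) (by linarith : 0 ≤ C)
  rw [Real.log_div (by exact_mod_cast (by omega : b ≠ 0)) (by exact_mod_cast (by omega : a ≠ 0))]
  linarith [pr_harm_le ha hab]

/-- `θ(3y/2) - θ(y) ≥ y/4` for large `y`, and `log p ≤ 2 log y` -/
theorem primes_short (hP : PAP) : ∃ c : ℝ, 0 < c ∧ ∃ y0 : ℝ, 2 ≤ y0 ∧ ∀ y ≥ y0,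
    c * y / Real.log y ≤ (((Ioc ⌊y⌋₊ ⌊3 / 2 * y⌋₊).filter Nat.Prime).card : ℝ) := by
  obtain ⟨c, hc, hc1, C, hC, h⟩ := prTh_est hP
  have ht := (tendsto_rpow_neg_atTop hc).eventually_le_const
    (by positivity : (0 : ℝ) < 1 / (12 * C + 1))
  obtain ⟨y1, hy1⟩ := Filter.eventually_atTop.1 ht
  refine ⟨1 / 8, by norm_num, max y1 2, le_max_right _ _, fun y hy => ?_⟩
  have hy2 : 2 ≤ y := (le_max_right _ _).trans hy
  have hy0 : 0 < y := by linarith
  have hu := hy1 y ((le_max_left _ _).trans hy)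
  have hu0 : 0 < y ^ (-c) := Real.rpow_pos_of_pos hy0 _
  have hCu : C * y ^ (-c) ≤ 1 / 12 := by
    rw [le_div_iff₀ (by positivity)] at hu
    linarith
  have h1 := (abs_le.1 (h y (by linarith))).2
  have h2 := (abs_le.1 (h (3 / 2 * y) (by linarith))).1
  have e1 : y ^ (1 - c) = y * y ^ (-c) := by
    rw [sub_eq_add_neg, Real.rpow_add hy0, Real.rpow_one]
  have e2 : (3 / 2 * y) ^ (1 - c) ≤ 2 * y * y ^ (-c) := by
    rw [sub_eq_add_neg, Real.rpow_add (by linarith), Real.rpow_one]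
    exact mul_le_mul (by linarith) (Real.rpow_le_rpow_of_nonpos hy0 (by linarith) (by linarith))
      (by positivity) (by positivity)
  have h3 : y / 4 ≤ prTh ⌊3 / 2 * y⌋₊ - prTh ⌊y⌋₊ := by
    have a1 := mul_le_mul_of_nonneg_left e2 hC
    have a2 := mul_le_mul_of_nonneg_left hCu hy0.le
    rw [e1] at h1
    linarith
  rw [prTh_sub (Nat.floor_le_floor (by linarith))] at h3
  have hl : 0 < Real.log y := Real.log_pos (by linarith)
  have h4 : ∑ p ∈ (Ioc ⌊y⌋₊ ⌊3 / 2 * y⌋₊).filter Nat.Prime, Real.log p ≤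
      (((Ioc ⌊y⌋₊ ⌊3 / 2 * y⌋₊).filter Nat.Prime).card : ℝ) * (2 * Real.log y) := by
    rw [← nsmul_eq_mul]
    refine sum_le_card_nsmul _ _ _ fun p hp => ?_
    obtain ⟨hp1, hp2⟩ := mem_filter.1 hp
    have h5 : (p : ℝ) ≤ 3 / 2 * y :=
      le_trans (by exact_mod_cast (mem_Ioc.1 hp1).2) (Nat.floor_le (by positivity))
    rw [← Nat.cast_ofNat, ← Real.log_pow]
    exact Real.log_le_log (by exact_mod_cast hp2.pos) (by nlinarith)
  rw [div_le_iff₀ hl]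
  linarith

/-- Chebyshev's upper bound (Mathlib: `Chebyshev.primeCounting_le...`/`Chebyshev.theta_le`, or split at
`√y`) -/
theorem primes_upper : ∃ C : ℝ, 0 ≤ C ∧ ∀ y : ℝ, 2 ≤ y →
    (((Icc 1 ⌊y⌋₊).filter Nat.Prime).card : ℝ) ≤ C * y / Real.log y := by
  have hl4 : 0 < Real.log 4 := Real.log_pos (by norm_num)
  refine ⟨2 * Real.log 4 + 2, by positivity, fun y hy => ?_⟩
  have hy0 : 0 < y := by linarith
  have h := Chebyshev.pi_le_log4_mul_div (x := y) (by linarith)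
  have e : ((Icc 1 ⌊y⌋₊).filter Nat.Prime).card = Nat.primeCounting ⌊y⌋₊ := by
    rw [← Nat.primesLE_card_eq_primeCounting]
    congr 1
    ext p
    rw [mem_filter, mem_Icc, Nat.mem_primesLE]
    exact ⟨fun h => ⟨h.1.2, h.2⟩, fun h => ⟨⟨h.2.one_le, h.1⟩, h.2⟩⟩
  rw [e]
  refine h.trans ?_
  have hl : 0 < Real.log y := Real.log_pos (by linarith)
  have hs : 0 < √y := Real.sqrt_pos.2 hy0
  have h1 : √y ≤ 2 * y / Real.log y := by
    rw [le_div_iff₀ hl]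
    have h2 := Real.log_le_sub_one_of_pos hs
    rw [Real.log_sqrt hy0.le] at h2
    have h3 := Real.mul_self_sqrt hy0.le
    nlinarith
  rw [Real.log_sqrt hy0.le]
  have e2 : (2 * Real.log 4 + 2) * y / Real.log y =
      Real.log 4 * y / (Real.log y / 2) + 2 * y / Real.log y := by field_simp
  rw [e2]; linarith

/-- `1 - x ≥ exp (-x - 2x²)` on `[0, 1/2]`, `1/(p-1) ≤ 1/p + 2/p²`, `∑ 1/p ≤ log t + C` (`sum_mm_le`) -/
theorem prod_lower (hP : PAP) : ∃ c : ℝ, 0 < c ∧ ∀ t : ℕ, 1 ≤ t → ∀ P : Finset ℕ,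
    (∀ p ∈ P, p.Prime ∧ 3 ≤ p ∧ lv p ≤ t) → c / t ≤ ∏ p ∈ P, (1 - 1 / ((p : ℝ) - 1)) := by
  obtain ⟨C, hC, h⟩ := sum_mm_le hP
  refine ⟨Real.exp (-(C + 12)), Real.exp_pos _, fun t ht P hPP => ?_⟩
  have ht0 : (0 : ℝ) < t := by exact_mod_cast ht
  have h1 : ∏ p ∈ P, Real.exp (-(1 / (p : ℝ) + 6 * (1 / (p : ℝ) ^ 2))) ≤
      ∏ p ∈ P, (1 - 1 / ((p : ℝ) - 1)) := by
    refine prod_le_prod (fun _ _ => (Real.exp_pos _).le) fun p hp => ?_
    have hp3 : (3 : ℝ) ≤ p := by exact_mod_cast (hPP p hp).2.1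
    have a1 : (0 : ℝ) < p - 1 := by linarith
    have a2 : (0 : ℝ) < p - 2 := by linarith
    have a3 : 1 / ((p : ℝ) - 2) ≤ 1 / (p : ℝ) + 6 * (1 / (p : ℝ) ^ 2) := by
      have : 1 / (p : ℝ) + 6 * (1 / (p : ℝ) ^ 2) = (p + 6) / (p : ℝ) ^ 2 := by field_simp
      rw [this, div_le_div_iff₀ a2 (by positivity)]
      nlinarith
    have a4 : 1 - 1 / ((p : ℝ) - 1) = (1 / ((p : ℝ) - 2) + 1)⁻¹ := by field_simp; ring
    rw [a4, Real.exp_neg]
    exact inv_anti₀ (by positivity) ((Real.add_one_le_exp _).trans (Real.exp_le_exp.2 a3))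
  refine le_trans ?_ h1
  rw [← Real.exp_sum, sum_neg_distrib, sum_add_distrib, ← mul_sum]
  have h2 : ∑ p ∈ P, 1 / (p : ℝ) ≤ Real.log t + C := by
    have h3 := h 1 t le_rfl ht
    rw [Nat.cast_one, div_one] at h3
    refine le_trans ?_ h3
    simp only [mm]
    rw [← sum_PL]
    refine sum_le_sum_of_subset_of_nonneg (fun p hp => ?_) fun _ _ _ => by positivity
    obtain ⟨b1, b2, b3⟩ := hPP p hp
    exact mem_PL.2 ⟨b1, one_le_lv b1.two_le, b3⟩
  have h4 := pr_sum_inv_sq P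
  rw [← Real.exp_log ht0, ← Real.exp_sub]
  exact Real.exp_le_exp.2 (by linarith)

/-- `1 - x ≤ exp (-x)` and `∑_{t0 < j ≤ t} mm j ≥ log t - C(t0)` -/
theorem prod_upper (hP : PAP) (t0 : ℕ) : ∃ C : ℝ, 1 ≤ C ∧ ∀ t : ℕ, 1 ≤ t →
    ∏ p ∈ PL (t0 + 1) t, (1 - 1 / (p : ℝ)) ≤ C / t := by
  obtain ⟨C, hC, h⟩ := mm_bounds hP
  have ht00 : (0 : ℝ) < ((t0 + 1 : ℕ) : ℝ) := by positivity
  have hl0 : 0 ≤ Real.log ((t0 + 1 : ℕ) : ℝ) := Real.log_nonneg (by exact_mod_cast (by omega : 1 ≤ t0 + 1))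
  refine ⟨Real.exp (Real.log ((t0 + 1 : ℕ) : ℝ) + 1 + 2 * C), Real.one_le_exp (by linarith),
    fun t ht => ?_⟩
  have ht0 : (0 : ℝ) < t := by exact_mod_cast ht
  have h1 : ∏ p ∈ PL (t0 + 1) t, (1 - 1 / (p : ℝ)) ≤ ∏ p ∈ PL (t0 + 1) t, Real.exp (-(1 / (p : ℝ))) := by
    refine prod_le_prod (fun p hp => ?_) fun p _ => ?_
    · have := (mem_PL.1 hp).1.one_le
      rw [sub_nonneg, div_le_one (by exact_mod_cast this)]; exact_mod_cast this
    · linarith [Real.add_one_le_exp (-(1 / (p : ℝ)))]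
  refine h1.trans ?_
  rw [← Real.exp_sum, sum_neg_distrib, sum_PL]
  have h2 : ∑ j ∈ Icc (t0 + 1) t, (1 / (j : ℝ) - C * (1 / (j : ℝ) ^ 2)) ≤ ∑ j ∈ Icc (t0 + 1) t, mm j := by
    refine sum_le_sum fun j hj => ?_
    have := (abs_le.1 (h j (le_trans (by omega) (mem_Icc.1 hj).1))).1
    rw [mul_one_div]; linarith
  rw [sum_sub_distrib, ← mul_sum] at h2
  have h3 := mul_le_mul_of_nonneg_left (pr_sum_inv_sq (Icc (t0 + 1) t)) (by linarith : 0 ≤ C)
  have h4 := pr_harm_ge (a := t0 + 1) (by omega) ht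
  simp only [mm] at h2
  rw [← Real.exp_log ht0, ← Real.exp_sub]
  exact Real.exp_le_exp.2 (by linarith)

end Crest.Agent.R1
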