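import Crest.Agent.R1.Far1
import Crest.Agent.R1.Cover
import Crest.Agent.R1.Primes

/-!
# R1 / Far : the structure theorem for large remainders

Notation: `Λ = Lam N`, `X = 2^N`, `E0 = 2^(A1 Λ)`, `V = N/κ`, `r = 2 A3`, `G = 2^((Λ+1)/2)`.
Take `A2 = 24 κ (3 + 8 A1) + 2 A1 + 10`.

1. `sel_blocks J G` (`G ≤ |B j|` for `j > j0 ≥ 10 Λ` by `card_B_ge`) gives `key`, `pool`.  For `e0 ∈ Sel J` put
   `E = (fibre of key through e0).image pr`, `Q = pr (pool (key e0)) ≤ 2^(2 G r A4 Λ)`.  `|E| ≥ G^r ≥ 2^(A3 Λ) ≥ 2^j0`;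
   each `e ∈ E` divides `Q`, has prime factors of level `> j0`, is `≤ 2^(r A4 Λ)`; take `K = 2 + A3 + r A4`
   (`j0 - 1 ≥ Λ`), `L = N`.  `block_special` gives `Sp`, depending only on `key e0` (choose it as a function of the key
   `k ∈ (Sel J).image key`), with `s = 512 N E0⁶`.
2. Types: `Ty = {(k, ν0, I)}`: `k ∈ (Sel J).image key`, `ν0 < 2^(2 G r A4 Λ)`, `I ≤ 2^(A5 Λ) + 1`;
   `|Ty| |B j0| ≤ 2^(r A4 Λ + 2 G r A4 Λ + A5 Λ + 2 + A3 Λ) ≤ 2^(V/4)` (`card_Sel_le`, `lam_small`, `lam_small_sqrt`).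
3. `cover` with `w = 4 E0²`, `H = 3N/(j0-1) + 1` (`w H ≤ 16 N E0² ≤ 2^j0/(4 j0) ≤ |B j0|`).
   `2 w H s ≤ 2^14 N² E0⁸ ≤ 2^((3 + 8 A1) Λ)`, `H ≤ 6N/(A2 Λ) + 1`, so `(2wHs)^H ≤ 2^(N/(4κ) + (3+8A1)Λ) ≤ 2^(V/2)`
   and `|𝒞| ≤ 2^V`.
4. Let `G` be the set of `g ∈ [1, X]` with `X ≤ g 2^(A5 Λ)` and large remainder.  For `g ∈ G`: `cnt_mul_eq`,
   `exists_bad_block`, `block_special`, `cover` give `𝓗 ⊆ B j0`, `|𝓗| = H`, `pr 𝓗 ≥ 2^((j0-1) H) ≥ 2^(3N) ≥ 2X²`.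
   `classes_to_lines` with `M = 2^(N - 2V)`.
-/

set_option autoImplicit false

noncomputable section

open scoped Classical

namespace Crest.Agent.R1

open Finset

theorem far_core (a0 : ℤ) (N j0 V E0 G K H b c : ℕ) (J : Finset ℕ) (hj2 : 2 ≤ j0) (hE0 : 1 ≤ E0)
    (hG : 1 ≤ G) (hJ : ∀ j ∈ J, j0 < j ∧ j ≤ b ∧ G ≤ (B j).card) (hGc : 2 ^ j0 ≤ G ^ J.card)
    (hK : 1 + j0 + J.card * b ≤ (j0 - 1) * K) (hB : 2 ^ j0 ≤ 4 * j0 * (B j0).card)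
    (hL : 6 + 16 * K * j0 * (1 + j0) ^ 2 ≤ N) (h4 : 4 * E0 ^ 2 ≤ 2 ^ j0) (hH : 1 ≤ H)
    (hwH : 4 * E0 ^ 2 * H ≤ (B j0).card) (hHN : 2 * N + 1 ≤ (j0 - 1) * H) (hV : 2 * V ≤ N)
    (hC : 2 ^ (J.card * b) * (2 ^ (2 * G * J.card * b) * 2 ^ (c + 2)) * 2 ^ j0 *
      (2 * (4 * E0 ^ 2) * H * (512 * N * E0 ^ 6)) ^ H ≤ 2 ^ V) :
    ∃ (𝔅 : Finset (ℤ × ℕ)) (U : Finset ℕ), 𝔅.card ≤ 2 ^ V ∧ U.card ≤ 2 ^ (N - V) ∧
      (∀ β ∈ 𝔅, 1 ≤ β.2 ∧ β.2 ≤ 2 ^ (2 * V) ∧ |β.1| ≤ 2 ^ (N + 2 * V + 1)) ∧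
      ∀ g : ℕ, 1 ≤ g → g ≤ 2 ^ N → 2 ^ N ≤ g * 2 ^ c →
        |Rem a0 (2 ^ N) j0 J g| ≤ ((B j0).card : ℝ) * (Sel J).card / (E0 : ℝ) ^ 2 ∨
          g ∈ U ∨ ∃ β ∈ 𝔅, (g : ℤ) ∣ β.1 - β.2 * a0 := by
  obtain ⟨key, pool, hkey⟩ := sel_blocks J G hG fun j hj => (hJ j hj).2.2
  have hsg : ∀ d : Finset ℕ, (∀ π ∈ d, lv π ∈ J) → pr d ≤ 2 ^ (d.card * b) := fun d hd =>
    (pr_le d).trans (Nat.pow_le_pow_right two_pos
      (sum_le_card_nsmul d lv b fun π hπ => (hJ _ (hd π hπ)).2.1))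
  set E : Finset (ℕ × ℕ) → Finset ℕ := fun k => ((Sel J).filter (fun e => key e = k)).image pr with hE
  have hSp : ∀ k, ∃ Sp : ℕ → ℕ → ℕ → Finset ℕ, k ∈ (Sel J).image key →
      (∀ ν0 I P, (Sp ν0 I P).card ≤ 512 * N * E0 ^ 6) ∧ ∀ (ν : ℤ) (I : ℕ),
        ((B j0).card : ℝ) * (E k).card / (2 * (E0 : ℝ) ^ 2) < ∑ P ∈ B j0, |Dev ν I P (E k)| →
        (B j0).card ≤ 4 * E0 ^ 2 * ((B j0).filter
          (fun P : ℕ => (ν % P).toNat ∈ Sp (ν % pr (pool k)).toNat I P)).card := fun k => by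
    by_cases hk : k ∈ (Sel J).image key
    swap
    · exact ⟨fun _ _ _ => ∅, fun h => absurd h hk⟩
    obtain ⟨e0, he0, rfl⟩ := mem_image.1 hk
    obtain ⟨k1, -, -, k4⟩ := hkey e0 he0
    have hp : ∀ π ∈ pool (key e0), π.Prime := fun π hπ => (k4 π hπ).1
    obtain ⟨Sp, hSp⟩ := block_special j0 K (pr (pool (key e0))) E0 N (E (key e0)) hj2 hE0 (pr_pos hp)
      (fun P hP => (coprime_pr hp fun π hπ h => by
        obtain ⟨a1, a2⟩ := mem_B.1 hP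
        have a3 := (Nat.prime_dvd_prime_iff_eq (hp π hπ) a1).1 h
        have a4 := (hJ _ (k4 π hπ).2).1
        rw [a3] at a4
        omega).symm) (fun e he => by
        obtain ⟨d, hd, rfl⟩ := mem_image.1 he
        obtain ⟨hd, hd'⟩ := mem_filter.1 hd
        have a1 := (mem_Sel.1 hd).1
        refine ⟨prod_dvd_prod_of_subset _ _ _ (hd' ▸ (hkey d hd).2.1), fun π hπ h => ?_, ?_⟩
        · exact lt_lv_iff.1 (hJ _ (a1 π ((prime_dvd_pr (fun x hx => (a1 x hx).1) hπ).1 h)).2).1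
        · refine (Nat.mul_le_mul_left _ (hsg d fun π hπ => (a1 π hπ).2)).trans ?_
          rw [← pow_succ', ← pow_add, card_of_mem_Sel hd]
          exact Nat.pow_le_pow_right two_pos (by omega)) (by
        rw [hE]
        simp only
        rw [card_image_of_injOn fun d hd d' hd' h => pr_inj
          (fun x hx => ((mem_Sel.1 (mem_filter.1 hd).1).1 x hx).1)
          (fun x hx => ((mem_Sel.1 (mem_filter.1 hd').1).1 x hx).1) h]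
        exact hGc.trans k1) hB hL
    exact ⟨Sp, fun _ => hSp⟩
  choose Sp hSp using hSp
  obtain ⟨𝒞, hc1, hc2⟩ := cover (B j0)
    ((Sel J).image key ×ˢ range (2 ^ (2 * G * J.card * b)) ×ˢ range (2 ^ (c + 2)))
    (fun y P => Sp y.1 y.2.1 y.2.2 P) (512 * N * E0 ^ 6) H (4 * E0 ^ 2) hH (Nat.mul_pos (by norm_num) (by positivity)) hwH
    fun y hy P _ => (hSp y.1 (mem_product.1 hy).1).1 _ _ _
  have hc3 : 𝒞.card ≤ 2 ^ V := by
    refine hc1.trans (le_trans ?_ hC)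
    rw [card_product, card_product, card_range, card_range]
    gcongr
    · exact card_image_le.trans ((card_Sel_le J).trans (Nat.pow_le_pow_right two_pos
        (sum_le_card_nsmul J _ b fun j hj => (hJ j hj).2.1)))
    · exact card_B_le j0
  have hn : ∀ g : ℕ, ∃ (n : ℕ) (ν : ℤ), 1 ≤ g → n < g ∧ a0 + n = g * ν ∧
      ∀ m : ℕ, cnt a0 (2 ^ N) (g * m) = cnt ν (cnt a0 (2 ^ N) g) m := fun g => by
    by_cases hg : 1 ≤ g
    · obtain ⟨n, ν, h⟩ := cnt_mul_eq a0 (2 ^ N) g hg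
      exact ⟨n, ν, fun _ => h⟩
    · exact ⟨0, 0, fun h => absurd h hg⟩
  choose n ν hn using hn
  obtain ⟨𝔅, U, d1, d2, d3, d4⟩ := classes_to_lines a0 (2 ^ N) (2 ^ (N - 2 * V)) Nat.one_le_two_pow 𝒞
    ((Icc 1 (2 ^ N)).filter fun g => 2 ^ N ≤ g * 2 ^ c ∧
      ((B j0).card : ℝ) * (Sel J).card / (E0 : ℝ) ^ 2 < |Rem a0 (2 ^ N) j0 J g|) n ν fun g hg => by
    obtain ⟨g0, g3, g4⟩ := mem_filter.1 hg
    obtain ⟨g1, g2⟩ := mem_Icc.1 g0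
    obtain ⟨n1, n2, n3⟩ := hn g g1
    obtain ⟨e0, he0, hbad⟩ := exists_bad_block a0 (2 ^ N) j0 g E0 J key g1 hE0 h4 (ν g) n3 g4
    have k0 := mem_image_of_mem key he0
    have k1 := (hSp _ k0).2 (ν g) (cnt a0 (2 ^ N) g) (by convert hbad)
    obtain ⟨-, -, k3, k4⟩ := hkey e0 he0
    have hQ : 0 < pr (pool (key e0)) := pr_pos fun π hπ => (k4 π hπ).1
    have k5 := hc2 (key e0, (ν g % pr (pool (key e0))).toNat, cnt a0 (2 ^ N) g)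
      (mem_product.2 ⟨k0, mem_product.2 ⟨mem_range.2 ?_, mem_range.2 ?_⟩⟩)
      (fun P => (ν g % P).toNat) k1
    · obtain ⟨𝓗, h1, h2, h3⟩ := k5
      refine ⟨g1, g2, n1.trans_le g2, n2, 𝓗, fun P hP => (mem_B.1 (h1 hP)).1, ?_, h3⟩
      refine le_trans ?_ (pow_card_le_prod 𝓗 (fun p => p) (2 ^ (j0 - 1)) fun P hP => ?_)
      · rw [← pow_mul, ← pow_succ', ← pow_mul, h2]
        exact Nat.pow_le_pow_right two_pos (by omega)
      · exact (lt_lv_iff.1 (by have := (mem_B.1 (h1 hP)).2; omega)).le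
    · have a1 : (ν g % pr (pool (key e0))).toNat < pr (pool (key e0)) := by
        have := Int.emod_lt_of_pos (ν g) (Int.natCast_pos.2 hQ)
        omega
      exact a1.trans_le ((hsg _ fun π hπ => (k4 π hπ).2).trans
        (Nat.pow_le_pow_right two_pos (Nat.mul_le_mul_right b k3)))
    · have a1 := (abs_le.1 (cnt_approx a0 (2 ^ N) g g1)).2
      have a2 : ((2 ^ N : ℕ) : ℝ) / g ≤ (2 ^ c : ℕ) := by
        rw [div_le_iff₀' (by exact_mod_cast g1)]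
        exact_mod_cast g3
      have a3 : cnt a0 (2 ^ N) g ≤ 2 ^ c + 1 := by exact_mod_cast (by linarith :
        (cnt a0 (2 ^ N) g : ℝ) ≤ (2 ^ c : ℕ) + 1)
      have a4 : 0 < 2 ^ c := by positivity
      simp only [pow_add]
      omega
  have e1 : 2 ^ N = 2 ^ (2 * V) * 2 ^ (N - 2 * V) := by rw [← pow_add, Nat.add_sub_cancel' hV]
  refine ⟨𝔅, U, d1.trans hc3, d2.trans ((Nat.mul_le_mul_right _ hc3).trans ?_), fun β hβ => ?_,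
    fun g g1 g2 g3 => ?_⟩
  · rw [← pow_add]
    exact Nat.pow_le_pow_right two_pos (by omega)
  · obtain ⟨a1, a2, a3⟩ := d3 β hβ
    refine ⟨a1, Nat.le_of_mul_le_mul_right (a2.trans e1.le) (by positivity),
      le_of_mul_le_mul_right (a3.trans (le_of_eq ?_)) (by positivity)⟩
    push_cast
    rw [← pow_mul, ← pow_succ', ← pow_add]
    congr 1
    omega
  · exact (le_or_gt _ _).imp_right fun h => d4 g (mem_filter.2 ⟨mem_Icc.2 ⟨g1, g2⟩, g3, h⟩)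

theorem far (hP : PAP) (A1 κ : ℕ) (hκ : 3 ≤ κ) : ∃ A2 : ℕ, ∀ A3 A4 A5 : ℕ, ∃ N0 : ℕ, ∀ N ≥ N0,
    ∀ (a0 : ℤ) (j0 : ℕ) (J : Finset ℕ), A2 * Lam N ≤ j0 → j0 ≤ A3 * Lam N → J.card = 2 * A3 →
    (∀ j ∈ J, j0 < j ∧ j ≤ A4 * Lam N) →
    ∃ (𝔅 : Finset (ℤ × ℕ)) (U : Finset ℕ), 𝔅.card ≤ 2 ^ (N / κ) ∧ U.card ≤ 2 ^ (N - N / κ) ∧
      (∀ β ∈ 𝔅, 1 ≤ β.2 ∧ β.2 ≤ 2 ^ (2 * (N / κ)) ∧ |β.1| ≤ 2 ^ (N + 2 * (N / κ) + 1)) ∧
      ∀ g : ℕ, 1 ≤ g → g ≤ 2 ^ N → 2 ^ N ≤ g * 2 ^ (A5 * Lam N) →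
        |Rem a0 (2 ^ N) j0 J g| ≤ ((B j0).card : ℝ) * (Sel J).card / ((2 : ℝ) ^ (A1 * Lam N)) ^ 2 ∨
          g ∈ U ∨ ∃ β ∈ 𝔅, (g : ℤ) ∣ β.1 - β.2 * a0 := by
  obtain ⟨j1, hj1⟩ := card_B_ge hP
  refine ⟨24 * κ * (3 + 8 * A1) + (2 * A1 + 10), fun A3 A4 A5 => Filter.eventually_atTop.1 ?_⟩
  filter_upwards [Filter.eventually_atTop.2 (lam_small (j1 + 12 + A3 + A4) 1),
    Filter.eventually_atTop.2 (lam_small (6 + 16 * (1 + A3 + 2 * A3 * A4) * (A3 + 1) ^ 3) 3),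
    Filter.eventually_atTop.2 (lam_small (4 * (2 * A3 * A4 + A5 + 2 + A3 + (3 + 8 * A1)) * κ) 1),
    Filter.eventually_atTop.2 (lam_small_sqrt (4 * (2 * (2 * A3) * A4) * κ) 1)]
    with N ⟨h1, h2⟩ ⟨_, h3⟩ ⟨_, h4⟩ h5 a0 j0 J hj hj' hJ hJ'
  have hN := le_two_pow_Lam N
  generalize Lam N = Λ at *
  rw [pow_one] at h2 h4 h5
  set a := 3 + 8 * A1 with ha
  set G := 2 ^ ((Λ + 1) / 2) with hG
  set h := 3 * N / (j0 - 1) with hh
  rw [add_mul, add_mul] at hj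
  rw [add_mul, add_mul, add_mul] at h2
  have hκ0 : 0 < κ := by omega
  have b1 : (h + 1) ≤ N := by
    have : h ≤ 3 * N / 9 := Nat.div_le_div_left (by omega) (by norm_num)
    omega
  have b2 : 2 ^ j0 ≤ 4 * j0 * (B j0).card := hj1 j0 (by omega)
  have b3 : (2 ^ (A1 * Λ)) ^ 2 = 2 ^ (2 * A1 * Λ) := by rw [← pow_mul]; ring_nf
  have key := far_core a0 N j0 (N / κ) (2 ^ (A1 * Λ)) G (1 + A3 + 2 * A3 * A4) (h + 1) (A4 * Λ)
    (A5 * Λ) J (by omega) Nat.one_le_two_pow Nat.one_le_two_pow (fun j hj => ?_) ?_ ?_ b2 ?_ ?_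
    (Nat.le_add_left 1 h) ?_ ?_ ?_ ?_
  · simpa only [Nat.cast_pow, Nat.cast_ofNat] using key
  · obtain ⟨c1, c2⟩ := hJ' j hj
    refine ⟨c1, c2, Nat.le_of_mul_le_mul_left (le_trans ?_ (hj1 j (by omega))) (by omega : 0 < 4 * j)⟩
    calc 4 * j * G ≤ 2 ^ 2 * 2 ^ Λ * 2 ^ Λ :=
          Nat.mul_le_mul (Nat.mul_le_mul le_rfl (by omega)) (Nat.pow_le_pow_right two_pos (by omega))
      _ ≤ 2 ^ j := by
          rw [← pow_add, ← pow_add]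
          exact Nat.pow_le_pow_right two_pos (by omega)
  · rw [hG, ← pow_mul, hJ, ← mul_assoc]
    refine Nat.pow_le_pow_right two_pos (hj'.trans ?_)
    rw [mul_comm A3]
    exact Nat.mul_le_mul_right _ (by omega)
  · calc 1 + j0 + J.card * (A4 * Λ) ≤ Λ + A3 * Λ + 2 * A3 * (A4 * Λ) := by
          rw [hJ]
          omega
      _ = Λ * (1 + A3 + 2 * A3 * A4) := by ring
      _ ≤ _ := Nat.mul_le_mul_right _ (by omega)
  · refine le_trans ?_ h3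
    have c1 : 1 + j0 ≤ (A3 + 1) * Λ := by
      rw [add_mul]
      omega
    calc _ ≤ 6 * Λ ^ 3 + 16 * (1 + A3 + 2 * A3 * A4) * ((A3 + 1) * Λ) * ((A3 + 1) * Λ) ^ 2 := by
          gcongr
          · exact Nat.le_mul_of_pos_right _ (pow_pos (show 0 < Λ by omega) 3)
          · omega
      _ = _ := by ring
  · rw [b3, show 4 = 2 ^ 2 from rfl, ← pow_add]
    exact Nat.pow_le_pow_right two_pos (by omega)
  · refine Nat.le_of_mul_le_mul_left (le_trans ?_ b2) (by omega : 0 < 4 * j0)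
    calc _ ≤ 2 ^ 2 * 2 ^ Λ * (2 ^ 2 * 2 ^ (2 * A1 * Λ) * 2 ^ Λ) := by
          rw [b3]
          exact Nat.mul_le_mul (Nat.mul_le_mul le_rfl (by omega)) (Nat.mul_le_mul le_rfl (by omega))
      _ ≤ _ := by
          simp only [← pow_add]
          exact Nat.pow_le_pow_right two_pos (by omega)
  · have := Nat.lt_mul_div_succ (3 * N) (show 0 < j0 - 1 by omega)
    rw [← hh] at this
    omega
  · have := Nat.mul_div_le N κ
    have : 3 * (N / κ) ≤ κ * (N / κ) := Nat.mul_le_mul_right _ hκ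
    omega
  · have c1 := (Nat.le_div_iff_mul_le hκ0).2 (le_of_eq_of_le (mul_right_comm _ Λ κ) h4)
    have c2 : 4 * (2 * G * (2 * A3) * (A4 * Λ)) ≤ N / κ :=
      (Nat.le_div_iff_mul_le hκ0).2 (le_of_eq_of_le (by ring) h5)
    have c3 : 8 * (a * Λ * h) ≤ N / κ := by
      refine (Nat.le_div_iff_mul_le hκ0).2 (Nat.le_of_mul_le_mul_left ?_ (by norm_num : 0 < 3))
      calc _ = 24 * κ * a * Λ * h := by ring
        _ ≤ (j0 - 1) * h := Nat.mul_le_mul_right _ (by omega)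
        _ ≤ _ := Nat.mul_div_le _ _
    have c4 : 2 * (4 * (2 ^ (A1 * Λ)) ^ 2) * (h + 1) * (512 * N * (2 ^ (A1 * Λ)) ^ 6) ≤ 2 ^ (a * Λ) := by
      calc _ = 2 ^ 12 * (h + 1) * N * (2 ^ (A1 * Λ)) ^ 8 := by ring
        _ ≤ 2 ^ Λ * 2 ^ Λ * 2 ^ Λ * (2 ^ (A1 * Λ)) ^ 8 := by
          gcongr
          · norm_num
          · omega
          · omega
        _ = _ := by rw [ha]; ring
    refine (Nat.mul_le_mul (Nat.mul_le_mul_left _ (Nat.pow_le_pow_right two_pos hj'))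
      (Nat.pow_le_pow_left c4 _)).trans ?_
    simp only [← pow_add, ← pow_mul]
    refine Nat.pow_le_pow_right two_pos ?_
    rw [hJ, mul_add (a * Λ), mul_one, ← mul_assoc (2 * A3)]
    simp only [mul_assoc 4, add_mul (_ + _ : ℕ), add_mul (2 * A3 * A4)] at c1
    omega

end Crest.Agent.R1
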