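import Crest.Agent.R1.EH
import Crest.Agent.R1.Far

/-!
# R1 / EMain : part E

Let `t1, κ0, V0, u` and `c2, C2, δ` be from `core_lower`.  Given `A1, K`: `κ = κ0 K` (`≥ 5`), `V = N/κ` (so
`κ0 V ≤ N/K ≤ k1`), `E0 = 2^(A1' Λ)` with `A1' = u A1 + 1`, `A2 = max (A2 of far for A1', κ) (A1' + 2)`,
`A5 = A1 + A3 + 2 A3 A4`, `S = 6K`.  If `ℋ` is empty there is nothing to prove; for `x ∈ ℋ`, `Core` gives
`k1 < k2 ≤ N`.  For `g = pr H · w · ρ` and `f ≤ E0`: `g f ≤ 2^(sg H + k1 + k2 + A1' Λ) ≤ 2^N` (`A1' Λ ≤ j0`) and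
`2^N ≤ g 2^(A5 Λ)` (`two_pow_sg_le`, `two_pow_lv_lt`: `2^(sg H + k1 + k2) ≤ 2^(|H| + 2) g`, last clause of `Core`), so `far`
applies to `g f`.  `|𝔅|² S/2^(k-1) ≤ 2^(2V) 6K/2^(4V) ≤ δ/(2N) ≤ δ mm k` (`mm_two_sided`, `poly_le_two_pow`).
Exceptional mass (`exc_sum_le`): every term is `X/(d t) ≤ X/d ≤ 2^(A1 Λ)`, so the total is
`≤ E0 |U| |B j0| |Sel J| 2^(A1 Λ) ≤ 2^(N - V + A' Λ)`, and `C2 2^(A' Λ + A6 Λ) ≤ 2^V` for large `N`.
-/

set_option autoImplicit false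

noncomputable section

open scoped Classical

namespace Crest.Agent.R1

open Finset

theorem em_two {w k : ℕ} (hw : w ∈ B k) : 2 ^ k ≤ 2 * w := by
  obtain ⟨h1, h2⟩ := mem_B.1 hw
  rw [← h2]
  exact (two_pow_lv_lt h1.two_le).le

theorem em_le {w k : ℕ} (hw : w ∈ B k) : w ≤ 2 ^ k := by
  rw [← (mem_B.1 hw).2]
  exact le_two_pow_lv w

theorem em_g {H : Finset ℕ} (hH : ∀ π ∈ H, π.Prime) {w ρ k1 k2 : ℕ} (hw : w ∈ B k1) (hρ : ρ ∈ B k2) :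
    2 ^ (sg H + k1 + k2) ≤ 2 ^ (H.card + 2) * (pr H * w * ρ) := by
  have b1 := two_pow_sg_le hH
  have b2 := em_two hw
  have b3 := em_two hρ
  calc 2 ^ (sg H + k1 + k2) = 2 ^ sg H * 2 ^ k1 * 2 ^ k2 := by simp only [pow_add]
    _ ≤ (2 ^ H.card * pr H) * (2 * w) * (2 * ρ) := by gcongr
    _ = _ := by ring

theorem em_term {t0 N A1 j0 k1 k2 : ℕ} {J : Finset ℕ} {x : ℕ × Finset ℕ}
    (hx : Core t0 N A1 j0 J k1 k2 x) {w ρ P : ℕ} {e : Finset ℕ} (hw : w ∈ B k1) (hρ : ρ ∈ B k2)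
    (hP : P ∈ B j0) (he : e ∈ Sel J) :
    ((2 ^ N : ℕ) : ℝ) / (pr x.2 * w * ρ * P * pr e * lv x.1) ≤ 2 ^ (A1 * Lam N) := by
  obtain ⟨-, hH, hp0, -, -, hsz⟩ := hx
  have b1 := em_g (fun π hπ => (hH π hπ).1) hw hρ
  have b2 := em_two hP
  have b3 := two_pow_sg_le (fun π hπ => ((mem_Sel.1 he).1 π hπ).1)
  rw [sg_of_mem_Sel he, card_of_mem_Sel he] at b3
  have b4 : 2 ^ (x.2.card + J.card + 3) * 2 ^ N ≤ 2 ^ (x.2.card + J.card + 3) *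
      (2 ^ (A1 * Lam N) * (pr x.2 * w * ρ * P * pr e * 1)) := by
    calc 2 ^ (x.2.card + J.card + 3) * 2 ^ N = 2 ^ (N + (x.2.card + J.card + 3)) := by ring
      _ ≤ 2 ^ (sg x.2 + j0 + ∑ j ∈ J, j + k1 + k2 + A1 * Lam N) :=
          Nat.pow_le_pow_right (by norm_num) hsz
      _ = 2 ^ (sg x.2 + k1 + k2) * 2 ^ j0 * 2 ^ (∑ j ∈ J, j) * 2 ^ (A1 * Lam N) := by ring
      _ ≤ (2 ^ (x.2.card + 2) * (pr x.2 * w * ρ)) * (2 * P) * (2 ^ J.card * pr e)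
          * 2 ^ (A1 * Lam N) := by gcongr
      _ = _ := by ring
  have b5 := (Nat.le_of_mul_le_mul_left b4 (by positivity)).trans
    (Nat.mul_le_mul_left _ (Nat.mul_le_mul_left _ (by omega : 1 ≤ lv x.1)))
  refine div_le_of_le_mul₀ (by positivity) (by positivity) ?_
  exact_mod_cast b5

theorem em_inj {t0 N A1 j0 k1 k2 : ℕ} {J : Finset ℕ} (hk : k1 < k2) {x x' : ℕ × Finset ℕ}
    (hx : Core t0 N A1 j0 J k1 k2 x) (hx' : Core t0 N A1 j0 J k1 k2 x') {w ρ w' ρ' : ℕ}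
    (hw : w ∈ B k1) (hρ : ρ ∈ B k2) (hw' : w' ∈ B k1) (hρ' : ρ' ∈ B k2)
    (h : pr x.2 * w * ρ = pr x'.2 * w' * ρ') : x = x' ∧ w = w' ∧ ρ = ρ' := by
  have key : ∀ {z : ℕ × Finset ℕ} {a b : ℕ}, Core t0 N A1 j0 J k1 k2 z → a ∈ B k1 → b ∈ B k2 →
      pr z.2 * a * b = pr (insert a (insert b z.2)) ∧ (∀ π ∈ insert a (insert b z.2), π.Prime) ∧
      (insert a (insert b z.2)).filter (fun π => lv π = k1) = {a} ∧
      (insert a (insert b z.2)).filter (fun π => lv π = k2) = {b} ∧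
      (insert a (insert b z.2)).filter (fun π => lv π ≠ k1 ∧ lv π ≠ k2) = z.2 := by
    intro z a b hz ha hb
    obtain ⟨a1, a2⟩ := mem_B.1 ha
    obtain ⟨b1, b2⟩ := mem_B.1 hb
    have c1 : ∀ π ∈ z.2, π.Prime ∧ lv π ≠ k1 ∧ lv π ≠ k2 := fun π hπ =>
      ⟨(hz.2.1 π hπ).1, (hz.2.1 π hπ).2.2.2.2⟩
    have c2 : b ∉ z.2 := fun hh => (c1 b hh).2.2 b2
    have c3 : a ∉ insert b z.2 := fun hh => by
      rcases mem_insert.1 hh with rfl | hh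
      · omega
      · exact (c1 a hh).2.1 a2
    refine ⟨by rw [pr_insert c3, pr_insert c2]; ring, fun π hπ => ?_, ?_, ?_, ?_⟩
    · rcases mem_insert.1 hπ with rfl | hπ
      · exact a1
      rcases mem_insert.1 hπ with rfl | hπ
      · exact b1
      · exact (c1 π hπ).1
    · ext π
      simp only [mem_filter, mem_insert, mem_singleton]
      refine ⟨?_, fun hh => ⟨Or.inl hh, hh ▸ a2⟩⟩
      rintro ⟨rfl | rfl | hh, h2⟩
      · rfl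
      · omega
      · exact absurd h2 (c1 π hh).2.1
    · ext π
      simp only [mem_filter, mem_insert, mem_singleton]
      refine ⟨?_, fun hh => ⟨Or.inr (Or.inl hh), hh ▸ b2⟩⟩
      rintro ⟨rfl | rfl | hh, h2⟩
      · omega
      · rfl
      · exact absurd h2 (c1 π hh).2.2
    · ext π
      simp only [mem_filter, mem_insert]
      refine ⟨?_, fun hh => ⟨Or.inr (Or.inr hh), (c1 π hh).2⟩⟩
      rintro ⟨rfl | rfl | hh, h2⟩
      · exact absurd a2 h2.1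
      · exact absurd b2 h2.2
      · exact hh
  obtain ⟨p1, p2, p3, p4, p5⟩ := key hx hw hρ
  obtain ⟨q1, q2, q3, q4, q5⟩ := key hx' hw' hρ'
  have e := pr_inj p2 q2 (by rw [← p1, ← q1, h])
  rw [e, q3] at p3
  rw [e, q4] at p4
  rw [e, q5] at p5
  refine ⟨Prod.ext (le_antisymm ?_ ?_) p5.symm, (singleton_inj.1 p3).symm, (singleton_inj.1 p4).symm⟩
  · exact (hx.2.1 _ (p5 ▸ hx'.1)).2.1
  · exact (hx'.2.1 _ (p5.symm ▸ hx.1)).2.1

/-- `(x, w, ρ) ↦ g = pr H · w · ρ` is injective on `ℋ × B k1 × B k2` (the prime factors of `g` are `H ∪ {w, ρ}`, `w` and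
`ρ` are the ones of level `k1`, `k2`, and `p` is the minimum of `H`), and the number of `g` with `g f ∈ U` for some
`f ∈ [1, E0]` is `≤ E0 |U|`. -/
theorem exc_sum_le (t0 N A1 j0 k1 k2 E0 : ℕ) (J U : Finset ℕ) (ℋ : Finset (ℕ × Finset ℕ))
    (hk : k1 < k2) (hℋ : ∀ x ∈ ℋ, Core t0 N A1 j0 J k1 k2 x) :
    ∑ x ∈ ℋ, Exc (2 ^ N) j0 J k1 k2 E0 U x.1 x.2
      ≤ (E0 : ℝ) * U.card * ((B j0).card * (Sel J).card) * 2 ^ (A1 * Lam N) := by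
  set Ex : ℕ × Finset ℕ → Finset (ℕ × ℕ) := fun x => (B k1 ×ˢ B k2).filter
    (fun y => ∃ f, 1 ≤ f ∧ f ≤ E0 ∧ pr x.2 * y.1 * y.2 * f ∈ U) with hEx
  have h1 : ∀ x ∈ ℋ, Exc (2 ^ N) j0 J k1 k2 E0 U x.1 x.2
      ≤ (Ex x).card * (((B j0).card * (Sel J).card) * 2 ^ (A1 * Lam N)) := by
    intro x hx
    have key : ∀ {α : Type} (s : Finset α) (f : α → ℝ) (c : ℝ), (∀ a ∈ s, f a ≤ c) →
        ∑ a ∈ s, f a ≤ s.card * c := fun s f c h => by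
      simpa using sum_le_card_nsmul s f c h
    refine key (Ex x) _ _ fun y hy => ?_
    obtain ⟨hy1, hy2⟩ := mem_product.1 (mem_filter.1 hy).1
    rw [mul_assoc ((B j0).card : ℝ)]
    exact key _ _ _ fun P hP => key _ _ _ fun e he => em_term (hℋ x hx) hy1 hy2 hP he
  have h2 : ∑ x ∈ ℋ, (Ex x).card ≤ E0 * U.card := by
    rw [← card_sigma]
    have hch : ∀ z : (_ : ℕ × Finset ℕ) × (ℕ × ℕ), ∃ f : ℕ, z ∈ ℋ.sigma Ex →
        1 ≤ f ∧ f ≤ E0 ∧ pr z.1.2 * z.2.1 * z.2.2 * f ∈ U := by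
      intro z
      by_cases hz : z ∈ ℋ.sigma Ex
      · obtain ⟨f, hf⟩ := (mem_filter.1 (mem_sigma.1 hz).2).2
        exact ⟨f, fun _ => hf⟩
      · exact ⟨0, fun h => absurd h hz⟩
    choose F hF using hch
    have := card_le_card_of_injOn (s := ℋ.sigma Ex) (t := Icc 1 E0 ×ˢ U)
      (fun z => (F z, pr z.1.2 * z.2.1 * z.2.2 * F z)) (fun z hz => ?_) (fun z hz z' hz' h => ?_)
    · simpa using this
    · obtain ⟨a1, a2, a3⟩ := hF z hz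
      exact mem_coe.2 (mem_product.2 ⟨mem_Icc.2 ⟨a1, a2⟩, a3⟩)
    · obtain ⟨e1, e2⟩ := Prod.mk.inj h
      rw [← e1] at e2
      have e3 := Nat.eq_of_mul_eq_mul_right (hF z hz).1 e2
      obtain ⟨a1, a2⟩ := mem_sigma.1 (mem_coe.1 hz)
      obtain ⟨b1, b2⟩ := mem_sigma.1 (mem_coe.1 hz')
      obtain ⟨a3, a4⟩ := mem_product.1 (mem_filter.1 a2).1
      obtain ⟨b3, b4⟩ := mem_product.1 (mem_filter.1 b2).1
      obtain ⟨c1, c2, c3⟩ := em_inj hk (hℋ _ a1) (hℋ _ b1) a3 a4 b3 b4 e3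
      exact Sigma.ext c1 (heq_of_eq (Prod.ext c2 c3))
  have h3 : ∑ x ∈ ℋ, ((Ex x).card : ℝ) ≤ E0 * U.card := by exact_mod_cast h2
  refine (sum_le_sum h1).trans ?_
  calc _ = (∑ x ∈ ℋ, ((Ex x).card : ℝ)) * (((B j0).card * (Sel J).card) * 2 ^ (A1 * Lam N)) := by
        rw [sum_mul]
    _ ≤ (E0 * U.card) * (((B j0).card * (Sel J).card) * 2 ^ (A1 * Lam N)) := by gcongr
    _ = _ := by ring

set_option maxHeartbeats 1600000 in
theorem Emain (hP : PAP) : ∃ t1 : ℕ, ∀ t0 ≥ t1, ∃ c2 : ℝ, 0 < c2 ∧ ∀ A1 K : ℕ, 1 ≤ K → ∃ A2 : ℕ,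
    A1 < A2 ∧ ∀ A3 A4 A6 : ℕ, ∃ N0 : ℕ, ∀ N ≥ N0, ∀ (a0 : ℤ) (j0 k1 k2 : ℕ) (J : Finset ℕ)
    (ℋ : Finset (ℕ × Finset ℕ)), A2 * Lam N ≤ j0 → j0 ≤ A3 * Lam N → J.card = 2 * A3 →
    (∀ j ∈ J, j0 < j ∧ j ≤ A4 * Lam N) → N ≤ K * k1 → k1 < k2 →
    (∀ x ∈ ℋ, Core t0 N A1 j0 J k1 k2 x) →
    c2 * ∑ x ∈ ℋ, MTot (2 ^ N) j0 J k1 k2 x.1 x.2 - 2 ^ N / 2 ^ (A6 * Lam N)
      ≤ ∑ x ∈ ℋ, STot t0 a0 (2 ^ N) j0 J k1 k2 x.1 x.2 := by
  obtain ⟨t1, κ0, V0, u, hκ0, hu, hcore⟩ := core_lower hP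
  obtain ⟨j1, hj1, hmm⟩ := mm_two_sided hP
  refine ⟨t1, fun t0 ht0 => ?_⟩
  obtain ⟨c2, C2, δ, hc2, hC2, hδ, hcore⟩ := hcore t0 ht0
  refine ⟨c2, hc2, fun A1 K hK => ?_⟩
  have hκ : 5 ≤ κ0 * K := hκ0.trans (Nat.le_mul_of_pos_right _ hK)
  obtain ⟨A2, hfar⟩ := far hP (u * A1 + 1) (κ0 * K) (by omega)
  have hA1 : A1 ≤ u * A1 := Nat.le_mul_of_pos_left _ hu
  refine ⟨A2 + (u * A1 + 1), by omega, fun A3 A4 A6 => ?_⟩
  obtain ⟨Nf, hfar⟩ := hfar A3 A4 (A1 + A3 + 2 * A3 * A4)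
  obtain ⟨n1, hn1⟩ := exists_nat_ge (1 / c2)
  obtain ⟨n2, hn2⟩ := exists_nat_ge C2
  obtain ⟨n3, hn3⟩ := exists_nat_ge (12 * K / δ)
  set A7 := κ0 * A1 + A3 + 2 * A3 * A4 + (u * A1 + 1) + A1 + A6 + 1 with hA7
  obtain ⟨Nl, hl⟩ := lam_small (κ0 * K * (A7 + V0 + j1 + n1 + n2 + 10)) 1
  obtain ⟨Np, hp⟩ := poly_le_two_pow n3 1 (κ0 * K) (by omega)
  refine ⟨Nf + Nl + Np, fun N hN a0 j0 k1 k2 J ℋ hj0 hj0' hJc hJ hk1 hk hℋ => ?_⟩
  obtain ⟨𝔅, U, hB1, hU, hB2, hfar⟩ := hfar N (by omega) a0 j0 J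
    ((Nat.mul_le_mul_right _ (by omega)).trans hj0) hj0' hJc hJ
  obtain ⟨hl1, hl2⟩ := hl N (by omega)
  replace hp := hp N (by omega)
  rw [pow_one] at hl2 hp
  have hexc := exc_sum_le t0 N A1 j0 k1 k2 (2 ^ ((u * A1 + 1) * Lam N)) J U ℋ hk hℋ
  have hV : (A7 + V0 + j1 + n1 + n2 + 10) * Lam N ≤ N / (κ0 * K) := by
    rw [Nat.le_div_iff_mul_le (by omega)]
    exact le_trans (le_of_eq (by ring)) hl2
  have hΛ : A7 + V0 + j1 + n1 + n2 + 10 ≤ Lam N :=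
    le_trans (Nat.le_mul_of_pos_left _ (by omega)) hl1
  have hKN : 10 * K ≤ N := by
    have h1 : K * 10 ≤ κ0 * K * (A7 + V0 + j1 + n1 + n2 + 10) :=
      Nat.mul_le_mul (Nat.le_mul_of_pos_left _ (by omega)) (by omega)
    have h2 : Lam N ≤ N := (Nat.le_mul_of_pos_left _ (by omega)).trans hl2
    omega
  have hVk : κ0 * (N / (κ0 * K)) ≤ k1 := by
    refine Nat.le_of_mul_le_mul_left (le_trans ?_ hk1) hK
    exact le_trans (le_of_eq (by ring)) (Nat.mul_div_le N (κ0 * K))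
  have hVN : 5 * (N / (κ0 * K)) ≤ N :=
    (Nat.mul_le_mul_right _ hκ).trans (Nat.mul_div_le N (κ0 * K))
  have hsJ : ∑ j ∈ J, j ≤ 2 * A3 * A4 * Lam N := by
    have := sum_le_card_nsmul J (fun j => j) (A4 * Lam N) fun j hj => (hJ j hj).2
    rw [hJc, smul_eq_mul] at this
    exact this.trans (le_of_eq (by ring))
  have hΛV : Lam N ≤ N / (κ0 * K) := le_trans (Nat.le_mul_of_pos_left _ (by omega)) hV
  have hA7V : κ0 * (A1 * Lam N) + A3 * Lam N + 2 * A3 * A4 * Lam N + (u * A1 + 1) * Lam N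
      + A1 * Lam N + A6 * Lam N + Lam N ≤ N / (κ0 * K) := by
    refine le_trans (le_of_eq ?_) ((Nat.mul_le_mul_right (Lam N)
      (by omega : A7 ≤ A7 + V0 + j1 + n1 + n2 + 10)).trans hV)
    rw [hA7]; ring
  have hjE : (u * A1 + 1) * Lam N ≤ j0 := (Nat.mul_le_mul_right _ (by omega)).trans hj0
  have hA1E : A1 * Lam N + Lam N ≤ (u * A1 + 1) * Lam N := by
    rw [add_mul, one_mul]
    exact Nat.add_le_add_right (Nat.mul_le_mul_right _ hA1) _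
  generalize N / (κ0 * K) = V at *
  have h5V : 5 * V ≤ k1 := (Nat.mul_le_mul_right V hκ0).trans hVk
  have hmain : ∀ x ∈ ℋ, c2 * MTot (2 ^ N) j0 J k1 k2 x.1 x.2 -
      C2 * Exc (2 ^ N) j0 J k1 k2 (2 ^ ((u * A1 + 1) * Lam N)) U x.1 x.2
      ≤ STot t0 a0 (2 ^ N) j0 J k1 k2 x.1 x.2 := by
    intro x hx
    have hc := hℋ x hx
    obtain ⟨-, hH, -, hp1, hs1, hs2⟩ := hℋ x hx
    have hov : ∀ k, k1 ≤ k → k ≤ N →
        (𝔅.card : ℝ) ^ 2 * ((6 * K : ℕ) : ℝ) / 2 ^ (k - 1) ≤ δ * mm k := by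
      intro k h1 h2
      have hk0 : (0 : ℝ) < k := by exact_mod_cast (by omega : 0 < k)
      have b1 : (𝔅.card : ℝ) ≤ 2 ^ V := by exact_mod_cast hB1
      have b2 : (2 : ℝ) ^ (3 * V) ≤ 2 ^ (k - 1) := pow_le_pow_right₀ (by norm_num) (by omega)
      have b3 : (n3 : ℝ) * N ≤ 2 ^ V := by exact_mod_cast hp
      have b4 : (k : ℝ) ≤ N := by exact_mod_cast h2
      have b5 : 12 * (K : ℝ) * k ≤ δ * 2 ^ V := by
        rw [div_le_iff₀ hδ] at hn3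
        calc 12 * (K : ℝ) * k ≤ (n3 * δ) * N := by gcongr
          _ = δ * (n3 * N) := by ring
          _ ≤ _ := by gcongr
      calc (𝔅.card : ℝ) ^ 2 * ((6 * K : ℕ) : ℝ) / 2 ^ (k - 1)
          ≤ ((2 : ℝ) ^ V) ^ 2 * ((6 * K : ℕ) : ℝ) / 2 ^ (3 * V) := by gcongr
        _ = 6 * (K : ℝ) / 2 ^ V := by push_cast; rw [pow_mul']; field_simp
        _ ≤ δ * (1 / (2 * k)) := by
            rw [mul_one_div, div_le_div_iff₀ (by positivity) (by positivity)]; linarith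
        _ ≤ _ := mul_le_mul_of_nonneg_left (hmm k (by omega)).1 hδ.le
    refine hcore V (by omega) a0 N A1 j0 k1 k2 _ (6 * K) J 𝔅 U x hc (by omega)
      (fun j hj => (hJ j hj).1) (by omega) ((Nat.mul_le_mul_left _ hp1).trans (by omega)) (by omega)
      hVk hk (Nat.pow_le_pow_right (by norm_num) ?_) ?_ hB2 ?_
      ⟨hov k1 le_rfl (by omega), hov k2 hk.le (by omega)⟩ fun w hw ρ hρ f hf1 hf2 => ?_
    · refine (Nat.mul_le_mul_left u hp1).trans ?_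
      rw [add_mul, ← mul_assoc]
      omega
    · have b1 : n1 ≤ 2 ^ ((u * A1 + 1) * Lam N) := le_trans (by omega) Nat.lt_two_pow_self.le
      have b2 : (n1 : ℝ) ≤ ((2 ^ ((u * A1 + 1) * Lam N) : ℕ) : ℝ) := by exact_mod_cast b1
      rw [div_le_iff₀' hc2] at hn1
      exact hn1.trans (mul_le_mul_of_nonneg_left b2 hc2.le)
    · obtain ⟨k0, rfl⟩ : ∃ k0, k1 = k0 + 1 := ⟨k1 - 1, by omega⟩
      rw [mul_add, mul_one] at hk1
      have : (k0 + 1 - 1) * (6 * K) = 6 * (K * k0) := by rw [Nat.add_sub_cancel]; ring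
      omega
    · have hHp : ∀ π ∈ x.2, π.Prime := fun π hπ => (hH π hπ).1
      have g0 : 1 ≤ pr x.2 * w * ρ :=
        Nat.mul_pos (Nat.mul_pos (pr_pos hHp) (mem_B.1 hw).1.pos) (mem_B.1 hρ).1.pos
      have := hfar (pr x.2 * w * ρ * f) (Nat.mul_pos g0 hf1) ?_ ?_
      · exact_mod_cast this
      · have b1 := pr_le x.2
        have b2 := em_le hw
        have b3 := em_le hρ
        calc pr x.2 * w * ρ * f
            ≤ 2 ^ sg x.2 * 2 ^ k1 * 2 ^ k2 * 2 ^ ((u * A1 + 1) * Lam N) := by gcongr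
          _ = 2 ^ (sg x.2 + k1 + k2 + (u * A1 + 1) * Lam N) := by simp only [pow_add]
          _ ≤ 2 ^ N := Nat.pow_le_pow_right (by norm_num) (by omega)
      · have b1 := em_g hHp hw hρ
        have b2 : (A1 + A3 + 2 * A3 * A4) * Lam N
            = A1 * Lam N + A3 * Lam N + 2 * A3 * A4 * Lam N := by ring
        refine Nat.le_of_mul_le_mul_left ?_ (show 0 < 2 ^ (x.2.card + 2) by positivity)
        calc 2 ^ (x.2.card + 2) * 2 ^ N = 2 ^ (x.2.card + 2 + N) := (pow_add _ _ _).symm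
          _ ≤ 2 ^ (sg x.2 + k1 + k2 + (A1 + A3 + 2 * A3 * A4) * Lam N) :=
              Nat.pow_le_pow_right (by norm_num) (by omega)
          _ = 2 ^ (sg x.2 + k1 + k2) * 2 ^ ((A1 + A3 + 2 * A3 * A4) * Lam N) := pow_add _ _ _
          _ ≤ 2 ^ (x.2.card + 2) * (pr x.2 * w * ρ * f) * 2 ^ ((A1 + A3 + 2 * A3 * A4) * Lam N) :=
              Nat.mul_le_mul_right _ (b1.trans
                (Nat.mul_le_mul_left _ (Nat.le_mul_of_pos_right _ hf1)))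
          _ = _ := mul_assoc _ _ _
  have hs := sum_le_sum hmain
  rw [sum_sub_distrib, ← mul_sum, ← mul_sum] at hs
  refine le_trans (sub_le_sub_left ?_ _) hs
  rw [le_div_iff₀ (by positivity)]
  have b0 : n2 ≤ 2 ^ Lam N := le_trans (by omega) Nat.lt_two_pow_self.le
  have b1 := card_B_le j0
  have b2 := card_Sel_le J
  have b3 : n2 * (2 ^ ((u * A1 + 1) * Lam N) * U.card * ((B j0).card * (Sel J).card)
      * 2 ^ (A1 * Lam N)) * 2 ^ (A6 * Lam N) ≤ 2 ^ N := by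
    calc _ ≤ 2 ^ Lam N * (2 ^ ((u * A1 + 1) * Lam N) * 2 ^ (N - V) * (2 ^ j0 * 2 ^ (∑ j ∈ J, j))
          * 2 ^ (A1 * Lam N)) * 2 ^ (A6 * Lam N) := by gcongr
      _ = 2 ^ (Lam N + ((u * A1 + 1) * Lam N + (N - V) + (j0 + ∑ j ∈ J, j) + A1 * Lam N)
          + A6 * Lam N) := by simp only [pow_add]
      _ ≤ 2 ^ N := Nat.pow_le_pow_right (by norm_num) (by omega)
  have b4 : (n2 : ℝ) * (((2 ^ ((u * A1 + 1) * Lam N) : ℕ) : ℝ) * U.card *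
      ((B j0).card * (Sel J).card) * 2 ^ (A1 * Lam N)) * 2 ^ (A6 * Lam N) ≤ 2 ^ N := by
    exact_mod_cast b3
  refine le_trans ?_ b4
  have b5 := mul_le_mul_of_nonneg_left hexc hC2
  refine mul_le_mul_of_nonneg_right (b5.trans ?_) (by positivity)
  gcongr

end Crest.Agent.R1
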