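import Crest.Agent.R1.Good
import Crest.Agent.R1.EMain

/-!
# R1 / Decomp : the good pairs contribute a constant proportion of their mass

Choose (`Classical.choose`/`if h : ∃ k, Slots … L k then h.choose else default`) a function `ch` from sets of levels `L`
to slot systems.  Group `x ∈ G2` by `k = ch (x.2.image lv) = (j0, J, k1, k2)`; `k` lies in
`range (N+1) ×ˢ (range (b+1)).powerset ×ˢ range (N+1) ×ˢ range (N+1)`, which has `≤ (N+1)³ 2^(b+1) ≤ 2^((A4 + 7) Λ)`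
elements; use `Emain` with `A6 = A4 + 10`.  For fixed `k` let `𝒢 = G2.filter (ch (image lv) = k)`,
`Kset = insert k1 (insert k2 (insert j0 J))`.  By `G2_unique`, `G2_replace` (`lv p ≤ tm < a ≤` all slot levels) the family `𝒢`
satisfies the hypotheses of `sum_closed`; `sum_Sel_insert` three times turns `∑_{s ∈ Sel Kset}` into
`∑_w ∑_ρ ∑_P ∑_e`.  With `ℋ = image (y ↦ (y.1, insert y.1 y.2))` of the set of cores (injective, `p ∉ y.2`),
`p · pr (core ∪ s) = pr (insert p core) · w ρ P · pr e`, so the two sums are `∑_ℋ STot` and `∑_ℋ MTot`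
(`X · wb = X/(d t)`).  `Core` holds: `sg (insert p core) + j0 + ∑ J + k1 + k2 = lv p + sg g` (`sg_of_mem_Sel`),
`2 sg g + 5t ≤ 2T ≤ 2N`, `|insert p core| + |J| + 3 = |g| + 1 ≤ 6Λ`, and `T ≤ sg g + 3t` gives
`N + 6Λ ≤ (sg g + t) + 9Λ + 2t`.
-/

set_option autoImplicit false

noncomputable section

open scoped Classical

namespace Crest.Agent.R1

open Finset

theorem dc_step {j : ℕ} {J : Finset ℕ} (hj : j ∉ J) (G : ℕ → ℝ) :
    ∑ s ∈ Sel (insert j J), G (pr s) = ∑ π ∈ B j, ∑ e ∈ Sel J, G (π * pr e) := by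
  rw [sum_Sel_insert hj]
  exact sum_congr rfl fun π hπ => sum_congr rfl fun e he => by rw [pr_insert (sl_notMem hj hπ he)]

theorem dc_sel {j0 k1 k2 : ℕ} {J : Finset ℕ} (h1 : k1 ∉ insert k2 (insert j0 J))
    (h2 : k2 ∉ insert j0 J) (h3 : j0 ∉ J) (c : ℕ) (G : ℕ → ℝ) :
    ∑ s ∈ Sel (insert k1 (insert k2 (insert j0 J))), G (c * pr s) =
      ∑ w ∈ B k1, ∑ ρ ∈ B k2, ∑ P ∈ B j0, ∑ e ∈ Sel J, G (c * w * ρ * P * pr e) := by
  rw [dc_step h1 fun n => G (c * n)]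
  refine sum_congr rfl fun w _ => ?_
  rw [dc_step h2 fun n => G (c * (w * n))]
  refine sum_congr rfl fun ρ _ => ?_
  rw [dc_step h3 fun n => G (c * (w * (ρ * n)))]
  simp only [mul_assoc]

theorem dc_mem {K g : Finset ℕ} (h1 : ∀ π ∈ g, π.Prime)
    (h2 : ∀ k ∈ K, (g.filter (fun π => lv π = k)).card = 1) :
    g.filter (fun π => lv π ∈ K) ∈ Sel K :=
  mem_Sel.2 ⟨fun π hπ => ⟨h1 π (mem_filter.1 hπ).1, (mem_filter.1 hπ).2⟩, fun k hk => by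
    rw [filter_filter, ← h2 k hk]
    exact congrArg card (filter_congr fun π _ => and_iff_right_of_imp fun h => h ▸ hk)⟩

/-- one family -/
theorem family_eq {t0 N A1 A3 tm a ρ b η : ℕ} (hT : TT N + 3 * Lam N = N) (hta : tm < a) (hρ : ρ ≤ b)
    (hbη : b < η) (hA1 : 9 * Lam N + 2 * tm ≤ A1 * Lam N) (a0 : ℤ)
    (ch : Finset ℕ → ℕ × Finset ℕ × ℕ × ℕ)
    (hch : ∀ L, (∃ k, Slots a ρ b (2 * A3) η L k) → Slots a ρ b (2 * A3) η L (ch L))
    (k : ℕ × Finset ℕ × ℕ × ℕ) :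
    ∃ ℋ : Finset (ℕ × Finset ℕ), (∀ y ∈ ℋ, Core t0 N A1 k.1 k.2.1 k.2.2.1 k.2.2.2 y) ∧
      ∑ x ∈ (G2 t0 (ZZ N) (TT N) (6 * Lam N) tm a ρ b (2 * A3) η).filter
          (fun x => ch (x.2.image lv) = k), (2 : ℝ) ^ N * wb x
        = ∑ y ∈ ℋ, MTot (2 ^ N) k.1 k.2.1 k.2.2.1 k.2.2.2 y.1 y.2 ∧
      ∑ x ∈ (G2 t0 (ZZ N) (TT N) (6 * Lam N) tm a ρ b (2 * A3) η).filter
          (fun x => ch (x.2.image lv) = k), (Scnt t0 a0 (2 ^ N) (x.1 * pr x.2) x.1 : ℝ)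
        = ∑ y ∈ ℋ, STot t0 a0 (2 ^ N) k.1 k.2.1 k.2.2.1 k.2.2.2 y.1 y.2 := by
  obtain ⟨𝒢, h𝒢⟩ : ∃ 𝒢, 𝒢 = (G2 t0 (ZZ N) (TT N) (6 * Lam N) tm a ρ b (2 * A3) η).filter
    (fun x => ch (x.2.image lv) = k) := ⟨_, rfl⟩
  rw [← h𝒢]
  rcases 𝒢.eq_empty_or_nonempty with h0 | ⟨x0, hx0⟩
  · exact ⟨∅, by simp, by simp [h0], by simp [h0]⟩
  have g1 : ∀ x ∈ 𝒢, x ∈ G2 t0 (ZZ N) (TT N) (6 * Lam N) tm a ρ b (2 * A3) η ∧
      ch (x.2.image lv) = k := fun x hx => mem_filter.1 (h𝒢 ▸ hx :)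
  have g2 : ∀ x ∈ 𝒢, Slots a ρ b (2 * A3) η (x.2.image lv) k := fun x hx =>
    (g1 x hx).2 ▸ hch _ (mem_filter.1 (g1 x hx).1).2.2.2.2.2.2
  have g3 := fun x hx => G2_unique hρ (g1 x hx).1 (g2 x hx)
  have g4 := fun x hx => mem_BP.1 (mem_filter.1 (g1 x hx).1).1
  have g5 := fun x hx => (mem_filter.1 (g1 x hx).1).2
  obtain ⟨j0, J, k1, k2⟩ := k
  obtain ⟨-, s1, s2, -, -, s3, -, -, s4, s5⟩ := g2 x0 hx0
  dsimp only at s1 s2 s3 s4 s5 g3 ⊢
  have n1 : k1 ∉ insert k2 (insert j0 J) := fun h => by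
    simp only [mem_insert] at h
    rcases h with h | h | h
    · omega
    · omega
    · have := s3 _ h
      omega
  have n2 : k2 ∉ insert j0 J := fun h => (mem_insert.1 h).elim (by omega) fun h => by
    have := s3 _ h
    omega
  have n3 : j0 ∉ J := fun h => lt_irrefl _ (s3 _ h).1
  have e1 := dc_sel n1 n2 n3
  have e2 : ∑ j ∈ insert k1 (insert k2 (insert j0 J)), j = k1 + (k2 + (j0 + ∑ j ∈ J, j)) := by
    rw [sum_insert n1, sum_insert n2, sum_insert n3]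
  have e3 : (insert k1 (insert k2 (insert j0 J))).card = J.card + 3 := by
    rw [card_insert_of_notMem n1, card_insert_of_notMem n2, card_insert_of_notMem n3]
  have e4 : ∀ j, j ∉ insert k1 (insert k2 (insert j0 J)) → j ≠ j0 ∧ j ∉ J ∧ j ≠ k1 ∧ j ≠ k2 := by
    simp only [mem_insert]
    tauto
  have e5 : ∀ j ∈ insert k1 (insert k2 (insert j0 J)), tm < j := fun j h => by
    simp only [mem_insert] at h
    rcases h with h | h | h | h
    · omega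
    · omega
    · omega
    · have := s3 _ h
      omega
  generalize insert k1 (insert k2 (insert j0 J)) = K at g3 e1 e2 e3 e4 e5
  have g6 : ∀ x ∈ 𝒢, x.1 ∉ x.2.filter (fun π => lv π ∉ K) := fun x hx h =>
    lt_irrefl _ ((g4 x hx).2.2.2.2.1 _ (mem_filter.1 h).1)
  have key : ∀ G : ℕ → ℕ → ℝ, ∑ x ∈ 𝒢, G x.1 (x.1 * pr x.2) =
      ∑ y ∈ (𝒢.image fun x => (x.1, x.2.filter (fun π => lv π ∉ K))).image
        fun y => (y.1, insert y.1 y.2), ∑ w ∈ B k1, ∑ ρ ∈ B k2, ∑ P ∈ B j0, ∑ e ∈ Sel J,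
          G y.1 (pr y.2 * w * ρ * P * pr e) := fun G => by
    rw [sum_closed K 𝒢 (fun x hx => ⟨fun π hπ => ((g4 x hx).2.1 π hπ).1, g3 x hx⟩)
      fun x hx π hπ hK π' hπ' => ?_,
      sum_image (g := fun y : ℕ × Finset ℕ => (y.1, insert y.1 y.2)) fun y hy y' hy' e => ?_]
    · refine sum_congr rfl fun y hy => ?_
      obtain ⟨x, hx, rfl⟩ := mem_image.1 hy
      rw [← e1 _ (G x.1), pr_insert (g6 x hx)]
      refine sum_congr rfl fun s hs => ?_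
      have a1 : Disjoint (x.2.filter (fun π => lv π ∉ K)) s :=
        disjoint_left.2 fun π h h' => (mem_filter.1 h).2 ((mem_Sel.1 hs).1 π h').2
      rw [pr_union a1, mul_assoc]
    · obtain ⟨x, hx, rfl⟩ := mem_image.1 hy
      obtain ⟨x', hx', rfl⟩ := mem_image.1 hy'
      obtain ⟨a1, a2⟩ := Prod.mk.inj e
      dsimp only at a1 a2
      rw [← erase_insert (g6 x hx), a2, a1, erase_insert (g6 x' hx')]
    · obtain ⟨a1, a2⟩ := G2_replace (g1 x hx).1 hπ (g3 x hx _ hK)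
        (lt_of_le_of_lt (g5 x hx).2.1 (e5 _ hK)) hπ'
      rw [h𝒢]
      exact mem_filter.2 ⟨a1, a2 ▸ (g1 x hx).2⟩
  refine ⟨_, fun y hy => ?_, (sum_congr rfl fun x _ => ?_).trans
    ((key fun p d => ((2 ^ N : ℕ) : ℝ) / (d * lv p)).trans ?_),
    key fun p d => Scnt t0 a0 (2 ^ N) d p⟩
  · obtain ⟨y', hy', rfl⟩ := mem_image.1 hy
    obtain ⟨x, hx, rfl⟩ := mem_image.1 hy'
    obtain ⟨b1, b2, -, -, b3, b4⟩ := g4 x hx
    obtain ⟨c1, c2, c3, -⟩ := g5 x hx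
    have d1 := dc_mem (fun π hπ => (b2 π hπ).1) (g3 x hx)
    have d2 : sg (x.2.filter (fun π => lv π ∈ K)) + sg (x.2.filter (fun π => lv π ∉ K)) = sg x.2 :=
      sum_filter_add_sum_filter_not _ _ _
    have d3 := card_filter_add_card_filter_not (s := x.2) (fun π => lv π ∈ K)
    rw [sg_of_mem_Sel d1] at d2
    rw [card_of_mem_Sel d1] at d3
    refine ⟨mem_insert_self _ _, fun π hπ => ?_, b1.2.1, ?_, ?_, ?_⟩
    · rcases mem_insert.1 hπ with rfl | h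
      · exact ⟨b1.1, le_rfl, e4 _ fun h => absurd (e5 _ h) (not_lt.2 c2)⟩
      · exact ⟨(b2 π (mem_filter.1 h).1).1, (b3 π (mem_filter.1 h).1).le, e4 _ (mem_filter.1 h).2⟩
    · dsimp only
      omega
    · dsimp only
      rw [sg_insert (g6 x hx)]
      omega
    · dsimp only
      rw [sg_insert (g6 x hx), card_insert_of_notMem (g6 x hx)]
      omega
  · rw [wb, wt_eq]
    push_cast
    ring
  · simp only [MTot, Nat.cast_mul]

theorem good2_lower (hP : PAP) : ∃ t1 : ℕ, ∀ t0 ≥ t1, ∃ c2 : ℝ, 0 < c2 ∧ ∀ A1 K : ℕ, 1 ≤ K →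
    ∃ A2 : ℕ, ∀ A3 A4 : ℕ, ∃ N0 : ℕ, ∀ N ≥ N0, ∀ (a0 : ℤ) (tm a ρ b η : ℕ), A2 * Lam N ≤ a →
    ρ ≤ A3 * Lam N → ρ ≤ b → b ≤ A4 * Lam N → b < η → N ≤ K * η → tm < a →
    9 * Lam N + 2 * tm ≤ A1 * Lam N →
    c2 * (2 ^ N * ∑ x ∈ G2 t0 (ZZ N) (TT N) (6 * Lam N) tm a ρ b (2 * A3) η, wb x)
        - 2 ^ N / (N : ℝ) ^ 3
      ≤ ∑ x ∈ G2 t0 (ZZ N) (TT N) (6 * Lam N) tm a ρ b (2 * A3) η,
        (Scnt t0 a0 (2 ^ N) (x.1 * pr x.2) x.1 : ℝ) := by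
  obtain ⟨t1, h⟩ := Emain hP
  refine ⟨t1, fun t0 ht0 => ?_⟩
  obtain ⟨c2, hc, h⟩ := h t0 ht0
  refine ⟨c2, hc, fun A1 K hK => ?_⟩
  obtain ⟨A2, -, h⟩ := h A1 K hK
  refine ⟨A2, fun A3 A4 => Filter.eventually_atTop.1 ?_⟩
  filter_upwards [Filter.eventually_atTop.2 (h A3 A4 (A4 + 10)), Filter.eventually_atTop.2 params]
    with N h ⟨p1, p2, _, _, _, _, p7, p8⟩ a0 tm a ρ b η h1 h2 h3 h4 h5 h6 h7 h8
  obtain ⟨ch, hch⟩ : ∃ ch : Finset ℕ → ℕ × Finset ℕ × ℕ × ℕ,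
      ∀ L, (∃ k, Slots a ρ b (2 * A3) η L k) → Slots a ρ b (2 * A3) η L (ch L) :=
    ⟨fun L => Classical.epsilon _, fun L => Classical.epsilon_spec⟩
  have h9 := family_eq (t0 := t0) p1 h7 h3 h5 h8 a0 ch hch
  have g2 : ∀ x ∈ G2 t0 (ZZ N) (TT N) (6 * Lam N) tm a ρ b (2 * A3) η,
      Slots a ρ b (2 * A3) η (x.2.image lv) (ch (x.2.image lv)) ∧ ∀ j ∈ x.2.image lv, j ≤ N :=
    fun x hx => ⟨hch _ (mem_filter.1 hx).2.2.2.2.2.2, fun j hj => by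
      obtain ⟨π, hπ, rfl⟩ := mem_image.1 hj
      have := ((mem_BP.1 (mem_filter.1 hx).1).2.1 π hπ).2.2
      omega⟩
  generalize G2 t0 (ZZ N) (TT N) (6 * Lam N) tm a ρ b (2 * A3) η = G at h9 g2 ⊢
  have hI : (G.image fun x => ch (x.2.image lv)).card * N ^ 3 ≤ 2 ^ ((A4 + 10) * Lam N) := by
    have a1 : (G.image fun x => ch (x.2.image lv)) ⊆
        range (N + 1) ×ˢ (range (b + 1)).powerset ×ˢ range (N + 1) ×ˢ range (N + 1) := fun k hk => by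
      obtain ⟨x, hx, rfl⟩ := mem_image.1 hk
      obtain ⟨⟨s1, -, -, -, -, s2, s3, s4, -⟩, s5⟩ := g2 x hx
      simp only [mem_product, mem_range, mem_powerset, subset_iff, Nat.lt_succ_iff]
      exact ⟨s5 _ s1, fun j hj => (s2 j hj).2, s5 _ s3, s5 _ s4⟩
    have a2 := card_le_card a1
    simp only [card_product, card_range, card_powerset] at a2
    have a3 := le_two_pow_Lam N
    have a4 : N + 1 ≤ 2 ^ (Lam N + 1) := by omega
    calc _ ≤ 2 ^ (Lam N + 1) * (2 ^ (b + 1) * (2 ^ (Lam N + 1) * 2 ^ (Lam N + 1))) * (2 ^ Lam N) ^ 3 :=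
          Nat.mul_le_mul (a2.trans (by gcongr)) (by gcongr)
      _ ≤ _ := by
          simp only [← pow_mul, ← pow_add]
          refine Nat.pow_le_pow_right two_pos ?_
          rw [add_mul]
          omega
  have hI' : ∑ _k ∈ G.image fun x => ch (x.2.image lv), (2 : ℝ) ^ N / 2 ^ ((A4 + 10) * Lam N) ≤
      2 ^ N / (N : ℝ) ^ 3 := by
    have a1 : (0 : ℝ) < N := by exact_mod_cast (by omega : 0 < N)
    rw [sum_const, nsmul_eq_mul, ← mul_div_assoc, div_le_div_iff₀ (by positivity) (by positivity),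
      mul_right_comm, mul_comm]
    exact mul_le_mul_of_nonneg_left (by exact_mod_cast hI) (by positivity)
  rw [mul_sum, ← sum_fiberwise_of_maps_to fun x hx => mem_image_of_mem (fun x => ch (x.2.image lv)) hx,
    ← sum_fiberwise_of_maps_to (s := G) fun x hx => mem_image_of_mem (fun x => ch (x.2.image lv)) hx,
    mul_sum]
  refine (sub_le_sub_left hI' _).trans ?_
  rw [← sum_sub_distrib]
  refine sum_le_sum fun k hk => ?_
  obtain ⟨ℋ, a1, a2, a3⟩ := h9 k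
  obtain ⟨x, hx, rfl⟩ := mem_image.1 hk
  obtain ⟨-, s1, s2, -, s3, s4, -, -, s5, s6⟩ := (g2 x hx).1
  rw [a2, a3]
  exact h a0 _ _ _ _ ℋ (h1.trans s1) (s2.trans h2) s3 (fun j hj => ⟨(s4 j hj).1, (s4 j hj).2.trans h4⟩)
    (h6.trans (Nat.mul_le_mul_left _ s5)) s6 a1

end Crest.Agent.R1
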