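import Mathlib

/-!
# R1 / Defs : definitions for the proof of S0001 (Jacobsthal's function)

Overview of the proof (every file repeats what it needs).  `X = 2^N`, `Λ = Lam N ≈ log₂ N`,
`T = TT N = N - 3Λ` (level `D = 2^T` of a Rosser type lower bound sieve), `Z = ZZ N ≈ N/2 + 3Λ`
(we sieve by the primes `≤ 2^Z` whose level `lv p = ⌈log₂ p⌉` exceeds an absolute constant `t0`).
Exact identity: survivors `= ∑_{d ∈ SS} (-1)^|d| #A_d + ∑_{(p,g) ∈ BP} Scnt (p · pr g) p`.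
A model sequence (Liouville twisted) shows that the main term is `≥ -C Λ / N²` and that the boundary
terms with smallest prime `p = N^{O(1)}` have mass `≥ c A Λ / N²`; a rigidity argument (part E) shows
that in the real problem those boundary terms really contribute a constant proportion of their mass.
-/

set_option autoImplicit false

noncomputable section

open scoped Classical

namespace Crest.Agent.R1

open Finset

/-- Primes in progressions with a power saving (proved in `R1/PAP` from S0022; every file that needs it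
takes it as a hypothesis `(hP : PAP)`, so that nobody has to build `R17`). -/
def PAP : Prop := ∃ c : ℝ, 0 < c ∧ ∃ C : ℝ, 0 ≤ C ∧ ∀ (y : ℝ) (q a : ℕ), 1 ≤ q → (q : ℝ) ≤ y →
    Nat.Coprime a q →
    |∑ p ∈ (Finset.Icc 1 ⌊y⌋₊).filter (fun p => p.Prime ∧ p ≡ a [MOD q]), Real.log p
      - y / Nat.totient q| ≤ C * y ^ (1 - c)

/-- the level of `p`: `2^(lv p - 1) < p ≤ 2^(lv p)` for `p ≥ 2` -/
def lv (p : ℕ) : ℕ := Nat.clog 2 p

/-- the primes of level `j` (a "box") -/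
def B (j : ℕ) : Finset ℕ := (range (2 ^ j + 1)).filter (fun p => p.Prime ∧ lv p = j)

/-- the primes with level in `[a, b]` -/
def PL (a b : ℕ) : Finset ℕ := (range (2 ^ b + 1)).filter (fun p => p.Prime ∧ a ≤ lv p)

/-- the primes `< p` of level `> t0` -/
def SP (t0 p : ℕ) : Finset ℕ := (range p).filter (fun π => π.Prime ∧ t0 < lv π)

/-- `∑_{p ∈ B j} 1/p` -/
def mm (j : ℕ) : ℝ := ∑ p ∈ B j, 1 / (p : ℝ)

/-- sum of the levels -/
def sg (d : Finset ℕ) : ℕ := ∑ p ∈ d, lv p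

/-- product of the elements -/
def pr (d : Finset ℕ) : ℕ := ∏ p ∈ d, p

/-- `1 / pr d` -/
def wt (d : Finset ℕ) : ℝ := ∏ p ∈ d, 1 / (p : ℝ)

/-- the elements of `d` that are `≥ p`; its cardinality is the rank of `p` counted from the top -/
def up (d : Finset ℕ) (p : ℕ) : Finset ℕ := d.filter (fun π => p ≤ π)

/-- Rosser's condition (in terms of levels) at every element of even rank -/
def Supp (T : ℕ) (d : Finset ℕ) : Prop :=
  ∀ p ∈ d, Even (up d p).card → sg (up d p) + 2 * lv p < T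

/-- `(p, g)` is a boundary pair: `insert p g` violates the condition exactly at its minimum `p` -/
def IsBd (T : ℕ) (x : ℕ × Finset ℕ) : Prop :=
  Supp T x.2 ∧ Odd x.2.card ∧ (∀ π ∈ x.2, x.1 < π) ∧ T ≤ sg x.2 + 3 * lv x.1

/-- support of the sieve -/
def SS (t0 Z T : ℕ) : Finset (Finset ℕ) := (PL (t0 + 1) Z).powerset.filter (Supp T)

/-- boundary pairs -/
def BP (t0 Z T : ℕ) : Finset (ℕ × Finset ℕ) :=
  (PL (t0 + 1) Z ×ˢ (PL (t0 + 1) Z).powerset).filter (IsBd T)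

/-- main term of the sieve -/
def Tm (t0 Z T : ℕ) : ℝ := ∑ d ∈ SS t0 Z T, (-1) ^ d.card * wt d

/-- the weight `1 / (d t)` of a pair, `d = p · pr g`, `t = lv p` -/
def wb (x : ℕ × Finset ℕ) : ℝ := wt x.2 / (x.1 * lv x.1)

/-- number of `j < X` with `m ∣ a0 + j` -/
def cnt (a0 : ℤ) (X m : ℕ) : ℕ := ((range X).filter (fun j : ℕ => (m : ℤ) ∣ a0 + j)).card

/-- number of `j < X` with `d ∣ a0 + j` and no prime `< p` of level `> t0` dividing `a0 + j` -/
def Scnt (t0 : ℕ) (a0 : ℤ) (X d p : ℕ) : ℕ :=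
  ((range X).filter (fun j : ℕ => (d : ℤ) ∣ a0 + j ∧ ∀ π ∈ SP t0 p, ¬ (π : ℤ) ∣ a0 + j)).card

/-- survivors of the sieve -/
def Surv (t0 Z : ℕ) (a0 : ℤ) (X : ℕ) : ℕ :=
  ((range X).filter (fun j : ℕ => ∀ π ∈ PL (t0 + 1) Z, ¬ (π : ℤ) ∣ a0 + j)).card

/-- mass of the odd supported sets `g` with levels in `[t, Z]`, room `T - sg g = R` and property `Q` -/
def WW (Z T : ℕ) (Q : Finset ℕ → Prop) (R t : ℕ) : ℝ :=
  ∑ g ∈ (PL t Z).powerset.filter (fun g => Supp T g ∧ Odd g.card ∧ sg g + R = T ∧ Q g), wt g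

/-- the same without parity condition -/
def WS (Z T R a : ℕ) : ℝ :=
  ∑ g ∈ (PL a Z).powerset.filter (fun g => Supp T g ∧ sg g + R = T), wt g

/-- `Q` survives the removal of elements of level `< a` -/
def LowStable (a : ℕ) (Q : Finset ℕ → Prop) : Prop :=
  ∀ g g' : Finset ℕ, g' ⊆ g → (∀ π ∈ g, π ∉ g' → lv π < a) → Q g → Q g'

/-- the potential -/
def Pot (κ : ℝ) (R t : ℕ) : ℝ := ((R : ℝ) - t) ^ 2 / (2 * t) * (1 + κ / t)

/-- bad event: the room at scale `a` is at least `ρ` -/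
def BadE (T a ρ : ℕ) (g : Finset ℕ) : Prop := sg (g.filter (fun π => a ≤ lv π)) + ρ ≤ T

/-- bad event: two elements with the same level in `[a, b]` -/
def BadTie (a b : ℕ) (g : Finset ℕ) : Prop :=
  ∃ π ∈ g, ∃ π' ∈ g, π ≠ π' ∧ lv π = lv π' ∧ a ≤ lv π ∧ lv π ≤ b

/-- bad event: at most one element of level `≥ η` -/
def BadOne (η : ℕ) (g : Finset ℕ) : Prop := (g.filter (fun π => η ≤ lv π)).card ≤ 1

/-- bad event: two elements of level `≥ η` whose levels differ by at most `Δ` -/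
def BadClose (η Δ : ℕ) (g : Finset ℕ) : Prop :=
  ∃ π ∈ g, ∃ π' ∈ g, π ≠ π' ∧ η ≤ lv π ∧ lv π ≤ lv π' ∧ lv π' ≤ lv π + Δ

/-- the boundary mass seen by the model -/
def NN (t0 Z T ω τ : ℕ) : ℝ :=
  ∑ x ∈ (BP t0 Z T).filter (fun x => x.2.card + 1 ≤ ω ∧ sg x.2 + 3 * lv x.1 ≤ T + τ),
    wt x.2 / x.1 * min (1 / (lv x.1 : ℝ)) (τ / (lv x.1 : ℝ) ^ 2)

/-- the sets of primes with exactly one element in each box `B j`, `j ∈ J`, and no other element -/
def Sel (J : Finset ℕ) : Finset (Finset ℕ) :=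
  (J.biUnion B).powerset.filter (fun s => ∀ j ∈ J, (s.filter (fun π => lv π = j)).card = 1)

/-- `Λ ≈ log₂ N` -/
def Lam (N : ℕ) : ℕ := Nat.clog 2 N

/-- level of the sieve -/
def TT (N : ℕ) : ℕ := N - 3 * Lam N

/-- largest level of a sieving prime -/
def ZZ (N : ℕ) : ℕ := N / 2 + 1 + 3 * Lam N

/-- the Liouville function, real valued -/
def lam (n : ℕ) : ℝ := (-1) ^ (ArithmeticFunction.cardFactors n)

/-- `⌊x/n⌋ - 2 ⌊x/(2n)⌋ ∈ {0, 1}` -/
def phi (x n : ℕ) : ℝ := ((x / n % 2 : ℕ) : ℝ)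

/-- the model sequence -/
def am (t0 x n : ℕ) : ℝ := if Nat.Coprime n (pr (PL 0 t0)) then (1 + lam n) * phi x n else 0

end Crest.Agent.R1
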