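import Crest.Agent.R1.Basic1

/-!
# R1 / Dich : the dichotomy, overlaps of aligned sets, reduced fractions


-/

set_option autoImplicit false

noncomputable section

open scoped Classical

namespace Crest.Agent.R1

open Finset

/-- Write `m_i` for the total masses (positive, because of the strict inequality), `f_i β` for the masses of
`A_i β`.  The right side of `h` is `≤ ∑ f₁ f₂ ≤ (max f₁)(1+δ) m₂`, so a maximiser `β*` has
`f₁ β* ≥ (1-2δ)/(1+δ) m₁ ≥ (1-3δ) m₁`; the other `β` have `∑ f₁ ≤ 4δ m₁`, so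
`(1-2δ) m₁ m₂ < m₁ f₂ β* + 4δ m₁ m₂`. -/
theorem dich {ι : Type} (𝔅 : Finset ι) (W1 W2 : Finset ℕ) (A1 A2 : ι → Finset ℕ) (μ : ℕ → ℝ)
    (hμ : ∀ x, 0 ≤ μ x) (hA1 : ∀ β ∈ 𝔅, A1 β ⊆ W1) (hA2 : ∀ β ∈ 𝔅, A2 β ⊆ W2) (δ : ℝ) (hδ : 0 < δ)
    (hδ1 : δ ≤ 1 / 10)
    (h1 : ∑ β ∈ 𝔅, ∑ x ∈ A1 β, μ x ≤ (1 + δ) * ∑ x ∈ W1, μ x)
    (h2 : ∑ β ∈ 𝔅, ∑ x ∈ A2 β, μ x ≤ (1 + δ) * ∑ x ∈ W2, μ x)
    (h : (1 - 2 * δ) * ((∑ x ∈ W1, μ x) * ∑ x ∈ W2, μ x) <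
      ∑ x ∈ (W1 ×ˢ W2).filter (fun x => ∃ β ∈ 𝔅, x.1 ∈ A1 β ∧ x.2 ∈ A2 β), μ x.1 * μ x.2) :
    ∃ β ∈ 𝔅, ∑ x ∈ W1 \ A1 β, μ x ≤ 3 * δ * ∑ x ∈ W1, μ x ∧
      ∑ x ∈ W2 \ A2 β, μ x ≤ 6 * δ * ∑ x ∈ W2, μ x := by
  set m1 := ∑ x ∈ W1, μ x with hm1
  set m2 := ∑ x ∈ W2, μ x with hm2
  set f1 : ι → ℝ := fun β => ∑ x ∈ A1 β, μ x with hf1
  set f2 : ι → ℝ := fun β => ∑ x ∈ A2 β, μ x with hf2
  have m10 : 0 ≤ m1 := sum_nonneg fun x _ => hμ x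
  have m20 : 0 ≤ m2 := sum_nonneg fun x _ => hμ x
  have f10 : ∀ β, 0 ≤ f1 β := fun β => sum_nonneg fun x _ => hμ x
  have f20 : ∀ β, 0 ≤ f2 β := fun β => sum_nonneg fun x _ => hμ x
  have f1le : ∀ β ∈ 𝔅, f1 β ≤ m1 := fun β hβ =>
    sum_le_sum_of_subset_of_nonneg (hA1 β hβ) fun x _ _ => hμ x
  have f2le : ∀ β ∈ 𝔅, f2 β ≤ m2 := fun β hβ =>
    sum_le_sum_of_subset_of_nonneg (hA2 β hβ) fun x _ _ => hμ x
  have hle : ∑ x ∈ (W1 ×ˢ W2).filter (fun x => ∃ β ∈ 𝔅, x.1 ∈ A1 β ∧ x.2 ∈ A2 β), μ x.1 * μ x.2 ≤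
      ∑ β ∈ 𝔅, f1 β * f2 β := by
    calc _ ≤ ∑ x ∈ W1 ×ˢ W2, ∑ β ∈ 𝔅, (if x ∈ A1 β ×ˢ A2 β then μ x.1 * μ x.2 else 0) := by
          rw [sum_filter]
          refine sum_le_sum fun x _ => ?_
          have h0 : ∀ β ∈ 𝔅, 0 ≤ (if x ∈ A1 β ×ˢ A2 β then μ x.1 * μ x.2 else 0) := fun β _ => by
            split_ifs
            · exact mul_nonneg (hμ _) (hμ _)
            · exact le_rfl
          split_ifs with hx
          · obtain ⟨β, hβ, hx1, hx2⟩ := hx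
            refine le_trans (le_of_eq ?_) (single_le_sum h0 hβ)
            rw [if_pos (mem_product.2 ⟨hx1, hx2⟩)]
          · exact sum_nonneg h0
      _ = ∑ β ∈ 𝔅, f1 β * f2 β := by
          rw [sum_comm]
          refine sum_congr rfl fun β hβ => ?_
          rw [← sum_filter, filter_mem_eq_inter,
            inter_eq_right.2 (product_subset_product (hA1 β hβ) (hA2 β hβ)), hf1, hf2]
          simp only []
          rw [sum_mul_sum, sum_product]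
  have h3 := h.trans_le hle
  have hne : 𝔅.Nonempty := by
    rcases 𝔅.eq_empty_or_nonempty with rfl | hne
    · rw [sum_empty] at h3
      have : 0 ≤ (1 - 2 * δ) * (m1 * m2) := mul_nonneg (by linarith) (mul_nonneg m10 m20)
      linarith
    · exact hne
  obtain ⟨β, hβ, hmax⟩ := exists_max_image 𝔅 f1 hne
  have h4 : ∑ γ ∈ 𝔅, f1 γ * f2 γ ≤ f1 β * ((1 + δ) * m2) := by
    calc _ ≤ ∑ γ ∈ 𝔅, f1 β * f2 γ :=
          sum_le_sum fun γ hγ => mul_le_mul_of_nonneg_right (hmax γ hγ) (f20 γ)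
      _ = f1 β * ∑ γ ∈ 𝔅, f2 γ := by rw [mul_sum]
      _ ≤ _ := mul_le_mul_of_nonneg_left h2 (f10 β)
  have h5 : (1 - 3 * δ) * m1 ≤ f1 β := by
    by_contra hc
    push Not at hc
    have a1 : f1 β * ((1 + δ) * m2) ≤ (1 - 3 * δ) * m1 * ((1 + δ) * m2) :=
      mul_le_mul_of_nonneg_right hc.le (mul_nonneg (by linarith) m20)
    have a2 : 0 ≤ δ ^ 2 * (m1 * m2) := by positivity
    nlinarith
  have h6 : ∑ γ ∈ 𝔅.erase β, f1 γ ≤ 4 * δ * m1 := by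
    have := add_sum_erase 𝔅 f1 hβ
    change ∑ γ ∈ 𝔅, f1 γ ≤ _ at h1
    linarith
  have h7 : ∑ γ ∈ 𝔅, f1 γ * f2 γ ≤ m1 * f2 β + 4 * δ * m1 * m2 := by
    rw [← add_sum_erase 𝔅 _ hβ]
    refine add_le_add (mul_le_mul_of_nonneg_right (f1le β hβ) (f20 β)) ?_
    calc _ ≤ ∑ γ ∈ 𝔅.erase β, f1 γ * m2 :=
          sum_le_sum fun γ hγ => mul_le_mul_of_nonneg_left (f2le γ (mem_of_mem_erase hγ)) (f10 γ)
      _ = (∑ γ ∈ 𝔅.erase β, f1 γ) * m2 := by rw [sum_mul]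
      _ ≤ _ := mul_le_mul_of_nonneg_right h6 m20
  have h8 : (1 - 6 * δ) * m2 ≤ f2 β := by
    by_contra hc
    push Not at hc
    have a1 : m1 * f2 β ≤ m1 * ((1 - 6 * δ) * m2) := mul_le_mul_of_nonneg_left hc.le m10
    nlinarith
  refine ⟨β, hβ, ?_, ?_⟩
  · have := sum_sdiff (f := μ) (hA1 β hβ)
    change _ + f1 β = m1 at this
    linarith
  · have := sum_sdiff (f := μ) (hA2 β hβ)
    change _ + f2 β = m2 at this
    linarith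

/-- For `π ∈ B k` let `n(π)` be the number of `β` aligned at `π`; `n ≤ 1 + n(n-1)`.  If `β ≠ β'` (reduced
fractions with positive denominators, so `b q' - b' q ≠ 0`) are both aligned at `π` then
`π ∣ b q' - b' q = q' (b - q a0) - q (b' - q' a0)`; `card_B_dvd_le`, and `1/π ≤ 1/2^(k-1)`. -/
theorem aligned_sum (a0 : ℤ) (𝔅 : Finset (ℤ × ℕ)) (k S : ℕ) (hk : 2 ≤ k)
    (hred : ∀ β ∈ 𝔅, 1 ≤ β.2 ∧ IsCoprime β.1 (β.2 : ℤ))
    (hsize : ∀ β ∈ 𝔅, ∀ β' ∈ 𝔅, |β.1 * β'.2 - β'.1 * β.2| ≤ 2 ^ ((k - 1) * S)) :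
    ∑ β ∈ 𝔅, ∑ π ∈ (B k).filter (fun π : ℕ => (π : ℤ) ∣ β.1 - β.2 * a0), 1 / (π : ℝ)
      ≤ mm k + (𝔅.card : ℝ) ^ 2 * S / 2 ^ (k - 1) := by
  have key : ∀ π ∈ B k, ∑ β ∈ 𝔅, (if (π : ℤ) ∣ β.1 - β.2 * a0 then 1 / (π : ℝ) else 0) ≤
      1 / (π : ℝ) + ∑ x ∈ 𝔅.offDiag,
        (if (π : ℤ) ∣ x.1.1 * x.2.2 - x.2.1 * x.1.2 then (1 : ℝ) / 2 ^ (k - 1) else 0) := by
    intro π hπ
    obtain ⟨hp, hl⟩ := mem_B.1 hπ
    have hlt : (2 : ℝ) ^ (k - 1) ≤ π := by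
      have := two_pow_lv_pred_lt hp.two_le
      rw [hl] at this
      exact_mod_cast this.le
    have hinv : 1 / (π : ℝ) ≤ 1 / 2 ^ (k - 1) := one_div_le_one_div_of_le (by positivity) hlt
    rw [← sum_filter, ← sum_filter, sum_const, sum_const, nsmul_eq_mul, nsmul_eq_mul]
    set T := 𝔅.filter (fun β : ℤ × ℕ => (π : ℤ) ∣ β.1 - β.2 * a0) with hT
    have hsub : T.offDiag ⊆
        𝔅.offDiag.filter (fun x => (π : ℤ) ∣ x.1.1 * x.2.2 - x.2.1 * x.1.2) := by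
      intro x hx
      obtain ⟨a1, a2, a3⟩ := mem_offDiag.1 hx
      obtain ⟨b1, b2⟩ := mem_filter.1 a1
      obtain ⟨c1, c2⟩ := mem_filter.1 a2
      refine mem_filter.2 ⟨mem_offDiag.2 ⟨b1, c1, a3⟩, ?_⟩
      have : x.1.1 * x.2.2 - x.2.1 * x.1.2 =
          (x.2.2 : ℤ) * (x.1.1 - x.1.2 * a0) - x.1.2 * (x.2.1 - x.2.2 * a0) := by ring
      rw [this]
      exact dvd_sub (b2.mul_left _) (c2.mul_left _)
    have hc : T.card ≤ 1 + T.offDiag.card := by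
      rw [offDiag_card]
      rcases Nat.lt_or_ge T.card 2 with a | a
      · omega
      · have : 2 * T.card ≤ T.card * T.card := Nat.mul_le_mul_right _ a
        omega
    have hc2 : (T.card : ℝ) ≤ 1 + ((𝔅.offDiag.filter
        (fun x => (π : ℤ) ∣ x.1.1 * x.2.2 - x.2.1 * x.1.2)).card : ℝ) := by
      exact_mod_cast hc.trans (Nat.add_le_add_left (card_le_card hsub) 1)
    calc (T.card : ℝ) * (1 / (π : ℝ)) ≤ (1 + ((𝔅.offDiag.filter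
          (fun x => (π : ℤ) ∣ x.1.1 * x.2.2 - x.2.1 * x.1.2)).card : ℝ)) * (1 / (π : ℝ)) := by
          gcongr
      _ ≤ _ := by
          rw [add_mul, one_mul]
          gcongr
  have hpair : ∀ x ∈ 𝔅.offDiag, ∑ π ∈ B k,
      (if (π : ℤ) ∣ x.1.1 * x.2.2 - x.2.1 * x.1.2 then (1 : ℝ) / 2 ^ (k - 1) else 0) ≤
      S / 2 ^ (k - 1) := by
    intro x hx
    obtain ⟨a1, a2, a3⟩ := mem_offDiag.1 hx
    have hne : x.1.1 * x.2.2 - x.2.1 * x.1.2 ≠ 0 := by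
      intro h0
      obtain ⟨p1, c1⟩ := hred _ a1
      obtain ⟨p2, c2⟩ := hred _ a2
      have e : x.1.1 * x.2.2 = x.2.1 * x.1.2 := by linarith
      have d1 : (x.1.2 : ℤ) ∣ x.2.2 :=
        c1.symm.dvd_of_dvd_mul_left (by rw [e]; exact dvd_mul_left _ _)
      have d2 : (x.2.2 : ℤ) ∣ x.1.2 :=
        c2.symm.dvd_of_dvd_mul_left (by rw [← e]; exact dvd_mul_left _ _)
      have e2 : x.1.2 = x.2.2 := Nat.dvd_antisymm (by exact_mod_cast d1) (by exact_mod_cast d2)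
      rw [e2] at e
      have e3 : x.1.1 = x.2.1 := mul_right_cancel₀ (by exact_mod_cast (by omega : x.2.2 ≠ 0)) e
      exact a3 (Prod.ext e3 e2)
    have := card_B_dvd_le hk hne (hsize _ a1 _ a2)
    rw [← sum_filter, sum_const, nsmul_eq_mul, mul_one_div]
    gcongr
  calc _ = ∑ π ∈ B k, ∑ β ∈ 𝔅, (if (π : ℤ) ∣ β.1 - β.2 * a0 then 1 / (π : ℝ) else 0) := by
        rw [sum_comm]
        exact sum_congr rfl fun β _ => sum_filter _ _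
    _ ≤ _ := sum_le_sum key
    _ = mm k + ∑ x ∈ 𝔅.offDiag, ∑ π ∈ B k,
        (if (π : ℤ) ∣ x.1.1 * x.2.2 - x.2.1 * x.1.2 then (1 : ℝ) / 2 ^ (k - 1) else 0) := by
        rw [sum_add_distrib, sum_comm]; rfl
    _ ≤ mm k + ∑ x ∈ 𝔅.offDiag, (S : ℝ) / 2 ^ (k - 1) := by
        gcongr with x hx
        exact hpair x hx
    _ ≤ _ := by
        rw [sum_const, nsmul_eq_mul, mul_div_assoc]
        have : (𝔅.offDiag.card : ℝ) ≤ (𝔅.card : ℝ) ^ 2 := by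
          rw [offDiag_card, sq]
          exact_mod_cast Nat.sub_le _ _
        gcongr

/-- `δ = gcd b q`, `b = δ b'`, `q = δ q'`, `b - q a0 = δ (b' - q' a0)`; a prime dividing the left side but not
`b' - q' a0` divides `δ`. -/
theorem reduce_beta (a0 b : ℤ) (q : ℕ) (hq : 1 ≤ q) : ∃ (b' : ℤ) (q' : ℕ), 1 ≤ q' ∧
    IsCoprime b' (q' : ℤ) ∧ q' ≤ q ∧ |b'| ≤ |b| ∧
    (∀ π : ℕ, π.Prime → q < π → (π : ℤ) ∣ b - q * a0 → (π : ℤ) ∣ b' - q' * a0) ∧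
    ∀ H : Finset ℕ, (∀ π ∈ H, π.Prime) → ((pr H : ℕ) : ℤ) ∣ b - q * a0 →
      q' * pr (H.filter (fun π : ℕ => ¬ (π : ℤ) ∣ b' - q' * a0)) ≤ q := by
  have hδ : 0 < Int.gcd b q := Int.gcd_pos_of_ne_zero_right _ (by exact_mod_cast (by omega : q ≠ 0))
  obtain ⟨b', n', hg, hb, hn⟩ := Int.exists_gcd_one hδ
  generalize Int.gcd b q = δ at hδ hb hn
  have hn0 : 0 < n' := by
    have h1 : (0 : ℤ) < n' * δ := by rw [← hn]; exact_mod_cast hq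
    exact (pos_iff_pos_of_mul_pos h1).2 (by exact_mod_cast hδ)
  lift n' to ℕ using hn0.le with q'
  have hq' : q = q' * δ := by exact_mod_cast hn
  have hq0 : 1 ≤ q' := by exact_mod_cast hn0
  have hfac : b - q * a0 = (b' - q' * a0) * δ := by rw [hb, hn]; ring
  have hor : ∀ π : ℕ, π.Prime → (π : ℤ) ∣ b - q * a0 → ¬ (π : ℤ) ∣ b' - q' * a0 → π ∣ δ := by
    intro π hπ h1 h2
    rw [hfac] at h1
    rcases (Nat.prime_iff_prime_int.1 hπ).dvd_or_dvd h1 with a | a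
    · exact absurd a h2
    · exact_mod_cast a
  refine ⟨b', q', hq0, Int.isCoprime_iff_gcd_eq_one.2 hg, ?_, ?_, ?_, ?_⟩
  · rw [hq']; exact Nat.le_mul_of_pos_right _ hδ
  · rw [hb, abs_mul]
    refine le_mul_of_one_le_right (abs_nonneg _) ?_
    rw [Nat.abs_cast]
    exact_mod_cast hδ
  · intro π hπ h1 h2
    by_contra h3
    have h4 := Nat.le_of_dvd hδ (hor π hπ h2 h3)
    have h5 : δ ≤ q := by rw [hq']; exact Nat.le_mul_of_pos_left _ hq0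
    omega
  · intro H hH h1
    have h2 : ((pr (H.filter (fun π : ℕ => ¬ (π : ℤ) ∣ b' - q' * a0)) : ℕ) : ℤ) ∣ (δ : ℤ) := by
      rw [pr_dvd_iff fun p hp => hH p (mem_filter.1 hp).1]
      intro p hp
      obtain ⟨a1, a2⟩ := mem_filter.1 hp
      exact_mod_cast hor p (hH p a1) ((pr_dvd_iff hH _).1 h1 p a1) a2
    rw [hq']
    exact Nat.mul_le_mul_left _ (Nat.le_of_dvd hδ (by exact_mod_cast h2))

end Crest.Agent.R1
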