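import Crest.Agent.R1.Basic1

/-!
# R1 / Moments : the model sequence is well distributed in all progressions `0 mod d`

`phi y m = (y/m) % 2 = y/m - 2 (y/m/2) = ∑_{k ≤ y/m} (-1)^(k+1)`.
-/

set_option autoImplicit false

noncomputable section

open scoped Classical

namespace Crest.Agent.R1

open Finset

theorem lam_mul {m n : ℕ} (hm : m ≠ 0) (hn : n ≠ 0) : lam (m * n) = lam m * lam n := by
  simp only [lam, ArithmeticFunction.cardFactors_mul hm hn, pow_add]

theorem lam_cases (n : ℕ) : lam n = 1 ∨ lam n = -1 := by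
  exact neg_one_pow_eq_or ℝ _

theorem lam_pr {d : Finset ℕ} (hd : ∀ p ∈ d, p.Prime) : lam (pr d) = (-1) ^ d.card := by
  induction d using Finset.induction_on with
  | empty => simp [pr, lam]
  | insert p d hp ih =>
    have h1 := hd p (mem_insert_self _ _)
    have h2 : ∀ q ∈ d, q.Prime := fun q hq => hd q (mem_insert_of_mem hq)
    rw [pr_insert hp, lam_mul h1.ne_zero (pr_pos h2).ne', ih h2, card_insert_of_notMem hp, pow_succ', lam,
      ArithmeticFunction.cardFactors_apply_prime h1, pow_one]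

theorem phi_nonneg (x n : ℕ) : 0 ≤ phi x n := by
  exact Nat.cast_nonneg _

theorem phi_le_one (x n : ℕ) : phi x n ≤ 1 := by
  unfold phi
  exact_mod_cast (by omega : x / n % 2 ≤ 1)

theorem am_nonneg (t0 x n : ℕ) : 0 ≤ am t0 x n := by
  have := phi_nonneg x n
  unfold am
  split_ifs
  · rcases lam_cases n with h | h <;> rw [h] <;> linarith
  · exact le_rfl

theorem am_le_two (t0 x n : ℕ) : am t0 x n ≤ 2 := by
  have := phi_le_one x n
  unfold am
  split_ifs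
  · rcases lam_cases n with h | h <;> rw [h] <;> linarith
  · norm_num

theorem mo_alt : ∃ c : ℝ, 1 / 2 ≤ c ∧ c ≤ 1 ∧ ∀ N : ℕ,
    |∑ k ∈ range N, (-1) ^ k * (1 / ((k : ℝ) + 1)) - c| ≤ 1 / ((N : ℝ) + 1) := by
  have ha : Antitone fun k : ℕ => 1 / ((k : ℝ) + 1) := fun a b h => Nat.one_div_le_one_div h
  obtain ⟨c, hc⟩ := ha.tendsto_alternating_series_of_tendsto_zero tendsto_one_div_add_atTop_nhds_zero_nat
  have h1 := ha.alternating_series_le_tendsto hc
  have h2 := ha.tendsto_le_alternating_series hc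
  refine ⟨c, ?_, ?_, fun N => ?_⟩
  · have := h1 1
    norm_num [sum_range_succ] at this
    linarith
  · simpa using h2 0
  · have h0 : 0 ≤ 1 / ((N : ℝ) + 1) := by positivity
    rcases Nat.even_or_odd' N with ⟨k, rfl | rfl⟩
    · have a1 := h1 k
      have a2 := h2 k
      rw [sum_range_succ, pow_mul, neg_one_sq, one_pow, one_mul] at a2
      rw [abs_le]
      constructor <;> linarith
    · have a1 := h1 (k + 1)
      have a2 := h2 k
      rw [mul_add, mul_one, sum_range_succ, pow_succ, pow_mul, neg_one_sq, one_pow] at a1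
      rw [abs_le]
      constructor <;> linarith

theorem mo_min (n r : ℕ) :
    ((min n r % 2 : ℕ) : ℝ) = ∑ k ∈ range r, if k + 1 ≤ n then (-1 : ℝ) ^ k else 0 := by
  induction r with
  | zero => simp
  | succ r ih =>
    rw [sum_range_succ, ← ih]
    split_ifs with h
    · rw [min_eq_right h, min_eq_right (by omega)]
      rcases Nat.even_or_odd' r with ⟨k, rfl | rfl⟩
      · rw [show (2 * k + 1) % 2 = 1 by omega, show 2 * k % 2 = 0 by omega, pow_mul]
        norm_num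
      · rw [show (2 * k + 1 + 1) % 2 = 0 by omega, show (2 * k + 1) % 2 = 1 by omega, pow_succ, pow_mul]
        norm_num
    · rw [min_eq_left (by omega), min_eq_left (by omega), add_zero]

theorem mo_floor (y d : ℕ) : ((y / d : ℕ) : ℝ) ≤ y / d ∧ (y : ℝ) / d ≤ (y / d : ℕ) + 1 := by
  refine ⟨Nat.cast_div_le, ?_⟩
  rw [← Nat.floor_div_eq_div (K := ℝ)]
  exact (Nat.lt_floor_add_one _).le

/-- Let `s N = ∑_{k=1}^N (-1)^(k+1)/k`; it converges to some `c ∈ [1/2, 1]` with `|s N - c| ≤ 1/(N+1)`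
(`Antitone.tendsto_alternating_series_of_tendsto_zero` and the bounds `Antitone.alternating_series_le_tendsto`,
`Antitone.tendsto_le_alternating_series`, or a direct Cauchy argument).  Hyperbola method with `r = Nat.sqrt y`:
`∑_{m ≤ y} phi y m = ∑_{k m ≤ y} (-1)^(k+1) = ∑_{k ≤ r} (-1)^(k+1) (y/k) + ∑_{m ≤ r} ∑_{r < k ≤ y/m} (-1)^(k+1)`
(if `k > r` then `m ≤ r`); the inner alternating sums are in `{0, ±1}`, the first sum is
`y · s r + O(r)`, and `y/(r+1) ≤ √y`. -/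
theorem sum_phi : ∃ c : ℝ, 1 / 2 ≤ c ∧ c ≤ 1 ∧ ∀ y : ℕ,
    |∑ m ∈ Icc 1 y, phi y m - c * y| ≤ 3 * Real.sqrt y := by
  obtain ⟨c, c1, c2, hc⟩ := mo_alt
  refine ⟨c, c1, c2, fun y => ?_⟩
  obtain ⟨r, hr⟩ : ∃ r, r = Nat.sqrt y := ⟨_, rfl⟩
  have r1 : (r : ℝ) ≤ √y := hr ▸ Real.nat_sqrt_le_real_sqrt
  have r2 : √y ≤ r + 1 := hr ▸ Real.real_sqrt_le_nat_sqrt_succ
  have r3 : y < (r + 1) * (r + 1) := hr ▸ Nat.lt_succ_sqrt y
  have h1 : ∑ m ∈ Icc 1 y, ((min (y / m) r % 2 : ℕ) : ℝ) =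
      ∑ k ∈ range r, (-1) ^ k * ((y / (k + 1) : ℕ) : ℝ) := by
    simp only [mo_min]
    rw [sum_comm]
    refine sum_congr rfl fun k _ => ?_
    rw [← sum_filter, sum_const, nsmul_eq_mul, mul_comm, show (Icc 1 y).filter (fun m => k + 1 ≤ y / m) =
      Icc 1 (y / (k + 1)) from ?_, Nat.card_Icc, Nat.add_sub_cancel]
    ext m
    simp only [mem_filter, mem_Icc]
    constructor
    · rintro ⟨⟨a1, -⟩, a2⟩
      exact ⟨a1, (Nat.le_div_iff_mul_le k.succ_pos).2 (mul_comm m _ ▸ (Nat.le_div_iff_mul_le a1).1 a2)⟩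
    · rintro ⟨a1, a2⟩
      exact ⟨⟨a1, a2.trans (Nat.div_le_self _ _)⟩, (Nat.le_div_iff_mul_le a1).2
        (mul_comm m _ ▸ (Nat.le_div_iff_mul_le k.succ_pos).1 a2)⟩
  have h2 : |∑ m ∈ Icc 1 y, (phi y m - ((min (y / m) r % 2 : ℕ) : ℝ))| ≤ r := by
    rw [← sum_filter_of_ne (p := fun m => m ≤ r) fun m _ hne => ?_]
    · refine (abs_sum_le_sum_abs _ _).trans ((sum_le_card_nsmul _ _ 1 fun m _ => ?_).trans ?_)
      · have a1 : ((min (y / m) r % 2 : ℕ) : ℝ) ≤ 1 := by exact_mod_cast (by omega : min (y / m) r % 2 ≤ 1)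
        have a2 : (0 : ℝ) ≤ (min (y / m) r % 2 : ℕ) := Nat.cast_nonneg _
        rw [abs_le]
        constructor <;> linarith [phi_nonneg y m, phi_le_one y m]
      · rw [nsmul_eq_mul, mul_one, Nat.cast_le]
        refine (card_le_card (t := Icc 1 r) fun m hm => ?_).trans (by simp)
        exact mem_Icc.2 ⟨(mem_Icc.1 (mem_filter.1 hm).1).1, (mem_filter.1 hm).2⟩
    · by_contra h
      refine hne ?_
      rw [min_eq_left (Nat.lt_succ_iff.1 ((Nat.div_lt_iff_lt_mul (by omega)).2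
        (r3.trans_le (Nat.mul_le_mul_left _ (by omega))))), phi, sub_self]
  have h3 : |∑ k ∈ range r, ((-1) ^ k * ((y / (k + 1) : ℕ) : ℝ) - y * ((-1) ^ k * (1 / ((k : ℝ) + 1))))| ≤
      r := by
    refine (abs_sum_le_sum_abs _ _).trans ((sum_le_card_nsmul _ _ 1 fun k _ => ?_).trans (by simp))
    obtain ⟨a1, a2⟩ := mo_floor y (k + 1)
    rw [Nat.cast_succ] at a1 a2
    rw [mul_left_comm, ← mul_sub, abs_mul, abs_neg_one_pow, one_mul, mul_one_div, abs_le]
    constructor <;> linarith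
  have h4 : |y * (∑ k ∈ range r, (-1) ^ k * (1 / ((k : ℝ) + 1)) - c)| ≤ √y := by
    rw [abs_mul, Nat.abs_cast]
    refine (mul_le_mul_of_nonneg_left (hc r) (Nat.cast_nonneg _)).trans ?_
    rw [mul_one_div, div_le_iff₀ (by positivity)]
    exact (Real.mul_self_sqrt (Nat.cast_nonneg _)).symm.trans_le
      (mul_le_mul_of_nonneg_left r2 (Real.sqrt_nonneg _))
  rw [sum_sub_distrib, h1] at h2
  rw [sum_sub_distrib, ← mul_sum] at h3
  rw [abs_le] at h2 h3 h4 ⊢
  constructor <;> linarith [h2.1, h2.2, h3.1, h3.2, h4.1, h4.2]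

/-- the Liouville function as a real arithmetic function -/
def moL : ArithmeticFunction ℝ := (ArithmeticFunction.liouville : ArithmeticFunction ℤ)

theorem moL_apply {n : ℕ} (hn : n ≠ 0) : moL n = lam n := by
  simp [moL, lam, ArithmeticFunction.liouville_apply hn]

theorem moL_zeta (n : ℕ) : (moL * ArithmeticFunction.zeta) n = ∑ k ∈ n.divisors, lam k := by
  rw [ArithmeticFunction.coe_mul_zeta_apply]
  exact sum_congr rfl fun k hk => moL_apply (Nat.pos_of_mem_divisors hk).ne'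

theorem mo_sq_mul {a b : ℕ} (h : a.Coprime b) : IsSquare (a * b) ↔ IsSquare a ∧ IsSquare b := by
  refine ⟨fun ⟨c, hc⟩ => ?_, fun h => h.1.mul h.2⟩
  rw [← sq] at hc
  exact ⟨(isSquare_iff_exists_sq a).2 (exists_eq_pow_of_mul_eq_pow (Nat.isUnit_iff.2 h) hc),
    (isSquare_iff_exists_sq b).2 (exists_eq_pow_of_mul_eq_pow (Nat.isUnit_iff.2 h.symm)
      ((mul_comm b a).trans hc))⟩

theorem mo_sq_pow {p : ℕ} (hp : p.Prime) (k : ℕ) : IsSquare (p ^ k) ↔ Even k := by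
  refine ⟨fun ⟨c, hc⟩ => ?_, fun h => h.isSquare_pow p⟩
  have c0 : c ≠ 0 := by
    rintro rfl
    exact pow_ne_zero k hp.ne_zero hc
  have := congrArg (fun n => n.factorization p) hc
  simp only [Nat.factorization_mul c0 c0, hp.factorization_pow, Finsupp.single_eq_same,
    Finsupp.add_apply] at this
  exact ⟨_, this⟩

/-- `∑_{k ∣ n} lam k ∈ {0, 1}`, and it is `0` unless `n` is a square (multiplicativity:
`Nat.recOnPosPrimePosCoprime`, `Nat.Coprime.sum_divisors_mul`-type lemmas or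
`ArithmeticFunction.isMultiplicative_liouville` with `ζ`). -/
theorem sum_divisors_lam (n : ℕ) (hn : n ≠ 0) :
    ∑ k ∈ n.divisors, lam k = if IsSquare n then 1 else 0 := by
  have hm : (moL * ArithmeticFunction.zeta).IsMultiplicative :=
    ArithmeticFunction.isMultiplicative_liouville.intCast.mul
      ArithmeticFunction.isMultiplicative_zeta.natCast
  induction n using Nat.recOnPosPrimePosCoprime with
  | zero => exact absurd rfl hn
  | one => simp [lam]
  | prime_pow p k hp _ =>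
    rw [Nat.sum_divisors_prime_pow hp]
    simp only [lam, ArithmeticFunction.cardFactors_apply_prime_pow hp, neg_one_geom_sum, mo_sq_pow hp,
      Nat.even_add_one, ite_not]
  | coprime a b ha hb h iha ihb =>
    rw [← moL_zeta, hm.map_mul_of_coprime h, moL_zeta, moL_zeta, iha (by omega), ihb (by omega)]
    by_cases h1 : IsSquare a <;> by_cases h2 : IsSquare b <;> simp [h1, h2, mo_sq_mul h]

theorem mo_D {y Y : ℕ} (h : y ≤ Y) : 0 ≤ ∑ m ∈ Icc 1 Y, lam m * (y / m : ℕ) ∧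
    ∑ m ∈ Icc 1 Y, lam m * (y / m : ℕ) ≤ √y := by
  have e : ∑ m ∈ Icc 1 Y, lam m * (y / m : ℕ) = ((Ioc 0 y).filter IsSquare).card := by
    rw [← sum_subset (s₁ := Ioc 0 y) (fun m hm => mem_Icc.2 ⟨(mem_Ioc.1 hm).1, (mem_Ioc.1 hm).2.trans h⟩)
      fun m hm hm' => by
        rw [Nat.div_eq_of_lt (by rw [mem_Icc] at hm; rw [mem_Ioc] at hm'; omega), Nat.cast_zero, mul_zero],
      ← sum_boole, ← sum_congr rfl fun n hn => sum_divisors_lam n (mem_Ioc.1 hn).1.ne']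
    simp only [← moL_zeta]
    rw [ArithmeticFunction.sum_Ioc_mul_zeta_eq_sum]
    exact sum_congr rfl fun n hn => by rw [moL_apply (mem_Ioc.1 hn).1.ne']
  rw [e]
  refine ⟨Nat.cast_nonneg _, le_trans (Nat.cast_le.2 ?_) Real.nat_sqrt_le_real_sqrt⟩
  refine (card_le_card (t := (Icc 1 y.sqrt).image fun j => j * j) fun n hn => ?_).trans
    (card_image_le.trans (by simp))
  obtain ⟨a1, j, rfl⟩ := mem_filter.1 hn
  rw [mem_Ioc] at a1
  exact mem_image.2 ⟨j, mem_Icc.2 ⟨Nat.pos_of_mul_pos_left a1.1, Nat.le_sqrt.2 a1.2⟩, rfl⟩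

/-- `∑_{m ≤ y} lam m · (y/m) = #{squares in [1,y]} = Nat.sqrt y`, and `phi y m = y/m - 2 ((y/2)/m)`. -/
theorem sum_lam_phi (y : ℕ) : |∑ m ∈ Icc 1 y, lam m * phi y m| ≤ 2 * Real.sqrt y := by
  obtain ⟨a1, a2⟩ := mo_D (le_refl y)
  obtain ⟨a3, a4⟩ := mo_D (Nat.div_le_self y 2)
  have a5 : √(y / 2 : ℕ) ≤ √y := Real.sqrt_le_sqrt (Nat.cast_le.2 (Nat.div_le_self y 2))
  have e : ∑ m ∈ Icc 1 y, lam m * phi y m =
      ∑ m ∈ Icc 1 y, lam m * (y / m : ℕ) - 2 * ∑ m ∈ Icc 1 y, lam m * (y / 2 / m : ℕ) := by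
    rw [mul_sum, ← sum_sub_distrib]
    refine sum_congr rfl fun m _ => ?_
    have : ((y / m : ℕ) : ℝ) = phi y m + 2 * (y / 2 / m : ℕ) := by
      rw [phi, Nat.div_div_eq_div_mul, mul_comm 2 m, ← Nat.div_div_eq_div_mul]
      exact_mod_cast (Nat.mod_add_div _ 2).symm
    rw [this]
    ring
  rw [e, abs_le]
  constructor <;> linarith [Real.sqrt_nonneg (y : ℝ)]

/-- `n = d m`, `m ≤ y = x / d`, `phi x (d m) = phi y m` (`Nat.div_div_eq_div_mul`), `lam (d m) = lam d · lam m`, and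
`0 ≤ x/d - y ≤ min 1 (x/d) ≤ √(x/d)`. -/
theorem moments0 : ∃ c : ℝ, 1 / 2 ≤ c ∧ c ≤ 1 ∧ ∀ x d : ℕ, 1 ≤ d →
    |∑ n ∈ (Icc 1 x).filter (fun n => d ∣ n), (1 + lam n) * phi x n - c * x / d|
      ≤ 6 * Real.sqrt (x / d) := by
  obtain ⟨c, c1, c2, hc⟩ := sum_phi
  refine ⟨c, c1, c2, fun x d hd => ?_⟩
  have e : ∑ n ∈ (Icc 1 x).filter (fun n => d ∣ n), (1 + lam n) * phi x n =
      ∑ m ∈ Icc 1 (x / d), phi (x / d) m + lam d * ∑ m ∈ Icc 1 (x / d), lam m * phi (x / d) m := by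
    rw [mul_sum, ← sum_add_distrib]
    refine (sum_bij (fun m _ => d * m) (fun m hm => ?_) (fun a _ b _ e => Nat.eq_of_mul_eq_mul_left hd e)
      (fun n hn => ?_) fun m hm => ?_).symm
    · obtain ⟨a1, a2⟩ := mem_Icc.1 hm
      exact mem_filter.2 ⟨mem_Icc.2 ⟨Nat.mul_pos hd a1, mul_comm m d ▸ (Nat.le_div_iff_mul_le hd).1 a2⟩,
        dvd_mul_right _ _⟩
    · obtain ⟨a1, m, rfl⟩ := mem_filter.1 hn
      rw [mem_Icc] at a1
      exact ⟨m, mem_Icc.2 ⟨Nat.pos_of_mul_pos_left a1.1,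
        (Nat.le_div_iff_mul_le hd).2 (mul_comm d m ▸ a1.2)⟩, rfl⟩
    · rw [lam_mul (by omega) (by linarith [(mem_Icc.1 hm).1]), phi, phi, Nat.div_div_eq_div_mul]
      ring
  obtain ⟨a1, a2⟩ := mo_floor x d
  have a3 := Real.sqrt_le_sqrt a1
  have a4 := abs_le.1 (hc (x / d))
  have a5 := abs_le.1 (sum_lam_phi (x / d))
  have a6 : (x : ℝ) / d - (x / d : ℕ) ≤ √(x / d) := by
    rcases le_total ((x : ℝ) / d) 1 with h | h
    · have := Real.le_sqrt_self_iff.2 h
      linarith [(Nat.cast_nonneg (x / d) : (0 : ℝ) ≤ _)]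
    · linarith [Real.one_le_sqrt.2 h]
  have a7 : c * ((x : ℝ) / d - (x / d : ℕ)) ≤ √(x / d) := (mul_le_of_le_one_left (by linarith) c2).trans a6
  have a8 : 0 ≤ c * ((x : ℝ) / d - (x / d : ℕ)) := mul_nonneg (by linarith) (by linarith)
  rw [e, mul_div_assoc, abs_le]
  rcases lam_cases d with h | h <;> rw [h] <;> constructor <;> linarith [a4.1, a4.2, a5.1, a5.2]

theorem mo_sieve (S : Finset ℕ) (hS : ∀ p ∈ S, p.Prime) : ∃ c0 C : ℝ, 0 < c0 ∧ c0 ≤ 1 ∧ 0 ≤ C ∧
    ∀ x d : ℕ, 1 ≤ d → Nat.Coprime d (pr S) →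
    |∑ n ∈ (Icc 1 x).filter (fun n => d ∣ n),
      (if Nat.Coprime n (pr S) then (1 + lam n) * phi x n else 0) - c0 * x / d| ≤ C * √(x / d) := by
  induction S using Finset.induction_on with
  | empty =>
    obtain ⟨c, c1, c2, hc⟩ := moments0
    exact ⟨c, 6, by linarith, c2, by norm_num, fun x d hd _ => by simpa [pr] using hc x d hd⟩
  | insert p S hp ih =>
    have h1 := hS p (mem_insert_self _ _)
    have h2 : ∀ q ∈ S, q.Prime := fun q hq => hS q (mem_insert_of_mem hq)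
    obtain ⟨c, C, c1, c2, hC, hc⟩ := ih h2
    have p2 : (2 : ℝ) ≤ p := by exact_mod_cast h1.two_le
    have p3 : 1 / (p : ℝ) < 1 := (div_lt_one (by linarith)).2 (by linarith)
    have p4 : 0 ≤ 1 / (p : ℝ) := by positivity
    refine ⟨c * (1 - 1 / p), 2 * C, mul_pos c1 (by linarith), mul_le_one₀ c2 (by linarith) (by linarith),
      by positivity, fun x d hd hcop => ?_⟩
    rw [pr_insert hp] at hcop ⊢
    rw [Nat.coprime_mul_iff_right] at hcop
    have a1 := abs_le.1 (hc x d hd hcop.2)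
    have a2 := abs_le.1 (hc x (d * p) (Nat.mul_pos hd h1.pos) (Nat.Coprime.mul_left hcop.2
      ((Nat.Prime.coprime_iff_not_dvd h1).2 fun h => hp ((prime_dvd_pr h2 h1).1 h))))
    have d0 : (1 : ℝ) ≤ d := by exact_mod_cast hd
    have a3 : C * √(x / (d * p : ℕ)) ≤ C * √(x / d) := by
      push_cast
      gcongr
      nlinarith
    have a4 : c * (1 - 1 / p) * x / d = c * x / d - c * x / (d * p : ℕ) := by
      push_cast
      field_simp
    have e : ∑ n ∈ (Icc 1 x).filter (fun n => d ∣ n),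
        (if Nat.Coprime n (p * pr S) then (1 + lam n) * phi x n else 0) =
        ∑ n ∈ (Icc 1 x).filter (fun n => d ∣ n),
          (if Nat.Coprime n (pr S) then (1 + lam n) * phi x n else 0) -
        ∑ n ∈ (Icc 1 x).filter (fun n => d * p ∣ n),
          (if Nat.Coprime n (pr S) then (1 + lam n) * phi x n else 0) := by
      simp only [sum_filter, ← sum_sub_distrib]
      refine sum_congr rfl fun n _ => ?_
      have b1 : d * p ∣ n ↔ d ∣ n ∧ p ∣ n :=
        ⟨fun h => ⟨dvd_of_mul_right_dvd h, dvd_of_mul_left_dvd h⟩,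
          fun h => hcop.1.mul_dvd_of_dvd_of_dvd h.1 h.2⟩
      have b2 : Nat.Coprime n (p * pr S) ↔ ¬ p ∣ n ∧ Nat.Coprime n (pr S) := by
        rw [Nat.coprime_mul_iff_right, Nat.coprime_comm, h1.coprime_iff_not_dvd]
      simp only [b1, b2]
      by_cases b3 : d ∣ n <;> by_cases b4 : p ∣ n <;> simp [b3, b4]
    rw [e, a4, abs_le]
    constructor <;> linarith [a1.1, a1.2, a2.1, a2.2]

/-- Inclusion-exclusion over the subsets `e` of `S = PL 0 t0`: `1[Coprime n (pr S)] = ∏_{π ∈ S} (1 - 1[π ∣ n]) =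
∑_e (-1)^|e| 1[pr e ∣ n]` (`Finset.prod_one_sub...`/`Finset.prod_sub`, or induction on `S`: remove one prime at a
time).  `c0 = c ∏ (1 - 1/π) > 0`, `C = 6 · 2^|S|`. -/
theorem moments (t0 : ℕ) : ∃ c0 C : ℝ, 0 < c0 ∧ c0 ≤ 1 ∧ 0 ≤ C ∧ ∀ x d : ℕ, 1 ≤ d →
    Nat.Coprime d (pr (PL 0 t0)) →
    |∑ n ∈ (Icc 1 x).filter (fun n : ℕ => (d : ℤ) ∣ (n : ℤ)), am t0 x n - c0 * x / d|
      ≤ C * Real.sqrt (x / d) := by
  simpa only [am, Int.natCast_dvd_natCast] using mo_sieve (PL 0 t0) fun p hp => (mem_PL.1 hp).1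

end Crest.Agent.R1
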