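import Crest.Agent.R1.FL
import Crest.Agent.R1.Primes

/-!
# R1 / UB : upper bound sieve for progressions


-/

set_option autoImplicit false

noncomputable section

open scoped Classical

namespace Crest.Agent.R1

open Finset

/-- the sieve inequality for a fixed set of primes and fixed upper weights -/
theorem ub_core (P : Finset ℕ) (hPp : ∀ p ∈ P, p.Prime) (lp : Finset ℕ → ℝ) (I M : ℕ) (a : ℤ)
    (hM : ∀ π ∈ P, ¬ π ∣ M)
    (hw : ∀ w : ℕ → ℝ, (∀ p ∈ P, 0 ≤ w p ∧ w p ≤ 1) →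
      ∏ p ∈ P, (1 - w p) ≤ ∑ f ∈ P.powerset, lp f * ∏ p ∈ f, w p) :
    (((range I).filter (fun i : ℕ => ∀ π ∈ P, ¬ (π : ℤ) ∣ a + M * i)).card : ℝ) ≤
      I * ∑ f ∈ P.powerset, lp f * ∏ p ∈ f, (1 / (p : ℝ)) + ∑ f ∈ P.powerset, |lp f| := by
  set w : ℕ → ℕ → ℝ := fun i p => if (p : ℤ) ∣ a + M * i then 1 else 0 with hwdef
  have h1 : (((range I).filter (fun i : ℕ => ∀ π ∈ P, ¬ (π : ℤ) ∣ a + M * i)).card : ℝ) =
      ∑ i ∈ range I, ∏ p ∈ P, (1 - w i p) := by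
    rw [card_filter, Nat.cast_sum]
    refine sum_congr rfl fun i _ => ?_
    split_ifs with h
    · rw [Nat.cast_one, eq_comm]
      refine prod_eq_one fun p hp => ?_
      simp only [hwdef, if_neg (h p hp), sub_zero]
    · push Not at h
      obtain ⟨p, hp, hd⟩ := h
      rw [Nat.cast_zero, eq_comm]
      refine prod_eq_zero hp ?_
      simp only [hwdef, if_pos hd, sub_self]
  have h2 : ∀ f ∈ P.powerset, ∑ i ∈ range I, ∏ p ∈ f, w i p =
      (((range I).filter (fun i : ℕ => ((pr f : ℕ) : ℤ) ∣ a + M * i)).card : ℝ) := by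
    intro f hf
    have hfp : ∀ p ∈ f, p.Prime := fun p hp => hPp p (mem_powerset.1 hf hp)
    rw [card_filter, Nat.cast_sum]
    refine sum_congr rfl fun i _ => ?_
    split_ifs with h
    · rw [Nat.cast_one]
      refine prod_eq_one fun p hp => ?_
      simp only [hwdef, if_pos ((pr_dvd_iff hfp _).1 h p hp)]
    · rw [pr_dvd_iff hfp] at h
      push Not at h
      obtain ⟨p, hp, hd⟩ := h
      rw [Nat.cast_zero]
      refine prod_eq_zero hp ?_
      simp only [hwdef, if_neg hd]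
  have h3 : ∀ f ∈ P.powerset, lp f * ∑ i ∈ range I, ∏ p ∈ f, w i p ≤
      I * (lp f * ∏ p ∈ f, (1 / (p : ℝ))) + |lp f| := by
    intro f hf
    have hfp : ∀ p ∈ f, p.Prime := fun p hp => hPp p (mem_powerset.1 hf hp)
    rw [h2 f hf]
    have hc := cnt_ap a M (pr f) I (pr_pos hfp)
      (coprime_pr hfp fun p hp => hM p (mem_powerset.1 hf hp))
    have hwt : ∏ p ∈ f, (1 / (p : ℝ)) = 1 / (pr f : ℝ) := wt_eq f
    rw [hwt]
    set c : ℝ := (((range I).filter (fun i : ℕ => ((pr f : ℕ) : ℤ) ∣ a + M * i)).card : ℝ)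
    have e : lp f * c = I * (lp f * (1 / (pr f : ℝ))) + lp f * (c - I / (pr f : ℝ)) := by ring
    rw [e]
    have : lp f * (c - I / (pr f : ℝ)) ≤ |lp f| := by
      calc lp f * (c - I / (pr f : ℝ)) ≤ |lp f * (c - I / (pr f : ℝ))| := le_abs_self _
        _ = |lp f| * |c - I / (pr f : ℝ)| := abs_mul _ _
        _ ≤ |lp f| * 1 := mul_le_mul_of_nonneg_left hc (abs_nonneg _)
        _ = |lp f| := mul_one _
    linarith
  rw [h1]
  calc ∑ i ∈ range I, ∏ p ∈ P, (1 - w i p)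
      ≤ ∑ i ∈ range I, ∑ f ∈ P.powerset, lp f * ∏ p ∈ f, w i p := by
        refine sum_le_sum fun i _ => hw (w i) fun p _ => ?_
        simp only [hwdef]
        split_ifs <;> norm_num
    _ = ∑ f ∈ P.powerset, lp f * ∑ i ∈ range I, ∏ p ∈ f, w i p := by
        rw [sum_comm]
        exact sum_congr rfl fun f _ => (mul_sum _ _ _).symm
    _ ≤ ∑ f ∈ P.powerset, (I * (lp f * ∏ p ∈ f, (1 / (p : ℝ))) + |lp f|) := sum_le_sum h3
    _ = _ := by rw [sum_add_distrib, ← mul_sum]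

/-- Let `u` be as in `exists_weights`, `s = t / (2u)`.  If `s = 0` the bound is trivial (`C ≥ 2u`).  Otherwise
sieve only by `P = PL (t0+1) s ⊆ PL (t0+1) (t-1)`: with `w_i p = 1[p ∣ a + M i]` the count is
`≤ ∑_f lp f · #{i < I : pr f ∣ a + M i} ≤ I · 3 ∏(1-1/p) + 2^(us)` (`cnt_ap`, `pr_dvd_iff`, `coprime_pr`),
`∏ ≤ C/s ≤ 4uC/t` (`prod_upper`) and `2^(us) ≤ 2^(t/2) ≤ I / 2^(t/2) ≤ 4 I/t`. -/
theorem sieve_upper (hP : PAP) (t0 : ℕ) : ∃ C : ℝ, 1 ≤ C ∧ ∀ (t I M : ℕ) (a : ℤ), 1 ≤ t → 2 ^ t ≤ I →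
    (∀ π ∈ PL (t0 + 1) (t - 1), ¬ π ∣ M) →
    (((range I).filter (fun i : ℕ => ∀ π ∈ PL (t0 + 1) (t - 1), ¬ (π : ℤ) ∣ a + M * i)).card : ℝ)
      ≤ C * I / t := by
  obtain ⟨u, hu, hW⟩ := exists_weights
  obtain ⟨C0, hC0, hprod⟩ := prod_upper hP t0
  have hu' : (1 : ℝ) ≤ u := by exact_mod_cast hu
  refine ⟨12 * u * C0 + 2 + 2 * u, by nlinarith, ?_⟩
  intro t I M a ht hI hM
  have ht' : (0 : ℝ) < t := by exact_mod_cast ht
  have hI0 : (0 : ℝ) ≤ I := Nat.cast_nonneg _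
  have huC : (0 : ℝ) ≤ u * C0 := by positivity
  rw [le_div_iff₀ ht']
  by_cases hsm : t < 2 * u
  · have h1 : (((range I).filter
        (fun i : ℕ => ∀ π ∈ PL (t0 + 1) (t - 1), ¬ (π : ℤ) ∣ a + M * i)).card : ℝ) ≤ I := by
      exact_mod_cast (card_filter_le _ _).trans (card_range I).le
    have h2 : (t : ℝ) ≤ 2 * u := by exact_mod_cast hsm.le
    calc _ ≤ (I : ℝ) * (2 * u) := mul_le_mul h1 h2 ht'.le hI0
      _ ≤ _ := by nlinarith [mul_nonneg huC hI0]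
  · push Not at hsm
    set s := t / (2 * u) with hs
    have hs1 : 1 ≤ s := (Nat.le_div_iff_mul_le (by omega)).2 (by omega)
    have hs2 : 2 * u * s ≤ t := Nat.mul_div_le _ _
    have hs3 : t < 2 * u * (s + 1) := Nat.lt_mul_div_succ _ (by omega)
    have hs4 : s ≤ t - 1 := by
      have : 2 * s ≤ 2 * u * s := by nlinarith
      omega
    have hsub : PL (t0 + 1) s ⊆ PL (t0 + 1) (t - 1) := PL_mono le_rfl hs4
    obtain ⟨lm, lp, -, hlp, -, -, hw, hg⟩ := hW s (PL (t0 + 1) s) hs1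
      (fun p hp => ⟨(mem_PL.1 hp).1, (mem_PL.1 hp).2.2⟩)
    have hcore := ub_core (PL (t0 + 1) s) (fun p hp => (mem_PL.1 hp).1) lp I M a
      (fun π hπ => hM π (hsub hπ)) (fun w hw' => (hw w hw').2)
    have hg' := (hg (fun p => 1 / (p : ℝ)) (fun p hp => by
      have h2 : (2 : ℝ) ≤ p := by exact_mod_cast (mem_PL.1 hp).1.two_le
      refine ⟨by positivity, one_div_le_one_div_of_le (by norm_num) h2, ?_⟩
      exact div_le_div_of_nonneg_right (by norm_num) (by positivity))).2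
    have hpr := hprod s hs1
    have hs' : (0 : ℝ) < s := by exact_mod_cast hs1
    have hmono : (((range I).filter
        (fun i : ℕ => ∀ π ∈ PL (t0 + 1) (t - 1), ¬ (π : ℤ) ∣ a + M * i)).card : ℝ) ≤
        (((range I).filter
        (fun i : ℕ => ∀ π ∈ PL (t0 + 1) s, ¬ (π : ℤ) ∣ a + M * i)).card : ℝ) := by
      refine Nat.cast_le.2 (card_le_card fun i hi => ?_)
      rw [mem_filter] at hi ⊢
      exact ⟨hi.1, fun π hπ => hi.2 π (hsub hπ)⟩
    have hA : C0 / s * t ≤ 4 * u * C0 := by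
      rw [div_mul_eq_mul_div, div_le_iff₀ hs']
      have h4 : t ≤ 4 * u * s := by nlinarith
      have h4' : (t : ℝ) ≤ 4 * u * s := by exact_mod_cast h4
      nlinarith
    have hB : (2 : ℝ) ^ (u * s) * t ≤ 2 * I := by
      have h5 : t ≤ 2 * 2 ^ (t - u * s) := by
        have := @Nat.lt_two_pow_self (t - u * s)
        have h6 : 2 * (u * s) ≤ t := by rw [← mul_assoc]; exact hs2
        omega
      have h6 : 2 ^ (u * s) * t ≤ 2 * I := by
        have h7 : u * s ≤ t := by nlinarith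
        calc 2 ^ (u * s) * t ≤ 2 ^ (u * s) * (2 * 2 ^ (t - u * s)) := Nat.mul_le_mul_left _ h5
          _ = 2 * 2 ^ (u * s + (t - u * s)) := by rw [pow_add]; ring
          _ = 2 * 2 ^ t := by rw [Nat.add_sub_cancel' h7]
          _ ≤ 2 * I := by omega
      exact_mod_cast h6
    have hfin : (((range I).filter
        (fun i : ℕ => ∀ π ∈ PL (t0 + 1) (t - 1), ¬ (π : ℤ) ∣ a + M * i)).card : ℝ) ≤
        I * (3 * (C0 / s)) + 2 ^ (u * s) := by
      refine hmono.trans (hcore.trans (add_le_add ?_ hlp))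
      refine mul_le_mul_of_nonneg_left (hg'.trans ?_) hI0
      linarith
    calc _ ≤ (I * (3 * (C0 / s)) + 2 ^ (u * s)) * (t : ℝ) := mul_le_mul_of_nonneg_right hfin ht'.le
      _ = 3 * I * (C0 / s * t) + 2 ^ (u * s) * t := by ring
      _ ≤ 3 * I * (4 * u * C0) + 2 * I := by gcongr
      _ ≤ _ := by nlinarith [mul_nonneg (zero_le_one.trans hu') hI0]

/-- number of `j < X` with `D0 ∣ a0 + j`, `u ∣ b + q j` and no sieving prime `< p` dividing `a0 + j` -/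
def Sb (t0 : ℕ) (a0 b : ℤ) (X q D0 u p : ℕ) : ℕ :=
  ((range X).filter (fun j : ℕ => (D0 : ℤ) ∣ a0 + j ∧ (u : ℤ) ∣ b + q * j ∧
    ∀ π ∈ SP t0 p, ¬ (π : ℤ) ∣ a0 + j)).card

/-- if `u ∣ b - q a0` then `u ∣ b + q j ↔ u ∣ q (a0 + j) ↔ u ∣ a0 + j` -/
theorem Sb_eq (t0 : ℕ) (a0 b : ℤ) (X q D0 u p : ℕ) (hu : (u : ℤ) ∣ b - q * a0) (huq : Nat.Coprime u q)
    (hD : Nat.Coprime D0 u) : Sb t0 a0 b X q D0 u p = Scnt t0 a0 X (D0 * u) p := by
  unfold Sb Scnt
  congr 1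
  refine filter_congr fun j _ => ?_
  have h1 : (u : ℤ) ∣ b + q * j ↔ (u : ℤ) ∣ a0 + j := by
    have e : b + q * j = (b - q * a0) + q * (a0 + j) := by ring
    rw [e, dvd_add_right hu]
    exact ⟨fun h => (Nat.isCoprime_iff_coprime.2 huq).dvd_of_dvd_mul_left h,
      fun h => h.mul_left _⟩
  rw [h1, Nat.cast_mul, ← and_assoc]
  refine and_congr_left' ⟨fun h => (Nat.isCoprime_iff_coprime.2 hD).mul_dvd h.1 h.2, fun h =>
    ⟨(dvd_mul_right _ _).trans h, (dvd_mul_left _ _).trans h⟩⟩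

/-- The `j` with `D0 ∣ a0 + j`, `u ∣ b + q j` are congruent modulo `M = D0 u`.  If there is none the count
is `0`; otherwise let `j₀` be the least one, `j = j₀ + M i` with `i < I := X / M + 1`, `2^t ≤ I ≤ 2X/M`, and
apply `sieve_upper` with `a = a0 + j₀` (`PL (t0+1) (lv p - 1) ⊆ SP t0 p`). -/
theorem Sb_le (hP : PAP) (t0 : ℕ) : ∃ C : ℝ, 1 ≤ C ∧ ∀ (a0 b : ℤ) (X q D0 u p : ℕ), 1 ≤ D0 → 1 ≤ u →
    Nat.Coprime u q → Nat.Coprime D0 u → 1 ≤ lv p → (∀ π ∈ SP t0 p, ¬ π ∣ D0 * u) →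
    D0 * u * 2 ^ lv p ≤ X → (Sb t0 a0 b X q D0 u p : ℝ) ≤ C * X / (D0 * u * lv p) := by
  obtain ⟨C, hC, hS⟩ := sieve_upper hP t0
  refine ⟨2 * C, by linarith, ?_⟩
  intro a0 b X q D0 u p hD0 hu huq hD ht hSP hX
  set M := D0 * u with hM
  have hM1 : 1 ≤ M := Nat.mul_pos hD0 hu
  have hMr : (0 : ℝ) < M := by exact_mod_cast hM1
  have htr : (0 : ℝ) < lv p := by exact_mod_cast ht
  have hMc : (D0 : ℝ) * u = M := by rw [hM, Nat.cast_mul]
  rw [hMc]
  set S := (range X).filter (fun j : ℕ => (D0 : ℤ) ∣ a0 + j ∧ (u : ℤ) ∣ b + q * j ∧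
    ∀ π ∈ SP t0 p, ¬ (π : ℤ) ∣ a0 + j) with hSdef
  change (S.card : ℝ) ≤ _
  rcases S.eq_empty_or_nonempty with h0 | hne
  · rw [h0, card_empty, Nat.cast_zero]
    positivity
  set j0 := S.min' hne with hj0
  have hj0S := mem_filter.1 (S.min'_mem hne)
  have hsub : PL (t0 + 1) (lv p - 1) ⊆ SP t0 p := by
    intro π hπ
    rw [mem_PL] at hπ
    exact mem_SP.2 ⟨hπ.1, hπ.2.1, lt_of_lv_lt (by omega)⟩
  set I := X / M + 1 with hI
  have hXM : 2 ^ lv p ≤ X / M := (Nat.le_div_iff_mul_le hM1).2 (by rw [mul_comm]; exact hX)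
  have hmain := hS (lv p) I M (a0 + j0) ht (by omega) (fun π hπ => hSP π (hsub hπ))
  have hcard : S.card ≤ ((range I).filter (fun i : ℕ => ∀ π ∈ PL (t0 + 1) (lv p - 1),
      ¬ (π : ℤ) ∣ (a0 + j0) + M * i)).card := by
    refine (card_le_card (t := ((range I).filter (fun i : ℕ => ∀ π ∈ PL (t0 + 1) (lv p - 1),
      ¬ (π : ℤ) ∣ (a0 + j0) + M * i)).image (fun i => j0 + M * i)) ?_).trans card_image_le
    intro j hj
    have hle : j0 ≤ j := S.min'_le j hj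
    have hjS := mem_filter.1 hj
    obtain ⟨k, rfl⟩ := Nat.exists_eq_add_of_le hle
    have h1 : (D0 : ℤ) ∣ k := by
      have := dvd_sub hjS.2.1 hj0S.2.1
      rw [← hj0] at this
      push_cast at this
      rwa [show a0 + (j0 + k) - (a0 + j0) = (k : ℤ) by ring] at this
    have h2 : (u : ℤ) ∣ k := by
      have := dvd_sub hjS.2.2.1 hj0S.2.2.1
      rw [← hj0] at this
      push_cast at this
      rw [show b + q * (j0 + k) - (b + q * j0) = (q : ℤ) * k by ring] at this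
      exact (Nat.isCoprime_iff_coprime.2 huq).dvd_of_dvd_mul_left this
    have h3 : M ∣ k := hD.mul_dvd_of_dvd_of_dvd (by exact_mod_cast h1) (by exact_mod_cast h2)
    obtain ⟨i, rfl⟩ := h3
    refine mem_image.2 ⟨i, mem_filter.2 ⟨mem_range.2 ?_, fun π hπ => ?_⟩, rfl⟩
    · have h4 := mem_range.1 hjS.1
      have : i ≤ X / M := (Nat.le_div_iff_mul_le hM1).2 (by rw [mul_comm]; omega)
      omega
    · have := hjS.2.2.2 π (hsub hπ)
      push_cast at this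
      rwa [add_assoc]
  have hIle : (I : ℝ) ≤ 2 * X / M := by
    have h1 : 1 ≤ X / M := le_trans Nat.one_le_two_pow hXM
    have h2 : I ≤ 2 * (X / M) := by omega
    have h3 : ((X / M : ℕ) : ℝ) ≤ X / M := Nat.cast_div_le
    have h4 : (I : ℝ) ≤ 2 * ((X / M : ℕ) : ℝ) := by exact_mod_cast h2
    calc (I : ℝ) ≤ 2 * (X / M) := by linarith
      _ = _ := by ring
  calc (S.card : ℝ) ≤ _ := Nat.cast_le.2 hcard
    _ ≤ C * I / lv p := hmain
    _ ≤ C * (2 * X / M) / lv p := by gcongr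
    _ = _ := by field_simp

end Crest.Agent.R1
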