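import Crest.Agent.R1.Basic2
import Crest.Agent.R1.Moments
import Crest.Agent.R1.UB

/-!
# R1 / Disc : boundary terms of the model


-/

set_option autoImplicit false

noncomputable section

open scoped Classical

namespace Crest.Agent.R1

open Finset

/-- integers in `[2, y]` with an even number of prime factors, all `≥ p` -/
def nu (y p : ℕ) : ℕ :=
  ((Icc 2 y).filter (fun m => lam m = 1 ∧ ∀ π : ℕ, π.Prime → π < p → ¬ π ∣ m)).card

theorem disc_lam_mul {a b : ℕ} (ha : a ≠ 0) (hb : b ≠ 0) : lam (a * b) = lam a * lam b := by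
  unfold lam
  rw [ArithmeticFunction.cardFactors_mul ha hb, pow_add]

theorem disc_lam_prime {p : ℕ} (hp : p.Prime) : lam p = -1 := by
  unfold lam
  rw [ArithmeticFunction.cardFactors_apply_prime hp, pow_one]

theorem disc_lam_or (n : ℕ) : lam n = 1 ∨ lam n = -1 := neg_one_pow_eq_or ℝ _

theorem disc_lam_pr (g : Finset ℕ) (hg : ∀ p ∈ g, p.Prime) : lam (pr g) = (-1) ^ g.card := by
  induction g using Finset.induction_on with
  | empty => simp [pr, lam]
  | insert a g ha ih =>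
    have h1 : ∀ p ∈ g, p.Prime := fun p hp => hg p (mem_insert_of_mem hp)
    have h2 := hg a (mem_insert_self _ _)
    rw [pr_insert ha, disc_lam_mul h2.ne_zero (pr_pos h1).ne', disc_lam_prime h2, ih h1,
      card_insert_of_notMem ha, pow_succ]
    ring

theorem disc_rough {m p : ℕ} (hm : 2 ≤ m) (h : ∀ π : ℕ, π.Prime → π < p → ¬ π ∣ m) :
    p ≤ m.minFac :=
  not_lt.1 fun hlt => h _ (Nat.minFac_prime (by omega)) hlt (Nat.minFac_dvd m)

theorem disc_not_prime {m : ℕ} (h : lam m = 1) : ¬ m.Prime := fun hp => by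
  rw [disc_lam_prime hp] at h
  norm_num at h

/-- such an `m` is not prime, so `p² ≤ (minFac m)² ≤ m` (`Nat.minFac_sq_le_self`) -/
theorem nu_eq_zero {y p : ℕ} (h : y < p ^ 2) : nu y p = 0 := by
  rw [nu, card_eq_zero, filter_eq_empty_iff]
  rintro m hm ⟨h1, h2⟩
  obtain ⟨h3, h4⟩ := mem_Icc.1 hm
  have h5 := Nat.minFac_sq_le_self (by omega) (disc_not_prime h1)
  have h6 := Nat.pow_le_pow_left (disc_rough h3 h2) 2
  omega

theorem disc_two (C2 C3 : ℝ) (hC2 : 0 ≤ C2) (hC3 : 1 ≤ C3)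
    (h2 : ∀ y : ℝ, 2 ≤ y → (((Icc 1 ⌊y⌋₊).filter Nat.Prime).card : ℝ) ≤ C2 * y / Real.log y)
    (h3 : ∀ j : ℕ, 1 ≤ j → mm j ≤ C3 / j) {y p σ : ℕ} (hp : p.Prime) (ht : 2 ≤ lv p) (hσ : 1 ≤ σ)
    (hy : y ≤ 2 ^ (2 * lv p + σ)) (hσt : σ + 3 ≤ lv p) :
    (nu y p : ℝ) ≤ 8 * C2 * C3 * y * (σ / (lv p : ℝ) ^ 2) := by
  set t := lv p with htdef
  have hpt : 2 ^ (t - 1) < p := two_pow_lv_pred_lt hp.two_le
  have hy3 : y < p ^ 3 := by
    calc y ≤ 2 ^ (2 * t + σ) := hy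
      _ ≤ 2 ^ ((t - 1) * 3) := Nat.pow_le_pow_right (by norm_num) (by omega)
      _ = (2 ^ (t - 1)) ^ 3 := pow_mul _ _ _
      _ < p ^ 3 := Nat.pow_lt_pow_left hpt (by norm_num)
  set S := (PL t (t + σ)).filter (fun π => p ≤ π ∧ π ^ 2 ≤ y) with hS
  have hsub : (Icc 2 y).filter (fun m => lam m = 1 ∧ ∀ π : ℕ, π.Prime → π < p → ¬ π ∣ m) ⊆
      S.biUnion (fun π => ((Icc 1 ⌊(y : ℝ) / π⌋₊).filter Nat.Prime).image (fun π' => π * π')) := by
    intro m hm
    obtain ⟨hm1, h1, h2'⟩ := mem_filter.1 hm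
    obtain ⟨h3', h4⟩ := mem_Icc.1 hm1
    have hnp := disc_not_prime h1
    have hπ : m.minFac.Prime := Nat.minFac_prime (by omega)
    have h5 := Nat.minFac_sq_le_self (by omega) hnp
    have h6 := disc_rough h3' h2'
    obtain ⟨k, hk⟩ := Nat.minFac_dvd m
    have hk2 : 2 ≤ k := by
      rcases k with _ | _ | k
      · omega
      · exact absurd (by rw [hk, zero_add, mul_one]; exact hπ) hnp
      · omega
    have hkp : k.Prime := by
      by_contra hk'
      have h7 := Nat.minFac_sq_le_self (by omega) hk'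
      have h8 : p ≤ k.minFac := disc_rough hk2 fun π h9 h10 h11 =>
        h2' π h9 h10 (hk ▸ h11.mul_left _)
      have h9 := Nat.mul_le_mul h6 ((Nat.pow_le_pow_left h8 2).trans h7)
      rw [← hk, ← pow_succ'] at h9
      exact absurd (h9.trans h4) (not_le.2 hy3)
    refine mem_biUnion.2 ⟨m.minFac, mem_filter.2 ⟨mem_PL.2 ⟨hπ, lv_mono h6, lv_le_iff.2 ?_⟩,
      h6, h5.trans h4⟩, mem_image.2 ⟨k, mem_filter.2 ⟨mem_Icc.2 ⟨by omega, ?_⟩, hkp⟩, hk.symm⟩⟩
    · refine (Nat.pow_le_pow_iff_left two_ne_zero).1 (h5.trans (h4.trans (hy.trans ?_)))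
      rw [← pow_mul]
      exact Nat.pow_le_pow_right (by norm_num) (by omega)
    · rw [Nat.floor_div_natCast, Nat.floor_natCast, Nat.le_div_iff_mul_le hπ.pos, mul_comm, ← hk]
      exact h4
  have ht0 : (2 : ℝ) ≤ t := by exact_mod_cast ht
  have hy0 : (0 : ℝ) ≤ y := Nat.cast_nonneg y
  have hcard : (nu y p : ℝ) ≤ ∑ π ∈ S, (((Icc 1 ⌊(y : ℝ) / π⌋₊).filter Nat.Prime).card : ℝ) := by
    have := (card_le_card hsub).trans (card_biUnion_le.trans (sum_le_sum fun π _ => card_image_le))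
    exact_mod_cast this
  have hterm : ∀ π ∈ S, (((Icc 1 ⌊(y : ℝ) / π⌋₊).filter Nat.Prime).card : ℝ) ≤
      4 * C2 * y / t * (1 / π) := by
    intro π hπ
    obtain ⟨h4, h5, h6⟩ := mem_filter.1 hπ
    have hπ0 : (0 : ℝ) < π := by exact_mod_cast (mem_PL.1 h4).1.pos
    have h7 : (π : ℝ) ≤ y / π := by
      rw [le_div_iff₀ hπ0, ← sq]; exact_mod_cast h6
    have h8 : (2 : ℝ) ^ (t - 1) ≤ y / π := le_trans (by exact_mod_cast hpt.le.trans h5) h7
    have h9 : (2 : ℝ) ≤ 2 ^ (t - 1) := by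
      calc (2 : ℝ) = 2 ^ 1 := by norm_num
        _ ≤ _ := pow_le_pow_right₀ (by norm_num) (by omega)
    have h10 : (t : ℝ) / 4 ≤ Real.log (y / π) := by
      refine le_trans ?_ (Real.log_le_log (by positivity) h8)
      rw [Real.log_pow, Nat.cast_sub (by omega), Nat.cast_one]
      nlinarith [Real.log_two_gt_d9]
    refine (h2 _ (h9.trans h8)).trans ((div_le_div_of_nonneg_left (by positivity)
      (by positivity) h10).trans (le_of_eq ?_))
    field_simp
  have hsum : ∑ π ∈ S, (1 / (π : ℝ)) ≤ 2 * σ * (C3 / t) := by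
    refine (sum_le_sum_of_subset_of_nonneg (filter_subset _ _) fun _ _ _ => by positivity).trans ?_
    rw [sum_PL]
    refine (sum_le_card_nsmul _ _ (C3 / t) fun j hj => ?_).trans ?_
    · have h4 := (mem_Icc.1 hj).1
      exact (h3 j (by omega)).trans (div_le_div_of_nonneg_left (by linarith) (by linarith)
        (by exact_mod_cast h4))
    · rw [Nat.card_Icc, nsmul_eq_mul]
      refine mul_le_mul_of_nonneg_right ?_ (by positivity)
      have : t + σ + 1 - t ≤ 2 * σ := by omega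
      exact_mod_cast this
  refine hcard.trans ((sum_le_sum hterm).trans ?_)
  rw [← mul_sum]
  refine (mul_le_mul_of_nonneg_left hsum (by positivity)).trans (le_of_eq ?_)
  field_simp
  ring

/-- `t = lv p ≥ 2`.  If `y < p²` use `nu_eq_zero`.  Otherwise `y > 2^(2t-2) ≥ 2^t` and `sieve_upper` (`t0 = 0`, `a = 0`, `M = 1`,
`I = y + 1`) gives `nu ≤ C (y+1)/t`; this also gives the second bound when `t < σ + 3` (`t ≤ 4σ`).  If `σ + 3 ≤ t` then
`y ≤ 2^(3t-3) < p³`, so `m = π π'` with primes `p ≤ π ≤ π'`, `π² ≤ y` (so `t ≤ lv π ≤ t + σ`), `π' ≤ y/π`, `y/π ≥ π > 2^(t-1)`: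
by `primes_upper` and `mm_le` the count is `≤ ∑_π C (y/π)/((t-1) log 2) ≤ C' (y/t) (σ + 1) C/t`. -/
theorem nu_le (hP : PAP) : ∃ C : ℝ, 0 ≤ C ∧ ∀ y p σ : ℕ, p.Prime → 2 ≤ lv p → 1 ≤ σ →
    y ≤ 2 ^ (2 * lv p + σ) →
    (nu y p : ℝ) ≤ C * y * min (1 / (lv p : ℝ)) (σ / (lv p : ℝ) ^ 2) := by
  obtain ⟨C1, hC1, h1⟩ := sieve_upper hP 0
  obtain ⟨C2, hC2, h2⟩ := primes_upper
  obtain ⟨C3, hC3, h3⟩ := mm_le hP
  refine ⟨6 * C1 + 8 * C2 * C3, by positivity, fun y p σ hp ht hσ hy => ?_⟩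
  have ht0 : (2 : ℝ) ≤ lv p := by exact_mod_cast ht
  have hσ0 : (1 : ℝ) ≤ σ := by exact_mod_cast hσ
  have hy0 : (0 : ℝ) ≤ y := Nat.cast_nonneg y
  have hCC : 0 ≤ 8 * C2 * C3 := by positivity
  by_cases hyp : y < p ^ 2
  · rw [nu_eq_zero hyp, Nat.cast_zero]
    exact mul_nonneg (by positivity) (le_min (by positivity) (by positivity))
  have hpt : 2 ^ (lv p - 1) < p := two_pow_lv_pred_lt hp.two_le
  have hy1 : 2 ^ lv p ≤ y := by
    calc 2 ^ lv p ≤ 2 ^ ((lv p - 1) * 2) := Nat.pow_le_pow_right (by norm_num) (by omega)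
      _ = (2 ^ (lv p - 1)) ^ 2 := pow_mul _ _ _
      _ ≤ p ^ 2 := Nat.pow_le_pow_left hpt.le 2
      _ ≤ y := not_lt.1 hyp
  have hA : (nu y p : ℝ) ≤ 2 * C1 * y * (1 / lv p) := by
    have h4 := h1 (lv p) (y + 1) 1 0 (by omega) (by omega)
      (fun π hπ hd => (mem_PL.1 hπ).1.one_lt.ne' (Nat.dvd_one.1 hd))
    have h5 : nu y p ≤ ((range (y + 1)).filter (fun i : ℕ => ∀ π ∈ PL (0 + 1) (lv p - 1),
        ¬ (π : ℤ) ∣ 0 + (1 : ℕ) * i)).card := by
      refine card_le_card fun m hm => ?_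
      obtain ⟨hm1, -, h6⟩ := mem_filter.1 hm
      refine mem_filter.2 ⟨mem_range.2 (by have := (mem_Icc.1 hm1).2; omega), fun π hπ hd => ?_⟩
      obtain ⟨h7, -, h8⟩ := mem_PL.1 hπ
      refine h6 π h7 (lt_of_lv_lt (by omega)) ?_
      simpa [Int.natCast_dvd_natCast] using hd
    have h6 : (1 : ℝ) ≤ y := by
      have : 1 ≤ y := le_trans Nat.one_le_two_pow hy1
      exact_mod_cast this
    refine le_trans (by exact_mod_cast h5) (h4.trans ?_)
    rw [mul_one_div]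
    refine div_le_div_of_nonneg_right ?_ (by positivity)
    push_cast
    nlinarith
  rw [mul_min_of_nonneg _ _ (by positivity)]
  refine le_min (hA.trans (mul_le_mul_of_nonneg_right
    (mul_le_mul_of_nonneg_right (by linarith) hy0) (by positivity))) ?_
  by_cases hσt : σ + 3 ≤ lv p
  · exact (disc_two C2 C3 hC2 hC3 h2 h3 hp ht hσ hy hσt).trans (mul_le_mul_of_nonneg_right
      (mul_le_mul_of_nonneg_right (by linarith) hy0) (by positivity))
  · have h4 : (lv p : ℝ) ≤ 3 * σ := by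
      have : lv p ≤ 3 * σ := by omega
      exact_mod_cast this
    have h5 : 1 / (lv p : ℝ) ≤ 3 * (σ / (lv p : ℝ) ^ 2) := by
      rw [← mul_div_assoc, div_le_div_iff₀ (by positivity) (by positivity)]
      nlinarith
    calc (nu y p : ℝ) ≤ 2 * C1 * y * (3 * (σ / (lv p : ℝ) ^ 2)) :=
          hA.trans (mul_le_mul_of_nonneg_left h5 (by positivity))
      _ = 6 * C1 * y * (σ / (lv p : ℝ) ^ 2) := by ring
      _ ≤ _ := mul_le_mul_of_nonneg_right (mul_le_mul_of_nonneg_right (by linarith) hy0)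
          (by positivity)

/-- `d = p · pr g = pr (insert p g)` has an even number of prime factors, `lam d = 1`.  Write `n = d m`, `m ≤ x/d`.  If
`am t0 x n ≠ 0` then `lam m = 1` and `m` has no prime factor of level `≤ t0`; together with the condition on `SP t0 p` it
has no prime factor `< p`.  `am ≤ 2`; the term `m = 1` gives the summand `2`. -/
theorem disc_le {t0 Z T : ℕ} {z : ℕ × Finset ℕ} (hz : z ∈ BP t0 Z T) (x : ℕ) :
    ∑ n ∈ (Icc 1 x).filter (fun n : ℕ => ((z.1 * pr z.2 : ℕ) : ℤ) ∣ (n : ℤ) ∧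
        ∀ π ∈ SP t0 z.1, ¬ (π : ℤ) ∣ (n : ℤ)), am t0 x n
      ≤ 2 + 2 * nu (x / (z.1 * pr z.2)) z.1 := by
  obtain ⟨⟨hp, -, -⟩, hg, -, hodd, -, -⟩ := mem_BP.1 hz
  have hg' : ∀ π ∈ z.2, π.Prime := fun π hπ => (hg π hπ).1
  set d := z.1 * pr z.2 with hd
  have hd0 : 0 < d := Nat.mul_pos hp.pos (pr_pos hg')
  have hlam : lam d = 1 := by
    rw [hd, disc_lam_mul hp.ne_zero (pr_pos hg').ne', disc_lam_prime hp, disc_lam_pr _ hg',
      hodd.neg_one_pow]
    norm_num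
  set F := (Icc 1 x).filter (fun n : ℕ => ((d : ℕ) : ℤ) ∣ (n : ℤ) ∧
    ∀ π ∈ SP t0 z.1, ¬ (π : ℤ) ∣ (n : ℤ)) with hF
  have h1 : ∀ n, am t0 x n ≤ 2 := by
    intro n
    unfold am
    split_ifs
    · have h2 : phi x n ≤ 1 := by
        unfold phi
        have : x / n % 2 ≤ 1 := by omega
        exact_mod_cast this
      have h3 : 0 ≤ phi x n := Nat.cast_nonneg _
      rcases disc_lam_or n with h | h <;> rw [h] <;> linarith
    · norm_num
  have h2 : (F.filter (fun n => am t0 x n ≠ 0)).card ≤ 1 + nu (x / d) z.1 := by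
    rw [add_comm]
    refine le_trans (card_le_card_of_injOn (fun n => n / d) (t := insert 1 ((Icc 2 (x / d)).filter
      (fun m => lam m = 1 ∧ ∀ π : ℕ, π.Prime → π < z.1 → ¬ π ∣ m))) (fun n hn => ?_) ?_)
      (card_insert_le _ _)
    · obtain ⟨h3, h4⟩ := mem_filter.1 (mem_coe.1 hn)
      obtain ⟨h5, h6, h7⟩ := mem_filter.1 h3
      obtain ⟨h8, h9⟩ := mem_Icc.1 h5
      obtain ⟨m, rfl⟩ := Int.natCast_dvd_natCast.1 h6
      have hm0 : m ≠ 0 := by rintro rfl; simp at h8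
      simp only [Nat.mul_div_cancel_left m hd0, coe_insert, Set.mem_insert_iff, mem_coe]
      by_cases hm1 : m = 1
      · exact Or.inl hm1
      unfold am at h4
      have h10 : Nat.Coprime (d * m) (pr (PL 0 t0)) := by
        by_contra h; exact h4 (if_neg h)
      rw [if_pos h10, disc_lam_mul hd0.ne' hm0, hlam, one_mul] at h4
      refine Or.inr (mem_filter.2 ⟨mem_Icc.2 ⟨by omega, ?_⟩, ?_, fun π h11 h12 h13 => ?_⟩)
      · rw [Nat.le_div_iff_mul_le hd0, mul_comm]; exact h9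
      · exact (disc_lam_or m).resolve_right fun h => h4 (by rw [h]; ring)
      · by_cases h14 : t0 < lv π
        · exact h7 π (mem_SP.2 ⟨h11, h14, h12⟩) (Int.natCast_dvd_natCast.2 (h13.mul_left d))
        · have h15 : π ∣ pr (PL 0 t0) :=
            dvd_prod_of_mem _ (mem_PL.2 ⟨h11, Nat.zero_le _, not_lt.1 h14⟩)
          exact h11.one_lt.ne' (Nat.eq_one_of_dvd_coprimes h10 (h13.mul_left d) h15)
    · intro n hn n' hn' e
      have h3 := Int.natCast_dvd_natCast.1 (mem_filter.1 (mem_filter.1 (mem_coe.1 hn)).1).2.1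
      have h4 := Int.natCast_dvd_natCast.1 (mem_filter.1 (mem_filter.1 (mem_coe.1 hn')).1).2.1
      rw [← Nat.mul_div_cancel' h3, ← Nat.mul_div_cancel' h4]
      exact congrArg _ e
  rw [← sum_filter_ne_zero]
  refine (sum_le_card_nsmul _ _ 2 fun n _ => h1 n).trans ?_
  rw [nsmul_eq_mul]
  have h3 : ((F.filter (fun n => am t0 x n ≠ 0)).card : ℝ) ≤ 1 + nu (x / d) z.1 := by
    exact_mod_cast h2
  linarith

end Crest.Agent.R1
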