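import Crest.Agent.R1.SelApi

/-!
# R1 / EDefs : definitions for part E (rigidity)


-/

set_option autoImplicit false

noncomputable section

open scoped Classical

namespace Crest.Agent.R1

open Finset

/-- deviation of the number of multiples of `P e` (`e ∈ E`) among `ν, ν+1, …, ν+I-1` -/
def Dev (ν : ℤ) (I P : ℕ) (E : Finset ℕ) : ℝ :=
  ∑ e ∈ E, ((cnt ν I (P * e) : ℝ) - I / (P * e))

/-- the correlation sum bounding the variance of `Dev` -/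
def Cor (Y P : ℕ) (E : Finset ℕ) : ℝ :=
  ∑ e ∈ E, ∑ e' ∈ E, ∑ h ∈ Icc 1 Y, ∑ h' ∈ Icc 1 Y,
    if (P : ℤ) ∣ (h : ℤ) * e' - (h' : ℤ) * e ∨ (P : ℤ) ∣ (h : ℤ) * e' + (h' : ℤ) * e then
      1 / ((h : ℝ) * h') else 0

/-- remainder terms averaged over the low slots -/
def Rem (a0 : ℤ) (X j0 : ℕ) (J : Finset ℕ) (g : ℕ) : ℝ :=
  ∑ P ∈ B j0, ∑ e ∈ Sel J, ((cnt a0 X (g * P * pr e) : ℝ) - X / (g * P * pr e))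

/-- true contribution of the family with core `H` (smallest prime `p ∈ H`) -/
def STot (t0 : ℕ) (a0 : ℤ) (X j0 : ℕ) (J : Finset ℕ) (k1 k2 p : ℕ) (H : Finset ℕ) : ℝ :=
  ∑ w ∈ B k1, ∑ ρ ∈ B k2, ∑ P ∈ B j0, ∑ e ∈ Sel J,
    (Scnt t0 a0 X (pr H * w * ρ * P * pr e) p : ℝ)

/-- mass of the family with core `H` -/
def MTot (X j0 : ℕ) (J : Finset ℕ) (k1 k2 p : ℕ) (H : Finset ℕ) : ℝ :=
  ∑ w ∈ B k1, ∑ ρ ∈ B k2, ∑ P ∈ B j0, ∑ e ∈ Sel J,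
    (X : ℝ) / (pr H * w * ρ * P * pr e * lv p)

/-- admissible cores -/
def Core (t0 N A1 j0 : ℕ) (J : Finset ℕ) (k1 k2 : ℕ) (x : ℕ × Finset ℕ) : Prop :=
  x.1 ∈ x.2 ∧
  (∀ π ∈ x.2, π.Prime ∧ x.1 ≤ π ∧ lv π ≠ j0 ∧ lv π ∉ J ∧ lv π ≠ k1 ∧ lv π ≠ k2) ∧
  t0 < lv x.1 ∧ lv x.1 ≤ A1 * Lam N ∧
  2 * (sg x.2 + j0 + ∑ j ∈ J, j + k1 + k2) + 3 * lv x.1 ≤ 2 * N ∧
  N + (x.2.card + J.card + 3) ≤ sg x.2 + j0 + ∑ j ∈ J, j + k1 + k2 + A1 * Lam N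

end Crest.Agent.R1
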