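import Crest.Agent.R1.Basic1
import Crest.Agent.R19.Jacobsthal

/-!
# R1 / FL : Brun-Hooley weights (fundamental lemma in weight form)

Model: `Crest.Agent.R19.Sv.step` / `sv_small` (files `R19/Sieve`, `R19/Jacobsthal`), tools `R19.esym`, `trunc`,
`prod_le_trunc`, `trunc_sub_le`, `esym_le`, `sum_choose_le`, `sum_block_le`.

Say that `φ : (ℕ → ℝ) → ℝ` is *represented* on `P` with norm `Bn` and level `D` if there is `l : Finset ℕ → ℝ`
with `φ w = ∑ f ∈ P.powerset, l f * ∏ p ∈ f, w p` for all `w`, `∑ |l f| ≤ Bn`, and `l f ≠ 0 → pr f ≤ D`.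
Sums, negatives, and products over disjoint `P`, `Q` of represented functionals are represented
(`f ↦ l (f ∩ P) * l' (f ∩ Q)`; norms and levels multiply); `esym · Q i` is represented with norm
`choose |Q| i` and level `y^i` if all `p ∈ Q` are `≤ y`.
Blocks `Q_j = P ∩ (2^(2^j), 2^(2^(j+1))]` (first block `p ≤ 2`): `∑ g ≤ 2·4 = 8`, `∏ (1-g) ≥ e^{-16}`
(`1 - x ≥ e^{-2x}` on `[0,1/2]`).  Induct upwards with a parameter `s` that decreases by one in each step: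
`U' = trunc_n · U`, `W' = trunc_n · W - esym_{n+1} · U` with `n = n₀ + 2s` even and
`8^(n+1)/(n+1)! ≤ 2^{-(s+1)} e^{-16}` (`n₀ = 60` is plenty).  Invariants: for `w ∈ [0,1]`: `W ≤ ∏(1-w) ≤ U`;
for `g`: `(1 - 2^{-s}) U ≤ W` and `U ≤ (1 + 2·2^{-s}) ∏ (1-g)`.  Norm and level of the primes `≤ y = 2^(2^j)`
at parameter `s` are `≤ y^(a + 4 s)` for a constant `a`.  Finish with `s = 1` and `2^j ≤ 2 s₀`
(`s₀` = the `s` of the statement).
-/

set_option autoImplicit false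

noncomputable section

open scoped Classical

namespace Crest.Agent.R1

open Finset

open Crest.Agent.R19 (esym trunc)

/-- represented functionals -/
def FLRep (P : Finset ℕ) (φ : (ℕ → ℝ) → ℝ) (Bn D : ℕ) : Prop :=
  ∃ l : Finset ℕ → ℝ, (∀ w, φ w = ∑ f ∈ P.powerset, l f * ∏ p ∈ f, w p) ∧
    ∑ f ∈ P.powerset, |l f| ≤ Bn ∧ ∀ f ⊆ P, l f ≠ 0 → pr f ≤ D

theorem FLRep.mono {P : Finset ℕ} {φ : (ℕ → ℝ) → ℝ} {Bn D Bn' D' : ℕ} (h : FLRep P φ Bn D)
    (h1 : Bn ≤ Bn') (h2 : D ≤ D') : FLRep P φ Bn' D' := by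
  obtain ⟨l, a, b, c⟩ := h
  exact ⟨l, a, b.trans (by exact_mod_cast h1), fun f hf h => (c f hf h).trans h2⟩

theorem FLRep.add {P : Finset ℕ} {φ ψ : (ℕ → ℝ) → ℝ} {Bn Bn' D : ℕ} (h : FLRep P φ Bn D)
    (h' : FLRep P ψ Bn' D) (i : ℕ) : FLRep P (fun w => φ w + (-1) ^ i * ψ w) (Bn + Bn') D := by
  obtain ⟨l, a, b, c⟩ := h
  obtain ⟨l', a', b', c'⟩ := h'
  refine ⟨fun f => l f + (-1) ^ i * l' f, fun w => ?_, ?_, fun f hf h => ?_⟩
  · simp only [a, a', mul_sum, ← sum_add_distrib]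
    exact sum_congr rfl fun f _ => by ring
  · push_cast
    refine le_trans (sum_le_sum fun f _ => (abs_add_le _ _).trans_eq ?_)
      (sum_add_distrib.trans_le (add_le_add b b'))
    rw [abs_mul, abs_neg_one_pow, one_mul]
  · by_cases h1 : l f = 0
    · exact c' f hf fun h2 => h (by simp [h1, h2])
    · exact c f hf h1

theorem fl_sum_union {P Q : Finset ℕ} (h : Disjoint P Q) (F : Finset ℕ → Finset ℕ → ℝ) :
    ∑ f ∈ (P ∪ Q).powerset, F (f ∩ P) (f ∩ Q) = ∑ f ∈ P.powerset, ∑ g ∈ Q.powerset, F f g := by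
  rw [← sum_product']
  refine sum_nbij' (fun f => (f ∩ P, f ∩ Q)) (fun x => x.1 ∪ x.2) (fun f _ => ?_) (fun x hx => ?_)
    (fun f hf => ?_) (fun x hx => ?_) fun f _ => rfl
  · exact mem_product.2 ⟨mem_powerset.2 inter_subset_right, mem_powerset.2 inter_subset_right⟩
  · obtain ⟨a, b⟩ := mem_product.1 hx
    exact mem_powerset.2 (union_subset_union (mem_powerset.1 a) (mem_powerset.1 b))
  · rw [← inter_union_distrib_left, inter_eq_left.2 (mem_powerset.1 hf)]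
  · obtain ⟨a, b⟩ := mem_product.1 hx
    rw [mem_powerset] at a b
    rw [union_inter_distrib_right, union_inter_distrib_right, inter_eq_left.2 a, inter_eq_left.2 b,
      disjoint_iff_inter_eq_empty.1 (h.symm.mono_left b), disjoint_iff_inter_eq_empty.1 (h.mono_left a),
      union_empty, empty_union]

theorem FLRep.mul {P Q : Finset ℕ} {φ ψ : (ℕ → ℝ) → ℝ} {Bn Bn' D D' : ℕ} (h : FLRep P φ Bn D)
    (h' : FLRep Q ψ Bn' D') (hd : Disjoint P Q) :
    FLRep (P ∪ Q) (fun w => ψ w * φ w) (Bn' * Bn) (D' * D) := by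
  obtain ⟨l, a, b, c⟩ := h
  obtain ⟨l', a', b', c'⟩ := h'
  have hd' : ∀ f : Finset ℕ, Disjoint (f ∩ P) (f ∩ Q) := fun f => hd.mono inter_subset_right inter_subset_right
  have hu : ∀ f ⊆ P ∪ Q, f ∩ P ∪ f ∩ Q = f := fun f hf => by
    rw [← inter_union_distrib_left, inter_eq_left.2 hf]
  refine ⟨fun f => l (f ∩ P) * l' (f ∩ Q), fun w => ?_, ?_, fun f hf h => ?_⟩
  · beta_reduce
    rw [a, a', mul_comm, sum_mul_sum, ← fl_sum_union hd]
    refine sum_congr rfl fun f hf => ?_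
    conv_rhs => rw [show ∏ p ∈ f, w p = ∏ p ∈ f ∩ P ∪ f ∩ Q, w p by rw [hu f (mem_powerset.1 hf)],
      prod_union (hd' f)]
    ring
  · simp only [abs_mul]
    rw [fl_sum_union hd fun f g => |l f| * |l' g|, ← sum_mul_sum, Nat.cast_mul, mul_comm]
    exact mul_le_mul b' b (sum_nonneg fun _ _ => abs_nonneg _) (Nat.cast_nonneg _)
  · rw [← hu f hf, pr_union (hd' f), mul_comm]
    exact Nat.mul_le_mul (c' _ inter_subset_right (right_ne_zero_of_mul h))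
      (c _ inter_subset_right (left_ne_zero_of_mul h))

theorem fl_esym {Q : Finset ℕ} {y : ℕ} (hQ : ∀ p ∈ Q, p ≤ y) (i : ℕ) :
    FLRep Q (fun w => esym w Q i) (Q.card.choose i) (y ^ i) := by
  refine ⟨fun f => if f.card = i then 1 else 0, fun w => ?_, ?_, fun f hf h => ?_⟩
  · simp only [esym, powersetCard_eq_filter, sum_filter, boole_mul]
  · rw [← card_powersetCard, powersetCard_eq_filter, card_filter]
    push_cast
    exact sum_le_sum fun f _ => by split_ifs <;> simp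
  · have h1 : f.card = i := by
      by_contra h1
      exact h (if_neg h1)
    exact h1 ▸ prod_le_pow_card _ _ _ fun p hp => hQ p (hf hp)

theorem fl_trunc {Q : Finset ℕ} {y : ℕ} (hy : 1 ≤ y) (hQ : ∀ p ∈ Q, p ≤ y) (m : ℕ) :
    FLRep Q (fun w => trunc w Q m) (∑ i ∈ range (m + 1), Q.card.choose i) (y ^ m) := by
  induction m with
  | zero => simpa [R19.trunc_zero, R19.esym_zero] using fl_esym hQ 0
  | succ m ih =>
    simp only [R19.trunc_succ]
    rw [sum_range_succ]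
    exact (ih.mono le_rfl (Nat.pow_le_pow_right hy (Nat.le_succ m))).add (fl_esym hQ (m + 1)) (m + 1)

/-- upper and lower weights -/
def FLSv (P : Finset ℕ) (s D : ℕ) : Prop :=
  ∃ U W : (ℕ → ℝ) → ℝ, FLRep P U D D ∧ FLRep P W D D ∧
    (∀ w : ℕ → ℝ, (∀ p ∈ P, 0 ≤ w p ∧ w p ≤ 1) → W w ≤ ∏ p ∈ P, (1 - w p) ∧ ∏ p ∈ P, (1 - w p) ≤ U w) ∧
    ∀ g : ℕ → ℝ, (∀ p ∈ P, 0 ≤ g p ∧ g p ≤ 1 / 2 ∧ g p ≤ 2 / p) →
      (1 - (1 / 2) ^ s) * U g ≤ W g ∧ U g ≤ (1 + 2 * (1 / 2) ^ s) * ∏ p ∈ P, (1 - g p)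

theorem fl_empty (s : ℕ) : FLSv ∅ s 1 := by
  have h : FLRep ∅ (fun _ => 1) 1 1 := ⟨fun _ => 1, by simp, by simp, by simp [pr]⟩
  have : (0 : ℝ) ≤ (1 / 2) ^ s := by positivity
  exact ⟨_, _, h, h, by simp, fun g _ => ⟨by linarith, by rw [prod_empty]; linarith⟩⟩

theorem fl_tail (s : ℕ) :
    (8 : ℝ) ^ (40 + 2 * s + 1) / ((40 + 2 * s + 1).factorial : ℝ) ≤ (1 / 2) ^ (s + 1) * (1 / 6561) ^ 3 := by
  induction s with
  | zero => norm_num [Nat.factorial]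
  | succ s ih =>
    rw [show 40 + 2 * (s + 1) + 1 = 40 + 2 * s + 1 + 1 + 1 by ring]
    have hn : (41 : ℝ) ≤ (40 + 2 * s + 1 : ℕ) := by exact_mod_cast (by omega : 41 ≤ 40 + 2 * s + 1)
    generalize 40 + 2 * s + 1 = n at *
    rw [Nat.factorial_succ, Nat.factorial_succ]
    have hf : (0 : ℝ) < (n.factorial : ℝ) := by exact_mod_cast Nat.factorial_pos n
    have h2 : (64 : ℝ) / ((n + 1 + 1) * (n + 1)) ≤ 1 / 2 := by
      rw [div_le_iff₀ (by positivity)]; nlinarith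
    calc _ = (8 : ℝ) ^ n / (n.factorial : ℝ) * (64 / ((n + 1 + 1) * (n + 1))) := by
          push_cast; field_simp; ring
      _ ≤ (1 / 2) ^ (s + 1) * (1 / 6561) ^ 3 * (1 / 2) := by gcongr
      _ = _ := by ring

theorem FLSv.step {P Q : Finset ℕ} {s D y : ℕ} (h : FLSv P (s + 1) D) (hd : Disjoint P Q) (hy : 1 ≤ y)
    (hQ : ∀ p ∈ Q, p.Prime ∧ p ≤ y) (hsum : ∑ p ∈ Q, (1 / (p : ℝ)) ≤ 4) :
    FLSv (P ∪ Q) s (y ^ (40 + 2 * s + 1) * D) := by
  obtain ⟨U, W, h1, h2, h3, h4⟩ := h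
  have htail := fl_tail s
  have hev : Even (40 + 2 * s) := ⟨20 + s, by omega⟩
  generalize 40 + 2 * s = n at *
  have hQ2 := fun p hp => (hQ p hp).2
  have hch : ∑ i ∈ range (n + 1), Q.card.choose i + Q.card.choose (n + 1) ≤ y ^ (n + 1) := by
    rw [← sum_range_succ]
    exact (R19.sum_choose_le _ _).trans
      (Nat.pow_le_pow_left (by exact_mod_cast R19.card_succ_le Q y hy hQ) _)
  have hyn : y ^ n * D ≤ y ^ (n + 1) * D := Nat.mul_le_mul_right _ (Nat.pow_le_pow_right hy (Nat.le_succ n))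
  refine ⟨fun w => trunc w Q n * U w, fun w => trunc w Q n * W w + (-1) ^ 1 * (esym w Q (n + 1) * U w),
    (h1.mul (fl_trunc hy hQ2 n) hd).mono (Nat.mul_le_mul_right _ (by omega)) hyn,
    (((h2.mul (fl_trunc hy hQ2 n) hd).mono le_rfl hyn).add (h1.mul (fl_esym hQ2 (n + 1)) hd) 1).mono
      (by rw [← add_mul]; exact Nat.mul_le_mul_right _ hch) le_rfl, fun w hw => ?_, fun g hg => ?_⟩
  · have hw0 := fun p hp => (hw p (mem_union_right P hp)).1
    have hw1 := fun p hp => (hw p (mem_union_right P hp)).2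
    obtain ⟨a1, a2⟩ := h3 w fun p hp => hw p (mem_union_left _ hp)
    have b1 := R19.prod_le_trunc w Q hw0 hw1 n hev
    have b2 := R19.trunc_sub_le w Q hw0 hw1 n hev
    have b3 := R19.esym_nonneg w Q hw0 (n + 1)
    have c1 : 0 ≤ ∏ p ∈ P, (1 - w p) := prod_nonneg fun p hp => sub_nonneg.2 (hw p (mem_union_left _ hp)).2
    have c2 : 0 ≤ ∏ p ∈ Q, (1 - w p) := prod_nonneg fun p hp => sub_nonneg.2 (hw1 p hp)
    have hy := c2.trans b1
    rw [prod_union hd]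
    refine ⟨?_, (mul_comm _ _).trans_le (mul_le_mul b1 a2 c1 hy)⟩
    linarith [mul_le_mul_of_nonneg_left a1 hy, mul_le_mul_of_nonneg_left a2 b3,
      mul_le_mul_of_nonneg_right b2 c1]
  · have hg0 := fun p hp => (hg p (mem_union_right P hp)).1
    have hg2 := fun p hp => (hg p (mem_union_right P hp)).2.1
    have hg1 : ∀ p ∈ Q, g p ≤ 1 := fun p hp => by linarith [hg2 p hp]
    obtain ⟨a1, a2⟩ := h4 g fun p hp => hg p (mem_union_left _ hp)
    have hP : ∀ p ∈ P, 0 ≤ g p ∧ g p ≤ 1 := fun p hp =>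
      ⟨(hg p (mem_union_left _ hp)).1, by linarith [(hg p (mem_union_left _ hp)).2.1]⟩
    have c1 : 0 ≤ ∏ p ∈ P, (1 - g p) := prod_nonneg fun p hp => sub_nonneg.2 (hP p hp).2
    have c2 : 0 ≤ ∏ p ∈ Q, (1 - g p) := prod_nonneg fun p hp => sub_nonneg.2 (hg1 p hp)
    have hU : 0 ≤ U g := c1.trans (h3 g hP).2
    have hs : ∑ p ∈ Q, g p / 2 ≤ 4 := le_trans (sum_le_sum fun p hp => by
      have := (hg p (mem_union_right P hp)).2.2
      rw [show 2 / (p : ℝ) = 2 * (1 / p) by ring] at this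
      linarith) hsum
    have hY : (1 / 6561) ^ 3 ≤ ∏ p ∈ Q, (1 - g p) := by
      refine (pow_le_pow_left₀ (by norm_num) (R19.exp_le_prod (fun p => g p / 2) Q
        (fun p hp => by linarith [hg0 p hp]) (fun p hp => by linarith [hg1 p hp]) hs) 3).trans ?_
      rw [← prod_pow]
      refine prod_le_prod (fun p hp => pow_nonneg (by linarith [hg1 p hp]) 3) fun p hp => ?_
      have e1 := hg0 p hp
      have e2 := hg2 p hp
      nlinarith [mul_nonneg e1 e1, mul_nonneg e1 (mul_nonneg e1 e1)]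
    have ht : (0 : ℝ) ≤ (1 / 2) ^ (s + 1) := by positivity
    have ht1 : ((1 : ℝ) / 2) ^ (s + 1) ≤ 1 / 2 := pow_le_of_le_one (by norm_num) (by norm_num) (by omega)
    have hZ : esym g Q (n + 1) ≤ (1 / 2) ^ (s + 1) * ∏ p ∈ Q, (1 - g p) := by
      refine (R19.esym_le _ Q hg0 (n + 1)).trans (le_trans ?_ (htail.trans (mul_le_mul_of_nonneg_left hY ht)))
      have : 0 ≤ ∑ p ∈ Q, g p := sum_nonneg hg0
      rw [← sum_div] at hs
      gcongr
      linarith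
    have b1 := R19.prod_le_trunc g Q hg0 hg1 n hev
    have b2 := R19.trunc_sub_le g Q hg0 hg1 n hev
    rw [prod_union hd, show ((1 : ℝ) / 2) ^ s = 2 * (1 / 2) ^ (s + 1) by ring]
    generalize ((1 : ℝ) / 2) ^ (s + 1) = t at *
    constructor
    · linarith [mul_le_mul_of_nonneg_left a1 (c2.trans b1),
        mul_le_mul_of_nonneg_right (hZ.trans (mul_le_mul_of_nonneg_left b1 ht)) hU]
    · calc _ ≤ ((1 + t) * ∏ p ∈ Q, (1 - g p)) * ((1 + 2 * t) * ∏ p ∈ P, (1 - g p)) :=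
            mul_le_mul (by linarith) a2 hU (by positivity)
        _ = ((1 + t) * (1 + 2 * t)) * ((∏ p ∈ P, (1 - g p)) * ∏ p ∈ Q, (1 - g p)) := by ring
        _ ≤ _ := mul_le_mul_of_nonneg_right (by nlinarith) (mul_nonneg c1 c2)

theorem FLSv.mono {P : Finset ℕ} {s D D' : ℕ} (h : FLSv P s D) (hD : D ≤ D') : FLSv P s D' := by
  obtain ⟨U, W, h1, h2, h3⟩ := h
  exact ⟨U, W, h1.mono hD hD, h2.mono hD hD, h3⟩

theorem fl_small (P : Finset ℕ) (hP : ∀ p ∈ P, p.Prime) (j s : ℕ) :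
    FLSv (P.filter (fun p => p ≤ 2 ^ 2 ^ j)) s ((2 ^ 2 ^ j) ^ (86 + 4 * s)) := by
  induction j generalizing s with
  | zero =>
    have hQ : ∀ p ∈ P.filter (fun p => p ≤ 2 ^ 2 ^ 0), p.Prime ∧ p ≤ 2 ^ 2 ^ 0 := fun p hp =>
      ⟨hP p (mem_filter.1 hp).1, (mem_filter.1 hp).2⟩
    have := (fl_empty (s + 1)).step (disjoint_empty_left _) (by norm_num) hQ (by
      refine (sum_le_card_nsmul _ _ 1 fun p hp => ?_).trans ?_
      · exact div_le_self zero_le_one (by exact_mod_cast (hQ p hp).1.one_lt.le)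
      · have := R19.card_succ_le _ _ (by norm_num) hQ
        rw [nsmul_eq_mul, mul_one]
        exact le_trans (le_add_of_nonneg_right zero_le_one) (this.trans (by norm_num)))
    rw [empty_union, mul_one] at this
    exact this.mono (Nat.pow_le_pow_right (by norm_num) (by omega))
  | succ j ih =>
    have e : 2 ^ j + 2 ^ j = 2 ^ (j + 1) := by ring
    have := (ih (s + 1)).step (Q := P.filter (fun p => 2 ^ 2 ^ j < p ∧ p ≤ 2 ^ (2 ^ j + 2 ^ j)))
      (y := 2 ^ 2 ^ (j + 1))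
      (disjoint_left.2 fun p hp hp' => absurd (mem_filter.1 hp).2 (not_le.2 (mem_filter.1 hp').2.1))
      Nat.one_le_two_pow (fun p hp => ⟨hP p (mem_filter.1 hp).1, e ▸ (mem_filter.1 hp).2.2⟩)
      (R19.sum_block_le P hP (2 ^ j) (by positivity))
    have h2 : 2 ^ 2 ^ j ≤ 2 ^ 2 ^ (j + 1) :=
      Nat.pow_le_pow_right (by norm_num) (Nat.pow_le_pow_right (by norm_num) (by omega))
    rw [← filter_or, e, filter_congr (q := fun p => p ≤ 2 ^ 2 ^ (j + 1)) fun p _ => by omega] at this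
    refine this.mono (le_of_eq ?_)
    rw [← pow_mul, ← pow_mul, ← pow_mul, ← pow_add]
    congr 1
    ring

theorem exists_weights : ∃ u : ℕ, 1 ≤ u ∧ ∀ (s : ℕ) (P : Finset ℕ), 1 ≤ s →
    (∀ p ∈ P, p.Prime ∧ lv p ≤ s) → ∃ lm lp : Finset ℕ → ℝ,
      ∑ f ∈ P.powerset, |lm f| ≤ 2 ^ (u * s) ∧ ∑ f ∈ P.powerset, |lp f| ≤ 2 ^ (u * s) ∧
      (∀ f ⊆ P, lm f ≠ 0 → pr f ≤ 2 ^ (u * s)) ∧ (∀ f ⊆ P, lp f ≠ 0 → pr f ≤ 2 ^ (u * s)) ∧
      (∀ w : ℕ → ℝ, (∀ p ∈ P, 0 ≤ w p ∧ w p ≤ 1) →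
        ∑ f ∈ P.powerset, lm f * ∏ p ∈ f, w p ≤ ∏ p ∈ P, (1 - w p) ∧
        ∏ p ∈ P, (1 - w p) ≤ ∑ f ∈ P.powerset, lp f * ∏ p ∈ f, w p) ∧
      (∀ g : ℕ → ℝ, (∀ p ∈ P, 0 ≤ g p ∧ g p ≤ 1 / 2 ∧ g p ≤ 2 / p) →
        1 / 2 * ∏ p ∈ P, (1 - g p) ≤ ∑ f ∈ P.powerset, lm f * ∏ p ∈ f, g p ∧
        ∑ f ∈ P.powerset, lp f * ∏ p ∈ f, g p ≤ 3 * ∏ p ∈ P, (1 - g p)) := by
  refine ⟨180, by norm_num, fun s P hs hP => ?_⟩
  have h := fl_small P (fun p hp => (hP p hp).1) (Nat.log 2 s + 1) 1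
  rw [filter_true_of_mem fun p hp => (lv_le_iff.1 (hP p hp).2).trans
    (Nat.pow_le_pow_right (by norm_num) (Nat.lt_pow_succ_log_self (by norm_num) s).le)] at h
  obtain ⟨U, W, ⟨lp, a1, a2, a3⟩, ⟨lm, b1, b2, b3⟩, h3, h4⟩ := h.mono (D' := 2 ^ (180 * s)) (by
    rw [← pow_mul]
    refine Nat.pow_le_pow_right (by norm_num) ?_
    have := Nat.pow_log_le_self 2 (show s ≠ 0 by omega)
    rw [pow_succ]
    omega)
  refine ⟨lm, lp, by exact_mod_cast b2, by exact_mod_cast a2, b3, a3, fun w hw => ?_, fun g hg => ?_⟩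
  · rw [← a1, ← b1]
    exact h3 w hw
  · have hP : ∀ p ∈ P, 0 ≤ g p ∧ g p ≤ 1 := fun p hp => ⟨(hg p hp).1, by linarith [(hg p hp).2.1]⟩
    have c1 : 0 ≤ ∏ p ∈ P, (1 - g p) := prod_nonneg fun p hp => sub_nonneg.2 (hP p hp).2
    obtain ⟨c2, c3⟩ := h4 g hg
    rw [← a1, ← b1]
    constructor <;> linarith [(h3 g hP).2]

end Crest.Agent.R1
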