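import Crest.Agent.R1.EDefs
import Crest.Agent.R1.FL
import Crest.Agent.R1.Primes

/-!
# R1 / Tame : lower bound when the averaged remainders are small


-/

set_option autoImplicit false

noncomputable section

open scoped Classical

namespace Crest.Agent.R1

open Finset

theorem tame_point (t0 : ℕ) (a0 : ℤ) (X d p : ℕ) (hd : ∀ π ∈ SP t0 p, ¬ π ∣ d)
    (lm : Finset ℕ → ℝ) (h : ∀ w : ℕ → ℝ, (∀ π ∈ SP t0 p, 0 ≤ w π ∧ w π ≤ 1) →
      ∑ f ∈ (SP t0 p).powerset, lm f * ∏ π ∈ f, w π ≤ ∏ π ∈ SP t0 p, (1 - w π)) :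
    ∑ f ∈ (SP t0 p).powerset, lm f * (cnt a0 X (d * pr f) : ℝ) ≤ Scnt t0 a0 X d p := by
  set w : ℕ → ℕ → ℝ := fun j π => if (π : ℤ) ∣ a0 + j then 1 else 0 with hw
  have h1 : ∀ f ∈ (SP t0 p).powerset, (cnt a0 X (d * pr f) : ℝ) =
      ∑ j ∈ range X, if (d : ℤ) ∣ a0 + j then ∏ π ∈ f, w j π else 0 := by
    intro f hf
    have hf' := mem_powerset.1 hf
    have hp : ∀ π ∈ f, π.Prime := fun π hπ => (mem_SP.1 (hf' hπ)).1
    have hc : IsCoprime (d : ℤ) (pr f : ℕ) :=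
      Nat.isCoprime_iff_coprime.2 (coprime_pr hp fun π hπ => hd π (hf' hπ))
    rw [cnt, card_filter]
    push_cast
    refine sum_congr rfl fun j _ => ?_
    simp only [hw]
    rw [prod_boole]
    have : (d : ℤ) * (pr f : ℕ) ∣ a0 + j ↔ (d : ℤ) ∣ a0 + j ∧ ∀ π ∈ f, (π : ℤ) ∣ a0 + j := by
      rw [← pr_dvd_iff hp]
      exact ⟨fun h => ⟨dvd_of_mul_right_dvd h, dvd_of_mul_left_dvd h⟩, fun h => hc.mul_dvd h.1 h.2⟩
    by_cases a : (d : ℤ) ∣ a0 + j <;> by_cases b : ∀ π ∈ f, (π : ℤ) ∣ a0 + j <;> simp [this, a, b]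
  have h2 : (Scnt t0 a0 X d p : ℝ) =
      ∑ j ∈ range X, if (d : ℤ) ∣ a0 + j then ∏ π ∈ SP t0 p, (1 - w j π) else 0 := by
    rw [Scnt, card_filter]
    push_cast
    refine sum_congr rfl fun j _ => ?_
    have : ∏ π ∈ SP t0 p, (1 - w j π) = ∏ π ∈ SP t0 p, if ¬ (π : ℤ) ∣ a0 + j then (1 : ℝ) else 0 :=
      prod_congr rfl fun π _ => by simp only [hw]; split_ifs <;> simp
    rw [this, prod_boole]
    by_cases a : (d : ℤ) ∣ a0 + j <;> by_cases b : ∀ π ∈ SP t0 p, ¬ (π : ℤ) ∣ a0 + j <;>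
      simp only [a, b, true_and, false_and, if_true, if_false, not_false_eq_true, implies_true]
  rw [h2, sum_congr rfl fun f hf => by rw [h1 f hf, mul_sum], sum_comm]
  refine sum_le_sum fun j _ => ?_
  split_ifs with a
  · exact h _ fun π _ => by simp only [hw]; split_ifs <;> norm_num
  · simp

/-- `lm` from `exists_weights` for `P = SP t0 p`, `s = t = lv p`.  For `d = g P (pr e)`:
`Scnt = ∑_{j, d ∣ a0+j} ∏_π (1 - 1[π ∣ a0+j]) ≥ ∑_f lm f · cnt a0 X (d · pr f)` (`d` is coprime to `pr f`: the primes of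
`SP t0 p` have level `≤ lv p < j0, j`) `= (X/d) ∑ lm f/pr f + ∑ lm f · r(d pr f)`, where
`∑ lm f ∏ 1/π ≥ ½ ∏ (1 - 1/π) ≥ c₁/(2t)` (`prod_lower`; primes of level `≥ 2` are `≥ 3`).  Summing over `P, e` the
error is `|∑_f lm f · Rem (g · pr f)| ≤ E0 |B||Sel|/E0² ≤ (1/E0) ∑ X/(d t)`.  Take `c = c₁/4`. -/
theorem tame_lower (hP : PAP) : ∃ (u : ℕ) (c : ℝ), 1 ≤ u ∧ 0 < c ∧ ∀ t0 : ℕ, 1 ≤ t0 →
    ∀ (a0 : ℤ) (X j0 g p E0 : ℕ) (J : Finset ℕ), 1 ≤ lv p → 2 ^ (u * lv p) ≤ E0 → 1 ≤ c * E0 →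
    lv p < j0 → (∀ j ∈ J, lv p < j) → 1 ≤ g → (∀ π ∈ SP t0 p, ¬ π ∣ g) →
    (∀ P ∈ B j0, ∀ e ∈ Sel J, g * P * pr e * lv p ≤ X) →
    (∀ f : ℕ, 1 ≤ f → f ≤ E0 →
      |Rem a0 X j0 J (g * f)| ≤ ((B j0).card : ℝ) * (Sel J).card / (E0 : ℝ) ^ 2) →
    c * ∑ P ∈ B j0, ∑ e ∈ Sel J, (X : ℝ) / (g * P * pr e * lv p)
      ≤ ∑ P ∈ B j0, ∑ e ∈ Sel J, (Scnt t0 a0 X (g * P * pr e) p : ℝ) := by
  obtain ⟨u, hu, hw⟩ := exists_weights
  obtain ⟨c1, hc1, hprod⟩ := prod_lower hP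
  refine ⟨u, c1 / 4, hu, by positivity, ?_⟩
  intro t0 ht0 a0 X j0 g p E0 J ht hE hcE hj0 hJ hg hgd hX hRem
  have hSP : ∀ π ∈ SP t0 p, π.Prime ∧ 3 ≤ π ∧ lv π ≤ lv p := fun π hπ => by
    obtain ⟨a, b, c⟩ := mem_SP.1 hπ
    refine ⟨a, ?_, lv_mono c.le⟩
    have : 2 ^ 1 < π := lt_lv_iff.1 (by omega)
    omega
  obtain ⟨lm, lp, hl1, -, hl2, -, hl3, hl4⟩ :=
    hw (lv p) (SP t0 p) ht fun π hπ => ⟨(hSP π hπ).1, (hSP π hπ).2.2⟩
  have ht' : (1 : ℝ) ≤ lv p := by exact_mod_cast ht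
  have hE1 : (1 : ℝ) ≤ E0 := by exact_mod_cast (Nat.one_le_two_pow).trans hE
  -- the main term
  have hmain : c1 / 2 / lv p ≤ ∑ f ∈ (SP t0 p).powerset, lm f * wt f := by
    have h1 := (hl4 (fun π => 1 / (π : ℝ)) fun π hπ => by
      have h3 : (3 : ℝ) ≤ π := by exact_mod_cast (hSP π hπ).2.1
      refine ⟨by positivity, one_div_le_one_div_of_le (by norm_num) (by linarith), ?_⟩
      gcongr; norm_num).1
    have h2 := hprod (lv p) ht (SP t0 p) hSP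
    have h3 : ∏ π ∈ SP t0 p, (1 - 1 / ((π : ℝ) - 1)) ≤ ∏ π ∈ SP t0 p, (1 - 1 / (π : ℝ)) := by
      refine prod_le_prod (fun π hπ => ?_) fun π hπ => ?_
      · have h3 : (3 : ℝ) ≤ π := by exact_mod_cast (hSP π hπ).2.1
        rw [sub_nonneg, div_le_one (by linarith)]; linarith
      · have h3 : (3 : ℝ) ≤ π := by exact_mod_cast (hSP π hπ).2.1
        have := one_div_le_one_div_of_le (show (0 : ℝ) < π - 1 by linarith)
          (show (π : ℝ) - 1 ≤ π by linarith)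
        linarith
    calc c1 / 2 / lv p = 1 / 2 * (c1 / lv p) := by ring
      _ ≤ 1 / 2 * ∏ π ∈ SP t0 p, (1 - 1 / (π : ℝ)) := by gcongr; exact h2.trans h3
      _ ≤ _ := h1
  have hpos : ∀ P ∈ B j0, ∀ e ∈ Sel J, 0 < g * P * pr e := fun P hP e he =>
    Nat.mul_pos (Nat.mul_pos hg (mem_B.1 hP).1.pos) (pr_pos fun π hπ => ((mem_Sel.1 he).1 π hπ).1)
  have hnd : ∀ P ∈ B j0, ∀ e ∈ Sel J, ∀ π ∈ SP t0 p, ¬ π ∣ g * P * pr e := by
    intro P hP e he π hπ h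
    obtain ⟨a, -, c⟩ := hSP π hπ
    rcases (Nat.Prime.dvd_mul a).1 h with h | h
    · rcases (Nat.Prime.dvd_mul a).1 h with h | h
      · exact hgd π hπ h
      · have := (Nat.prime_dvd_prime_iff_eq a (mem_B.1 hP).1).1 h
        have h2 := (mem_B.1 hP).2
        subst this; omega
    · have h1 := (prime_dvd_pr (fun π hπ => ((mem_Sel.1 he).1 π hπ).1) a).1 h
      have := hJ _ ((mem_Sel.1 he).1 π h1).2
      omega
  set M := ∑ P ∈ B j0, ∑ e ∈ Sel J, (X : ℝ) / (g * P * pr e * lv p) with hM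
  have hK : ((B j0).card : ℝ) * (Sel J).card ≤ M := by
    calc ((B j0).card : ℝ) * (Sel J).card = ∑ P ∈ B j0, ∑ e ∈ Sel J, (1 : ℝ) := by simp
      _ ≤ M := by
        refine sum_le_sum fun P hP => sum_le_sum fun e he => ?_
        have h1 : (0 : ℝ) < g * P * pr e := by exact_mod_cast hpos P hP e he
        rw [one_le_div (by positivity)]
        exact_mod_cast hX P hP e he
  have hM0 : 0 ≤ M := le_trans (by positivity) hK
  -- the error term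
  have herr : |∑ f ∈ (SP t0 p).powerset, lm f * Rem a0 X j0 J (g * pr f)| ≤ c1 / 4 * M := by
    calc _ ≤ ∑ f ∈ (SP t0 p).powerset, |lm f * Rem a0 X j0 J (g * pr f)| := abs_sum_le_sum_abs _ _
      _ ≤ ∑ f ∈ (SP t0 p).powerset,
            |lm f| * (((B j0).card : ℝ) * (Sel J).card / (E0 : ℝ) ^ 2) := by
          refine sum_le_sum fun f hf => ?_
          rw [abs_mul]
          by_cases h0 : lm f = 0
          · simp [h0]
          · have hf' := mem_powerset.1 hf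
            exact mul_le_mul_of_nonneg_left (hRem _ (pr_pos fun π hπ => (hSP π (hf' hπ)).1)
              ((hl2 f hf' h0).trans hE)) (abs_nonneg _)
      _ = (∑ f ∈ (SP t0 p).powerset, |lm f|) *
            (((B j0).card : ℝ) * (Sel J).card / (E0 : ℝ) ^ 2) := by rw [sum_mul]
      _ ≤ E0 * (M / (E0 : ℝ) ^ 2) := by
          gcongr
          exact hl1.trans (by exact_mod_cast hE)
      _ = 1 * (M / E0) := by field_simp
      _ ≤ c1 / 4 * E0 * (M / E0) := by gcongr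
      _ = _ := by field_simp
  have hsum : ∑ P ∈ B j0, ∑ e ∈ Sel J, ∑ f ∈ (SP t0 p).powerset,
        lm f * (cnt a0 X (g * P * pr e * pr f) : ℝ) =
      ∑ f ∈ (SP t0 p).powerset, lm f * Rem a0 X j0 J (g * pr f) +
      ∑ P ∈ B j0, ∑ e ∈ Sel J, (X : ℝ) / (g * P * pr e) *
        ∑ f ∈ (SP t0 p).powerset, lm f * wt f := by
    simp only [Rem, mul_sum]
    rw [sum_comm (s := (SP t0 p).powerset), ← sum_add_distrib]
    refine sum_congr rfl fun P _ => ?_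
    rw [sum_comm (s := (SP t0 p).powerset), ← sum_add_distrib]
    refine sum_congr rfl fun e _ => ?_
    rw [← sum_add_distrib]
    refine sum_congr rfl fun f _ => ?_
    rw [show g * pr f * P * pr e = g * P * pr e * pr f by ring, wt_eq]
    push_cast
    ring
  have hlow : c1 / 2 * M ≤ ∑ P ∈ B j0, ∑ e ∈ Sel J, (X : ℝ) / (g * P * pr e) *
        ∑ f ∈ (SP t0 p).powerset, lm f * wt f := by
    rw [hM, mul_sum]
    refine sum_le_sum fun P hP => ?_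
    rw [mul_sum]
    refine sum_le_sum fun e he => ?_
    calc c1 / 2 * ((X : ℝ) / (g * P * pr e * lv p)) = (X : ℝ) / (g * P * pr e) * (c1 / 2 / lv p) := by
          ring
      _ ≤ _ := by gcongr
  have hS : ∑ P ∈ B j0, ∑ e ∈ Sel J, ∑ f ∈ (SP t0 p).powerset,
        lm f * (cnt a0 X (g * P * pr e * pr f) : ℝ) ≤
      ∑ P ∈ B j0, ∑ e ∈ Sel J, (Scnt t0 a0 X (g * P * pr e) p : ℝ) :=
    sum_le_sum fun P hP => sum_le_sum fun e he =>
      tame_point t0 a0 X _ p (hnd P hP e he) lm fun w hw => (hl3 w hw).1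
  have := (abs_le.1 herr).1
  linarith

end Crest.Agent.R1
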