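import Crest.Agent.R1.ENear
import Crest.Agent.R1.Tame
import Crest.Agent.R1.Dich

/-!
# R1 / EH : the trichotomy for one core

Let `c_t, u` be from `tame_lower`, `c_n, C, κ0, V0` from `near_case`, `δ = min (1/10) (c_n/(18 C))`,
`c2 = min (δ c_t) (c_n/2)`.  For `(w, ρ) ∈ B k1 ×ˢ B k2` let `g = pr H · w · ρ`,
`M(w,ρ) = ∑_{P,e} X/(g P pr e t) = Φ/(wρ)` with `Φ ≥ 0` independent of `(w,ρ)`; `MTot = Φ m₁ m₂`.
Call `(w,ρ)` *tame* if all `f ∈ [1,E0]` have small `Rem (g f)`, *exceptional* if some `g f ∈ U`.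
* If the tame pairs have `∑ 1/(wρ) ≥ δ m₁ m₂`: `tame_lower` gives `STot ≥ c_t δ MTot`
  (`g P pr e t ≤ 2^(σ) 2^t ≤ X` from `Core`).
* If the exceptional pairs have `∑ 1/(wρ) ≥ δ m₁ m₂` then `δ MTot ≤ Exc`, and `c2 ≤ c_t δ`, so the left side is
  `≤ 0` once the coefficient of `Exc` is `≥ c_t`.
* Otherwise the remaining pairs have mass `> (1 - 2δ) m₁ m₂`; by `hfar` each has `β ∈ 𝔅` with `g ∣ g f ∣ b - q a0`.
  Choose `red β` by `reduce_beta`, let `𝔅'` be the image under `red` of `{β ∈ 𝔅 : pr H ∣ b - q a0}`;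
  `w, ρ > 2^(2V) ≥ q` are aligned for `red β`.  `aligned_sum` with `S` (`|b q' - b' q| ≤ 2^(N+4V+2)`) and `hS`
  give the hypotheses of `dich`; then `near_case`.
-/

set_option autoImplicit false

noncomputable section

open scoped Classical

namespace Crest.Agent.R1

open Finset

/-- the mass of the exceptional pairs -/
def Exc (X j0 : ℕ) (J : Finset ℕ) (k1 k2 E0 : ℕ) (U : Finset ℕ) (p : ℕ) (H : Finset ℕ) : ℝ :=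
  ∑ y ∈ (B k1 ×ˢ B k2).filter (fun y => ∃ f, 1 ≤ f ∧ f ≤ E0 ∧ pr H * y.1 * y.2 * f ∈ U),
    ∑ P ∈ B j0, ∑ e ∈ Sel J, (X : ℝ) / (pr H * y.1 * y.2 * P * pr e * lv p)

theorem eh_sum_le3 {α : Type} (W A1 A2 A3 : Finset α) (f : α → ℝ) (hf : ∀ y, 0 ≤ f y)
    (h : ∀ y ∈ W, y ∈ A1 ∨ y ∈ A2 ∨ y ∈ A3) :
    ∑ y ∈ W, f y ≤ ∑ y ∈ A1, f y + ∑ y ∈ A2, f y + ∑ y ∈ A3, f y := by
  have hu : ∀ A B : Finset α, ∑ y ∈ A ∪ B, f y ≤ ∑ y ∈ A, f y + ∑ y ∈ B, f y := fun A B => by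
    rw [← sum_union_inter]
    exact le_add_of_nonneg_right (sum_nonneg fun y _ => hf y)
  calc ∑ y ∈ W, f y ≤ ∑ y ∈ A1 ∪ A2 ∪ A3, f y :=
        sum_le_sum_of_subset_of_nonneg (fun y hy => by
          simpa [mem_union, or_assoc] using h y hy) fun y _ _ => hf y
    _ ≤ _ := (hu _ _).trans (add_le_add_left (hu _ _) _)

theorem eh_big {k V w : ℕ} (hw : w ∈ B k) (hV : 1 ≤ V) (hk : 5 * V ≤ k) : 2 ^ (2 * V) < w := by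
  obtain ⟨h1, h2⟩ := mem_B.1 hw
  exact lt_lv_iff.1 (by omega)

set_option maxHeartbeats 800000 in
theorem core_lower (hP : PAP) : ∃ (t1 κ0 V0 u : ℕ), 5 ≤ κ0 ∧ 1 ≤ u ∧ ∀ t0 ≥ t1, ∃ c2 C2 δ : ℝ,
    0 < c2 ∧ 0 ≤ C2 ∧ 0 < δ ∧ ∀ V ≥ V0, ∀ (a0 : ℤ) (N A1 j0 k1 k2 E0 S : ℕ) (J : Finset ℕ)
    (𝔅 : Finset (ℤ × ℕ)) (U : Finset ℕ) (x : ℕ × Finset ℕ),
    Core t0 N A1 j0 J k1 k2 x → lv x.1 < j0 → (∀ j ∈ J, j0 < j) → j0 + ∑ j ∈ J, j ≤ V →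
    κ0 * lv x.1 ≤ V → 1 ≤ V → κ0 * V ≤ k1 → k1 < k2 → 2 ^ (u * lv x.1) ≤ E0 → 1 ≤ c2 * E0 →
    (∀ β ∈ 𝔅, 1 ≤ β.2 ∧ β.2 ≤ 2 ^ (2 * V) ∧ |β.1| ≤ 2 ^ (N + 2 * V + 1)) →
    N + 4 * V + 2 ≤ (k1 - 1) * S →
    ((𝔅.card : ℝ) ^ 2 * S / 2 ^ (k1 - 1) ≤ δ * mm k1 ∧ (𝔅.card : ℝ) ^ 2 * S / 2 ^ (k2 - 1) ≤ δ * mm k2) →
    (∀ w ∈ B k1, ∀ ρ ∈ B k2, ∀ f : ℕ, 1 ≤ f → f ≤ E0 →
      |Rem a0 (2 ^ N) j0 J (pr x.2 * w * ρ * f)| ≤ ((B j0).card : ℝ) * (Sel J).card / (E0 : ℝ) ^ 2 ∨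
        pr x.2 * w * ρ * f ∈ U ∨ ∃ β ∈ 𝔅, ((pr x.2 * w * ρ * f : ℕ) : ℤ) ∣ β.1 - β.2 * a0) →
    c2 * MTot (2 ^ N) j0 J k1 k2 x.1 x.2 - C2 * Exc (2 ^ N) j0 J k1 k2 E0 U x.1 x.2
      ≤ STot t0 a0 (2 ^ N) j0 J k1 k2 x.1 x.2 := by
  obtain ⟨u, ct, hu, hct, htame⟩ := tame_lower hP
  obtain ⟨t1, κ0, V0, cn, hκ0, hcn, hnear⟩ := near_case hP
  refine ⟨t1 + 1, κ0, V0, u, hκ0, hu, fun t0 ht0 => ?_⟩
  obtain ⟨C, hC, hnear⟩ := hnear t0 (by omega)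
  obtain ⟨δ, hδ0, hδ1, hδ2⟩ : ∃ δ : ℝ, 0 < δ ∧ δ ≤ 1 / 10 ∧ 9 * C * δ ≤ cn / 2 := by
    refine ⟨min (1 / 10) (cn / (18 * C)), lt_min (by norm_num) (by positivity), min_le_left _ _, ?_⟩
    have : min (1 / 10) (cn / (18 * C)) ≤ cn / (18 * C) := min_le_right _ _
    rw [le_div_iff₀ (by positivity)] at this
    linarith
  refine ⟨min (δ * ct) (cn / 2), ct, δ, lt_min (by positivity) (by positivity), hct.le, hδ0, ?_⟩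
  intro V hV a0 N A1 j0 k1 k2 E0 S J 𝔅 U x hx hj0 hJ hV1 hV2 hV3 hk1 hk hE0 hE1 h𝔅 hS hov hfar
  have hc1 : min (δ * ct) (cn / 2) ≤ δ * ct := min_le_left _ _
  have hc2 : min (δ * ct) (cn / 2) ≤ cn / 2 := min_le_right _ _
  generalize min (δ * ct) (cn / 2) = c2 at *
  have h5V : 5 * V ≤ k1 := (Nat.mul_le_mul_right V hκ0).trans hk1
  have hVp : lv x.1 ≤ V := by
    have := Nat.mul_le_mul_right (lv x.1) hκ0
    omega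
  obtain ⟨p, H⟩ := x
  have hx' := hx
  obtain ⟨hpH, hH, hp0, -, hsz, -⟩ := hx'
  simp only at hpH hH hp0 hsz hj0 hV2 hE0 hfar hVp ⊢
  have hHp : ∀ π ∈ H, π.Prime := fun π hπ => (hH π hπ).1
  set W := B k1 ×ˢ B k2 with hW
  set μ : ℕ → ℝ := fun n => 1 / (n : ℝ) with hμ
  have hμ0 : ∀ n, 0 ≤ μ n := fun n => by simp only [hμ]; positivity
  set Φ : ℝ := ∑ P ∈ B j0, ∑ e ∈ Sel J, ((2 ^ N : ℕ) : ℝ) / (pr H * P * pr e * lv p) with hΦ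
  have hΦ0 : 0 ≤ Φ := sum_nonneg fun _ _ => sum_nonneg fun _ _ => by positivity
  have hMw : ∀ y : ℕ × ℕ, ∑ P ∈ B j0, ∑ e ∈ Sel J,
      ((2 ^ N : ℕ) : ℝ) / (pr H * y.1 * y.2 * P * pr e * lv p) = Φ * (μ y.1 * μ y.2) := by
    intro y
    rw [hΦ, sum_mul]
    refine sum_congr rfl fun P _ => ?_
    rw [sum_mul]
    refine sum_congr rfl fun e _ => ?_
    simp only [hμ, div_eq_mul_inv, mul_inv]
    ring
  have hmW : ∑ y ∈ W, μ y.1 * μ y.2 = mm k1 * mm k2 := by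
    rw [hW, sum_product, mm, mm, sum_mul_sum]
  have hM : MTot (2 ^ N) j0 J k1 k2 p H = Φ * (mm k1 * mm k2) := by
    rw [← hmW, mul_sum, hW, sum_product, MTot]
    exact sum_congr rfl fun w _ => sum_congr rfl fun ρ _ => hMw (w, ρ)
  have hmm : 0 ≤ mm k1 * mm k2 := mul_nonneg (mm_nonneg _) (mm_nonneg _)
  have hM0 : 0 ≤ MTot (2 ^ N) j0 J k1 k2 p H := by rw [hM]; positivity
  set Ex := W.filter (fun y => ∃ f, 1 ≤ f ∧ f ≤ E0 ∧ pr H * y.1 * y.2 * f ∈ U) with hEx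
  have hE : Exc (2 ^ N) j0 J k1 k2 E0 U p H = Φ * ∑ y ∈ Ex, μ y.1 * μ y.2 := by
    rw [mul_sum, Exc]
    exact sum_congr rfl fun y _ => hMw y
  have hE0' : 0 ≤ Exc (2 ^ N) j0 J k1 k2 E0 U p H := by
    rw [hE]
    exact mul_nonneg hΦ0 (sum_nonneg fun y _ => mul_nonneg (hμ0 _) (hμ0 _))
  have hS0 : 0 ≤ STot t0 a0 (2 ^ N) j0 J k1 k2 p H :=
    sum_nonneg fun _ _ => sum_nonneg fun _ _ => sum_nonneg fun _ _ => sum_nonneg fun _ _ => by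
      positivity
  set Ta := W.filter (fun y => ∀ f : ℕ, 1 ≤ f → f ≤ E0 →
    |Rem a0 (2 ^ N) j0 J (pr H * y.1 * y.2 * f)|
      ≤ ((B j0).card : ℝ) * (Sel J).card / (E0 : ℝ) ^ 2) with hTa
  by_cases h1 : δ * (mm k1 * mm k2) ≤ ∑ y ∈ Ta, μ y.1 * μ y.2
  · have a1 : ∑ y ∈ Ta, ct * (Φ * (μ y.1 * μ y.2)) ≤ STot t0 a0 (2 ^ N) j0 J k1 k2 p H := by
      rw [STot, ← sum_product' (f := fun w ρ => ∑ P ∈ B j0, ∑ e ∈ Sel J,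
        (Scnt t0 a0 (2 ^ N) (pr H * w * ρ * P * pr e) p : ℝ))]
      refine le_trans (sum_le_sum fun y hy => ?_) (sum_le_sum_of_subset_of_nonneg
        (filter_subset _ W) fun _ _ _ => sum_nonneg fun _ _ => sum_nonneg fun _ _ => by positivity)
      obtain ⟨hyW, hy⟩ := mem_filter.1 hy
      obtain ⟨hy1, hy2⟩ := mem_product.1 hyW
      obtain ⟨hw1, hw2⟩ := mem_B.1 hy1
      obtain ⟨hr1, hr2⟩ := mem_B.1 hy2
      have := htame t0 (by omega) a0 (2 ^ N) j0 (pr H * y.1 * y.2) p E0 J (by omega) hE0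
        (hE1.trans (mul_le_mul_of_nonneg_right (by nlinarith) (Nat.cast_nonneg _))) hj0
        (fun j hj => hj0.trans (hJ j hj))
        (Nat.mul_pos (Nat.mul_pos (pr_pos hHp) hw1.pos) hr1.pos) (fun π hπ hd => ?_)
        (fun P hP' e he => ?_) hy
      · rw [← hMw y]
        push_cast at this ⊢
        exact this
      · obtain ⟨q1, -, q3⟩ := mem_SP.1 hπ
        have q4 := lv_mono q3.le
        rcases (Nat.Prime.dvd_mul q1).1 hd with hd | hd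
        · rcases (Nat.Prime.dvd_mul q1).1 hd with hd | hd
          · have := (hH π ((prime_dvd_pr hHp q1).1 hd)).2.1
            omega
          · rw [(Nat.prime_dvd_prime_iff_eq q1 hw1).1 hd] at q4
            omega
        · rw [(Nat.prime_dvd_prime_iff_eq q1 hr1).1 hd] at q4
          omega
      · have b1 := pr_le H
        have b2 := le_two_pow_lv y.1
        have b3 := le_two_pow_lv y.2
        have b4 := le_two_pow_lv P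
        have b5 := pr_le e
        have b6 : lv p ≤ 2 ^ lv p := Nat.lt_two_pow_self.le
        rw [hw2] at b2
        rw [hr2] at b3
        rw [(mem_B.1 hP').2] at b4
        rw [sg_of_mem_Sel he] at b5
        calc pr H * y.1 * y.2 * P * pr e * lv p
            ≤ 2 ^ sg H * 2 ^ k1 * 2 ^ k2 * 2 ^ j0 * 2 ^ (∑ j ∈ J, j) * 2 ^ lv p := by gcongr
          _ = 2 ^ (sg H + k1 + k2 + j0 + ∑ j ∈ J, j + lv p) := by simp only [pow_add]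
          _ ≤ 2 ^ N := Nat.pow_le_pow_right (by norm_num) (by omega)
    rw [← mul_sum, ← mul_sum] at a1
    have a2 : ct * (Φ * (δ * (mm k1 * mm k2))) ≤ ct * (Φ * ∑ y ∈ Ta, μ y.1 * μ y.2) := by gcongr
    have a3 : c2 * MTot (2 ^ N) j0 J k1 k2 p H ≤ δ * ct * MTot (2 ^ N) j0 J k1 k2 p H :=
      mul_le_mul_of_nonneg_right hc1 hM0
    have a4 : δ * ct * MTot (2 ^ N) j0 J k1 k2 p H = ct * (Φ * (δ * (mm k1 * mm k2))) := by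
      rw [hM]; ring
    have a5 := mul_nonneg hct.le hE0'
    linarith
  by_cases h2 : δ * (mm k1 * mm k2) ≤ ∑ y ∈ Ex, μ y.1 * μ y.2
  · have a2 : ct * (Φ * (δ * (mm k1 * mm k2))) ≤ ct * (Φ * ∑ y ∈ Ex, μ y.1 * μ y.2) := by gcongr
    have a3 : c2 * MTot (2 ^ N) j0 J k1 k2 p H ≤ δ * ct * MTot (2 ^ N) j0 J k1 k2 p H :=
      mul_le_mul_of_nonneg_right hc1 hM0
    have a4 : δ * ct * MTot (2 ^ N) j0 J k1 k2 p H = ct * (Φ * (δ * (mm k1 * mm k2))) := by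
      rw [hM]; ring
    rw [hE]
    linarith
  have hred : ∀ β : ℤ × ℕ, ∃ β' : ℤ × ℕ, 1 ≤ β.2 → 1 ≤ β'.2 ∧
      IsCoprime β'.1 (β'.2 : ℤ) ∧ β'.2 ≤ β.2 ∧ |β'.1| ≤ |β.1| ∧
      (∀ π : ℕ, π.Prime → β.2 < π → (π : ℤ) ∣ β.1 - β.2 * a0 → (π : ℤ) ∣ β'.1 - β'.2 * a0) ∧
      (((pr H : ℕ) : ℤ) ∣ β.1 - β.2 * a0 →
        β'.2 * pr (H.filter (fun π : ℕ => ¬ (π : ℤ) ∣ β'.1 - β'.2 * a0)) ≤ β.2) := by
    intro β
    by_cases hβ : 1 ≤ β.2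
    · obtain ⟨b', q', r1, r2, r3, r4, r5, r6⟩ := reduce_beta a0 β.1 β.2 hβ
      exact ⟨(b', q'), fun _ => ⟨r1, r2, r3, r4, r5, r6 H hHp⟩⟩
    · exact ⟨β, fun h => absurd h hβ⟩
  choose red hred using hred
  set 𝔅' := (𝔅.filter (fun β => ((pr H : ℕ) : ℤ) ∣ β.1 - β.2 * a0)).image red with h𝔅'
  have hB' : ∀ β' ∈ 𝔅', 1 ≤ β'.2 ∧ IsCoprime β'.1 (β'.2 : ℤ) ∧ β'.2 ≤ 2 ^ (2 * V) ∧
      |β'.1| ≤ 2 ^ (N + 2 * V + 1) ∧
      β'.2 * pr (H.filter (fun π : ℕ => ¬ (π : ℤ) ∣ β'.1 - β'.2 * a0)) ≤ 2 ^ (2 * V) := by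
    intro β' hβ'
    obtain ⟨β, hβ, rfl⟩ := mem_image.1 hβ'
    obtain ⟨hβ1, hβ2⟩ := mem_filter.1 hβ
    obtain ⟨s1, s2, s3⟩ := h𝔅 β hβ1
    obtain ⟨r1, r2, r3, r4, -, r6⟩ := hred β s1
    exact ⟨r1, r2, r3.trans s2, r4.trans s3, (r6 hβ2).trans s2⟩
  have hcard : (𝔅'.card : ℝ) ≤ 𝔅.card := by
    exact_mod_cast card_image_le.trans (card_filter_le _ _)
  have hal : ∀ k, k1 ≤ k → (𝔅.card : ℝ) ^ 2 * S / 2 ^ (k - 1) ≤ δ * mm k →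
      ∑ β ∈ 𝔅', ∑ π ∈ (B k).filter (fun π : ℕ => (π : ℤ) ∣ β.1 - β.2 * a0), μ π
        ≤ (1 + δ) * ∑ π ∈ B k, μ π := by
    intro k hk' hk2
    have := aligned_sum a0 𝔅' k S (by omega) (fun β hβ => ⟨(hB' β hβ).1, (hB' β hβ).2.1⟩)
      (fun β hβ β' hβ' => ?_)
    · have b1 : (𝔅'.card : ℝ) ^ 2 * S / 2 ^ (k - 1) ≤ (𝔅.card : ℝ) ^ 2 * S / 2 ^ (k - 1) := by
        gcongr
      have b2 : ∑ π ∈ B k, μ π = mm k := rfl
      rw [b2]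
      linarith
    · obtain ⟨-, -, r3, r4, -⟩ := hB' β hβ
      obtain ⟨-, -, s3, s4, -⟩ := hB' β' hβ'
      have r3' : (β.2 : ℤ) ≤ 2 ^ (2 * V) := by exact_mod_cast r3
      have s3' : (β'.2 : ℤ) ≤ 2 ^ (2 * V) := by exact_mod_cast s3
      have b1 : N + 4 * V + 2 ≤ (k - 1) * S := hS.trans (Nat.mul_le_mul_right _ (by omega))
      calc |β.1 * β'.2 - β'.1 * β.2| ≤ |β.1 * β'.2| + |β'.1 * β.2| := abs_sub _ _
        _ = |β.1| * β'.2 + |β'.1| * β.2 := by simp [abs_mul]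
        _ ≤ 2 ^ (N + 2 * V + 1) * 2 ^ (2 * V) + 2 ^ (N + 2 * V + 1) * 2 ^ (2 * V) := by gcongr
        _ = 2 ^ (N + 4 * V + 2) := by ring
        _ ≤ _ := pow_le_pow_right₀ (by norm_num) b1
  have hcov := eh_sum_le3 W Ta Ex (W.filter (fun y => ∃ β ∈ 𝔅',
      y.1 ∈ (B k1).filter (fun π : ℕ => (π : ℤ) ∣ β.1 - β.2 * a0) ∧
      y.2 ∈ (B k2).filter (fun π : ℕ => (π : ℤ) ∣ β.1 - β.2 * a0))) (fun y => μ y.1 * μ y.2)
    (fun y => mul_nonneg (hμ0 _) (hμ0 _)) (fun y hy => by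
      by_cases q1 : y ∈ Ta
      · exact Or.inl q1
      right
      obtain ⟨hy1, hy2⟩ := mem_product.1 hy
      rw [hTa, mem_filter, not_and] at q1
      have q2 := q1 hy
      push Not at q2
      obtain ⟨f, hf1, hf2, hf3⟩ := q2
      rcases hfar y.1 hy1 y.2 hy2 f hf1 hf2 with q | q | ⟨β, hβ, q⟩
      · exact absurd q (not_le.2 hf3)
      · exact Or.inl (mem_filter.2 ⟨hy, f, hf1, hf2, q⟩)
      right
      obtain ⟨s1, s2, -⟩ := h𝔅 β hβ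
      obtain ⟨-, -, -, -, r5, -⟩ := hred β s1
      push_cast at q
      refine mem_filter.2 ⟨hy, red β, mem_image_of_mem _ (mem_filter.2 ⟨hβ, ?_⟩),
        mem_filter.2 ⟨hy1, r5 _ (mem_B.1 hy1).1 (s2.trans_lt (eh_big hy1 hV3 h5V)) ?_⟩,
        mem_filter.2 ⟨hy2, r5 _ (mem_B.1 hy2).1 (s2.trans_lt (eh_big hy2 hV3 (by omega))) ?_⟩⟩
      · exact Dvd.dvd.trans ⟨y.1 * y.2 * f, by ring⟩ q
      · exact Dvd.dvd.trans ⟨pr H * y.2 * f, by ring⟩ q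
      · exact Dvd.dvd.trans ⟨pr H * y.1 * f, by ring⟩ q)
  obtain ⟨β, hβ, d1, d2⟩ := dich 𝔅' (B k1) (B k2)
    (fun β => (B k1).filter (fun π : ℕ => (π : ℤ) ∣ β.1 - β.2 * a0))
    (fun β => (B k2).filter (fun π : ℕ => (π : ℤ) ∣ β.1 - β.2 * a0)) μ hμ0
    (fun _ _ => filter_subset _ _) (fun _ _ => filter_subset _ _) δ hδ0 hδ1
    (hal k1 le_rfl hov.1) (hal k2 hk.le hov.2) (by
      have b1 : ∑ π ∈ B k1, μ π = mm k1 := rfl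
      have b2 : ∑ π ∈ B k2, μ π = mm k2 := rfl
      rw [b1, b2]
      rw [hmW] at hcov
      push Not at h1 h2
      linarith)
  rw [← filter_not] at d1 d2
  obtain ⟨r1, r2, -, r4, r5⟩ := hB' β hβ
  have := hnear V hV a0 β.1 N A1 β.2 j0 k1 k2 J (p, H) δ hx hj0 hJ hV1 hV2 hV3 hk1 hk r1 r2 r5 r4
    hδ0.le d1 d2
  have a3 : c2 * MTot (2 ^ N) j0 J k1 k2 p H ≤ (cn - 9 * C * δ) * MTot (2 ^ N) j0 J k1 k2 p H :=
    mul_le_mul_of_nonneg_right (by linarith) hM0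
  have a5 := mul_nonneg hct.le hE0'
  simp only at this
  linarith

end Crest.Agent.R1
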