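import Crest.Agent.R1.Near
import Crest.Agent.R1.EDefs

/-!
# R1 / ENear : lower bound when one fraction is aligned with most primes of both top boxes

Fix `P ∈ B j0`, `e ∈ Sel J`, put `d = H ∪ insert P e` (disjoint union, by levels), `pr d = pr H · P · pr e`,
`Φ = X/(pr d · t)`.  The primes of `d` are `≥ p`, `q · pr (d.filter misaligned) ≤ 2^(2V) · P · pr e ≤ 2^(3V)`.
For `w ∈ B k1`, `ρ ∈ B k2`: `w, ρ > 2^(3V) ≥ q` are primes not in `d`, `w ≠ ρ`.  If both are aligned then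
`Scnt (pr H w ρ P pr e) = Sb … (pr d) (w ρ)` by `Sb_eq`.  Hence
`∑_{w,ρ} Scnt ≥ ∑_{w,ρ} Sb - ∑_{w mis, ρ} Sb - ∑_{w, ρ mis} Sb ≥ c Φ m₁ m₂ - C Φ (3δ + 6δ) m₁ m₂` by `near_lower`
(sizes: `pr d · w · 2^k2 ≤ 2^(sg H + j0 + ∑J + k1 + k2)`) and `Sb_le`.  Sum over `P, e`.
-/

set_option autoImplicit false

noncomputable section

open scoped Classical

namespace Crest.Agent.R1

open Finset

theorem en_inner {c C δ Φ : ℝ} {k1 k2 : ℕ} (S T : ℕ → ℕ → ℝ) (mis : ℕ → Prop) [DecidablePred mis]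
    (hC : 0 ≤ C) (hΦ : 0 ≤ Φ)
    (h1 : ∀ w ∈ B k1, c * Φ * (1 / (w : ℝ)) * mm k2 ≤ ∑ ρ ∈ B k2, T w ρ)
    (h2 : ∀ w ∈ B k1, ∀ ρ ∈ B k2, ¬ mis w → ¬ mis ρ → T w ρ = S w ρ)
    (h3 : ∀ w ∈ B k1, ∀ ρ ∈ B k2, T w ρ ≤ C * Φ * (1 / (w : ℝ) * (1 / (ρ : ℝ))))
    (h4 : ∀ w ρ, 0 ≤ S w ρ)
    (m1 : ∑ w ∈ (B k1).filter mis, 1 / (w : ℝ) ≤ 3 * δ * mm k1)
    (m2 : ∑ w ∈ (B k2).filter mis, 1 / (w : ℝ) ≤ 6 * δ * mm k2) :
    (c - 9 * C * δ) * (Φ * mm k1 * mm k2) ≤ ∑ w ∈ B k1, ∑ ρ ∈ B k2, S w ρ := by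
  have a1 : c * Φ * mm k1 * mm k2 ≤ ∑ w ∈ B k1, ∑ ρ ∈ B k2, T w ρ := by
    refine le_trans (le_of_eq ?_) (sum_le_sum h1)
    rw [← sum_mul, ← mul_sum]
    rfl
  have a2 : ∑ w ∈ B k1, ∑ ρ ∈ B k2, T w ρ ≤ ∑ w ∈ B k1, ∑ ρ ∈ B k2,
      (S w ρ + C * Φ * ((if mis w then 1 / (w : ℝ) else 0) * (1 / (ρ : ℝ)))
        + C * Φ * (1 / (w : ℝ) * (if mis ρ then 1 / (ρ : ℝ) else 0))) := by
    refine sum_le_sum (fun w hw => sum_le_sum (fun ρ hρ => ?_))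
    have b1 := h3 w hw ρ hρ
    have b2 := h4 w ρ
    have b3 : 0 ≤ C * Φ * (1 / (w : ℝ) * (1 / (ρ : ℝ))) := by positivity
    by_cases hw' : mis w <;> by_cases hρ' : mis ρ
    · rw [if_pos hw', if_pos hρ']; linarith
    · rw [if_pos hw', if_neg hρ', mul_zero, mul_zero]; linarith
    · rw [if_neg hw', if_pos hρ', zero_mul, mul_zero]; linarith
    · rw [if_neg hw', if_neg hρ', zero_mul, mul_zero, mul_zero, mul_zero, h2 w hw ρ hρ hw' hρ']; linarith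
  simp only [sum_add_distrib, ← mul_sum, ← sum_mul, ← sum_filter] at a2
  have e1 : ∑ w ∈ B k1, 1 / (w : ℝ) = mm k1 := rfl
  have e2 : ∑ w ∈ B k2, 1 / (w : ℝ) = mm k2 := rfl
  rw [e1, e2] at a2
  have a3 := mul_le_mul_of_nonneg_left (mul_le_mul_of_nonneg_right m1 (mm_nonneg k2)) (mul_nonneg hC hΦ)
  have a4 := mul_le_mul_of_nonneg_left (mul_le_mul_of_nonneg_left m2 (mm_nonneg k1)) (mul_nonneg hC hΦ)
  nlinarith

theorem en_comm (A B' C : Finset ℕ) (D : Finset (Finset ℕ)) (F : ℕ → ℕ → ℕ → Finset ℕ → ℝ) :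
    ∑ w ∈ A, ∑ ρ ∈ B', ∑ P ∈ C, ∑ e ∈ D, F w ρ P e = ∑ P ∈ C, ∑ e ∈ D, ∑ w ∈ A, ∑ ρ ∈ B', F w ρ P e := by
  calc _ = ∑ w ∈ A, ∑ P ∈ C, ∑ e ∈ D, ∑ ρ ∈ B', F w ρ P e := by
        refine sum_congr rfl (fun w _ => ?_)
        rw [sum_comm]
        exact sum_congr rfl (fun P _ => sum_comm)
    _ = _ := by
        rw [sum_comm]
        exact sum_congr rfl (fun P _ => sum_comm)

theorem near_case (hP : PAP) : ∃ (t1 κ0 V0 : ℕ) (c : ℝ), 5 ≤ κ0 ∧ 0 < c ∧ ∀ t0 ≥ t1, ∃ C : ℝ, 1 ≤ C ∧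
    ∀ V ≥ V0, ∀ (a0 b : ℤ) (N A1 q j0 k1 k2 : ℕ) (J : Finset ℕ) (x : ℕ × Finset ℕ) (δ : ℝ),
    Core t0 N A1 j0 J k1 k2 x → lv x.1 < j0 → (∀ j ∈ J, j0 < j) → j0 + ∑ j ∈ J, j ≤ V →
    κ0 * lv x.1 ≤ V → 1 ≤ V → κ0 * V ≤ k1 → k1 < k2 → 1 ≤ q → IsCoprime b (q : ℤ) →
    q * pr (x.2.filter (fun π : ℕ => ¬ (π : ℤ) ∣ b - q * a0)) ≤ 2 ^ (2 * V) →
    |b| ≤ 2 ^ (N + 2 * V + 1) → 0 ≤ δ →
    ∑ w ∈ (B k1).filter (fun π : ℕ => ¬ (π : ℤ) ∣ b - q * a0), 1 / (w : ℝ) ≤ 3 * δ * mm k1 →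
    ∑ w ∈ (B k2).filter (fun π : ℕ => ¬ (π : ℤ) ∣ b - q * a0), 1 / (w : ℝ) ≤ 6 * δ * mm k2 →
    (c - 9 * C * δ) * MTot (2 ^ N) j0 J k1 k2 x.1 x.2 ≤ STot t0 a0 (2 ^ N) j0 J k1 k2 x.1 x.2 := by
  obtain ⟨t1, κ0, V0, c, hκ, hc, H⟩ := near_lower hP
  refine ⟨t1, κ0, V0, c, hκ, hc, fun t0 ht0 => ?_⟩
  obtain ⟨C, hC, HC⟩ := Sb_le hP t0
  refine ⟨C, hC, ?_⟩
  rintro V hV a0 b N A1 q j0 k1 k2 J ⟨p, Hs⟩ δ ⟨hp, hH, htp, -, hsz, -⟩ hpj hJ hJV hκp hV1 hκV hk hq hbq hmis hb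
    hδ m1 m2
  simp only at hp hH htp hsz hpj hκp hmis ⊢
  have hVk : 5 * V ≤ k1 := (Nat.mul_le_mul_right V hκ).trans hκV
  unfold MTot STot
  rw [en_comm, en_comm (F := fun w ρ P e => (Scnt t0 a0 (2 ^ N) (pr Hs * w * ρ * P * pr e) p : ℝ)), mul_sum]
  refine sum_le_sum (fun P hPB => ?_)
  rw [mul_sum]
  refine sum_le_sum (fun e he => ?_)
  obtain ⟨hPp, hPl⟩ := mem_B.1 hPB
  have he' := (mem_Sel.1 he).1
  have hPe : P ∉ e := fun h => by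
    have := hJ _ (he' P h).2
    omega
  have hdis : Disjoint Hs (insert P e) := by
    rw [disjoint_left]
    intro π h1 h2
    rcases mem_insert.1 h2 with rfl | h2
    · exact (hH _ h1).2.2.1 hPl
    · exact (hH _ h1).2.2.2.1 (he' _ h2).2
  have hsg1 : sg (insert P e) = j0 + ∑ j ∈ J, j := by rw [sg_insert hPe, hPl, sg_of_mem_Sel he]
  have hlow : ∀ π ∈ insert P e, π.Prime ∧ lv p < lv π ∧ lv π ≤ V := by
    intro π h
    rcases mem_insert.1 h with rfl | h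
    · exact ⟨hPp, by omega, by omega⟩
    · have h1 := (he' π h).2
      have h2 := hJ _ h1
      have h3 : lv π ≤ ∑ j ∈ J, j := single_le_sum (f := fun j => j) (fun _ _ => Nat.zero_le _) h1
      exact ⟨(he' π h).1, by omega, by omega⟩
  set d := Hs ∪ insert P e with hd
  have hdp : ∀ π ∈ d, π.Prime ∧ p ≤ π := by
    intro π h
    rcases mem_union.1 h with h | h
    · exact ⟨(hH π h).1, (hH π h).2.1⟩
    · exact ⟨(hlow π h).1, (lt_of_lv_lt (hlow π h).2.1).le⟩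
  have hdk : ∀ π ∈ d, lv π ≠ k1 ∧ lv π ≠ k2 := by
    intro π h
    rcases mem_union.1 h with h | h
    · exact (hH π h).2.2.2.2
    · have := (hlow π h).2.2
      omega
  have hpr : pr d = pr Hs * (P * pr e) := by rw [hd, pr_union hdis, pr_insert hPe]
  have hD0 : 0 < pr d := pr_pos (fun π h => (hdp π h).1)
  have hDle : pr d ≤ 2 ^ (sg Hs + j0 + ∑ j ∈ J, j) := by
    refine (pr_le d).trans (le_of_eq ?_)
    rw [hd, sg_union hdis, hsg1, add_assoc]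
  have hmis' : q * pr (d.filter (fun π : ℕ => ¬ (π : ℤ) ∣ b - q * a0)) ≤ 2 ^ (3 * V) := by
    rw [hd, filter_union, pr_union (disjoint_filter_filter hdis), ← mul_assoc,
      show 3 * V = 2 * V + V by ring, pow_add]
    refine Nat.mul_le_mul hmis ((pr_le _).trans (Nat.pow_le_pow_right two_pos ?_))
    exact (sg_mono (filter_subset _ _)).trans (hsg1.trans_le hJV)
  have hq3 : q ≤ 2 ^ (3 * V) :=
    (Nat.le_mul_of_pos_right q (pr_pos (fun π h => (hdp π (mem_filter.1 h).1).1))).trans hmis'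
  have hbig : ∀ k w, k1 ≤ k → w ∈ B k → w.Prime ∧ 2 ^ (3 * V) < w ∧ w ≤ 2 ^ k ∧ Nat.Coprime w q ∧ p < w := by
    intro k w hk' hw
    obtain ⟨h1, h2⟩ := mem_B.1 hw
    have h3 : 2 ^ (3 * V) < w := lt_lv_iff.1 (by omega)
    exact ⟨h1, h3, lv_le_iff.1 h2.le,
      (Nat.Prime.coprime_iff_not_dvd h1).2 (Nat.not_dvd_of_pos_of_lt hq (hq3.trans_lt h3)),
      lt_of_lv_lt (by omega)⟩
  have hcop : ∀ w ∈ B k1, ∀ ρ ∈ B k2, Nat.Coprime (w * ρ) q ∧ Nat.Coprime (pr d) (w * ρ) := by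
    intro w hw ρ hρ
    obtain ⟨w1, -, -, w4, -⟩ := hbig k1 w le_rfl hw
    obtain ⟨r1, -, -, r4, -⟩ := hbig k2 ρ hk.le hρ
    refine ⟨Nat.Coprime.mul_left w4 r4, (coprime_pr (fun π h => (hdp π h).1) (fun π h h' => ?_)).symm⟩
    rcases (Nat.Prime.dvd_mul (hdp π h).1).1 h' with h' | h'
    · rw [(Nat.prime_dvd_prime_iff_eq (hdp π h).1 w1).1 h'] at h
      exact (hdk w h).1 (mem_B.1 hw).2
    · rw [(Nat.prime_dvd_prime_iff_eq (hdp π h).1 r1).1 h'] at h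
      exact (hdk ρ h).2 (mem_B.1 hρ).2
  have hlp : 1 ≤ lv p := by omega
  have hΦ : ∑ w ∈ B k1, ∑ ρ ∈ B k2, ((2 ^ N : ℕ) : ℝ) / (pr Hs * w * ρ * P * pr e * lv p) =
      (2 : ℝ) ^ N / (pr d * lv p) * mm k1 * mm k2 := by
    unfold mm
    rw [mul_assoc, sum_mul_sum, mul_sum]
    refine sum_congr rfl (fun w _ => ?_)
    rw [mul_sum]
    refine sum_congr rfl (fun ρ _ => ?_)
    rw [hpr, one_div_mul_one_div, mul_one_div, div_div]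
    push_cast
    congr 1
    ring
  rw [hΦ]
  refine en_inner (fun w ρ => (Scnt t0 a0 (2 ^ N) (pr Hs * w * ρ * P * pr e) p : ℝ))
    (fun w ρ => (Sb t0 a0 b (2 ^ N) q (pr d) (w * ρ) p : ℝ)) (fun π : ℕ => ¬ (π : ℤ) ∣ b - q * a0)
    (by linarith) (by positivity) (fun w hw => ?_) (fun w hw ρ hρ h1 h2 => ?_) (fun w hw ρ hρ => ?_)
    (fun _ _ => by positivity) m1 m2
  · obtain ⟨w1, w2, w3, -, -⟩ := hbig k1 w le_rfl hw
    refine le_trans (le_of_eq ?_) (H t0 ht0 V hV a0 b N q w k2 p d htp hκp (hκV.trans hk.le) hq hbq hdp w1 w2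
      hmis' hb ?_)
    · congr 1
      rw [mul_assoc, mul_one_div, div_div, mul_div_assoc]
      congr 2
      ring
    · calc (pr d * w * 2 ^ k2) ^ 2 * 2 ^ (3 * lv p)
          ≤ (2 ^ (sg Hs + j0 + ∑ j ∈ J, j) * 2 ^ k1 * 2 ^ k2) ^ 2 * 2 ^ (3 * lv p) := by gcongr
        _ ≤ _ := by
          rw [← pow_add, ← pow_add, ← pow_mul, ← pow_add]
          exact Nat.pow_le_pow_right two_pos (by omega)
  · obtain ⟨w1, -⟩ := hbig k1 w le_rfl hw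
    obtain ⟨r1, -⟩ := hbig k2 ρ hk.le hρ
    have hne : w ≠ ρ := fun h => by
      have a1 := (mem_B.1 hw).2
      have a2 := (mem_B.1 hρ).2
      rw [h] at a1
      omega
    have hdv : ((w * ρ : ℕ) : ℤ) ∣ b - q * a0 := by
      rw [Nat.cast_mul]
      exact (Nat.isCoprime_iff_coprime.2 ((Nat.coprime_primes w1 r1).2 hne)).mul_dvd (not_not.1 h1)
        (not_not.1 h2)
    rw [Sb_eq t0 a0 b (2 ^ N) q (pr d) (w * ρ) p hdv (hcop w hw ρ hρ).1 (hcop w hw ρ hρ).2, hpr]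
    congr 2
    ring
  · obtain ⟨w1, -, w3, -, w5⟩ := hbig k1 w le_rfl hw
    obtain ⟨r1, -, r3, -, r5⟩ := hbig k2 ρ hk.le hρ
    refine le_trans (HC a0 b (2 ^ N) q (pr d) (w * ρ) p hD0 (Nat.mul_pos w1.pos r1.pos) (hcop w hw ρ hρ).1
      (hcop w hw ρ hρ).2 hlp (fun π hπ h => ?_) ?_) (le_of_eq ?_)
    · obtain ⟨π1, -, π3⟩ := mem_SP.1 hπ
      rcases (Nat.Prime.dvd_mul π1).1 h with h | h
      · have := (hdp π ((prime_dvd_pr (fun π h => (hdp π h).1) π1).1 h)).2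
        omega
      · rcases (Nat.Prime.dvd_mul π1).1 h with h | h
        · have := (Nat.prime_dvd_prime_iff_eq π1 w1).1 h
          omega
        · have := (Nat.prime_dvd_prime_iff_eq π1 r1).1 h
          omega
    · calc pr d * (w * ρ) * 2 ^ lv p
          ≤ 2 ^ (sg Hs + j0 + ∑ j ∈ J, j) * (2 ^ k1 * 2 ^ k2) * 2 ^ lv p := by gcongr
        _ ≤ _ := by
          rw [← pow_add, ← pow_add, ← pow_add]
          exact Nat.pow_le_pow_right two_pos (by omega)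
    · rw [one_div_mul_one_div, mul_assoc C, mul_one_div, div_div, mul_div_assoc]
      push_cast
      congr 2
      ring

end Crest.Agent.R1
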