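import Crest.Agent.R1.Special

/-!
# R1 / Far1 : from a large remainder to a large deviation in one block


-/

set_option autoImplicit false

noncomputable section

open scoped Classical

namespace Crest.Agent.R1

open Finset

/-- Let `n < g` with `g ∣ a0 + n`, `a0 + n = g ν`.  The `j < X` with `g ∣ a0 + j` are `j = n + g i`, `i < I`, where
`I = cnt a0 X g` (`|I - X/g| ≤ 1`), and `g m ∣ a0 + j ↔ m ∣ ν + i`. -/
theorem cnt_mul_eq (a0 : ℤ) (X g : ℕ) (hg : 1 ≤ g) : ∃ (n : ℕ) (ν : ℤ), n < g ∧ a0 + n = g * ν ∧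
    ∀ m : ℕ, cnt a0 X (g * m) = cnt ν (cnt a0 X g) m := by
  have hg0 : (g : ℤ) ≠ 0 := by omega
  obtain ⟨n, hn⟩ : ∃ n : ℕ, (n : ℤ) = -a0 % g := ⟨_, Int.toNat_of_nonneg (Int.emod_nonneg _ hg0)⟩
  have hn1 : n < g := by
    have := Int.emod_lt_of_pos (-a0) (show (0 : ℤ) < g by omega)
    omega
  obtain ⟨ν, hν⟩ : (g : ℤ) ∣ a0 + n := ⟨-(-a0 / g), by
    rw [hn]
    linear_combination Int.emod_add_mul_ediv (-a0) g⟩
  obtain ⟨I, hI⟩ : ∃ I : ℕ, ∀ i, i < I ↔ n + g * i < X := ⟨(X + g - 1 - n) / g, fun i => by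
    rw [Nat.lt_iff_add_one_le, Nat.le_div_iff_mul_le hg, add_mul, mul_comm i g]
    omega⟩
  have key : ∀ m : ℕ, cnt a0 X (g * m) = cnt ν I m := fun m => by
    have e : ∀ i : ℕ, ((g * m : ℕ) : ℤ) ∣ a0 + ((n + g * i : ℕ) : ℤ) ↔ (m : ℤ) ∣ ν + i := fun i => by
      push_cast
      rw [← add_assoc, hν, ← mul_add, mul_dvd_mul_iff_left hg0]
    symm
    refine card_bij (fun i _ => n + g * i) (fun i hi => ?_) (fun i _ j _ h => ?_) fun j hj => ?_
    · rw [mem_filter, mem_range] at hi ⊢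
      exact ⟨(hI i).1 hi.1, (e i).2 hi.2⟩
    · exact Nat.eq_of_mul_eq_mul_left hg (Nat.add_left_cancel h)
    · rw [mem_filter, mem_range] at hj
      have h1 : (g : ℤ) ∣ (j : ℤ) - n := by
        have := dvd_sub ((Int.natCast_dvd_natCast.2 (dvd_mul_right g m)).trans hj.2) ⟨ν, hν⟩
        rwa [add_sub_add_left_eq_sub] at this
      have h2 : n ≡ j [MOD g] := Nat.modEq_iff_dvd.2 h1
      have h3 : n + g * (j / g) = j := by
        rw [← Nat.mod_eq_of_lt hn1, h2, Nat.mod_add_div]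
      refine ⟨j / g, mem_filter.2 ⟨mem_range.2 ((hI _).2 ?_), (e _).1 ?_⟩, h3⟩
      · rw [h3]
        exact hj.1
      · rw [h3]
        exact hj.2
  have h1 := key 1
  rw [mul_one] at h1
  have h2 : cnt ν I 1 = I := by simp [cnt]
  exact ⟨n, ν, hn1, hν, fun m => by rw [h1, h2, key]⟩

/-- `Rem = ∑_P ∑_e (cnt ν I (P e) - I/(P e)) + O(|B| |Sel| · 2/2^j0)` (`|I - X/g| ≤ 1`, `P > 2^(j0-1)`), and
`2/2^j0 ≤ 1/(2 E0²)`.  Split the sum over `e ∈ Sel J` into the fibres of `key` (`Finset.sum_fiberwise_of_maps_to`);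
on a fibre `pr` is injective (`pr_inj`), so the inner sum is `Dev ν I P (fibre.image pr)`.  If every fibre had
`∑_P |Dev| ≤ |B| |fibre|/(2 E0²)` the remainder would be `≤ |B| |Sel|/E0²`. -/
theorem exists_bad_block {κ : Type} (a0 : ℤ) (X j0 g E0 : ℕ) (J : Finset ℕ) (key : Finset ℕ → κ)
    (hg : 1 ≤ g) (hE0 : 1 ≤ E0) (hj : 4 * E0 ^ 2 ≤ 2 ^ j0) (ν : ℤ)
    (hν : ∀ m : ℕ, cnt a0 X (g * m) = cnt ν (cnt a0 X g) m)
    (hbad : ((B j0).card : ℝ) * (Sel J).card / (E0 : ℝ) ^ 2 < |Rem a0 X j0 J g|) :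
    ∃ e0 ∈ Sel J, ((B j0).card : ℝ) * (((Sel J).filter (fun e => key e = key e0)).image pr).card
        / (2 * (E0 : ℝ) ^ 2) <
      ∑ P ∈ B j0, |Dev ν (cnt a0 X g) P (((Sel J).filter (fun e => key e = key e0)).image pr)| := by
  by_contra hc
  push Not at hc
  refine absurd hbad (not_lt.2 ?_)
  obtain ⟨I, hI⟩ : ∃ I, I = cnt a0 X g := ⟨_, rfl⟩
  have hI1 := cnt_approx a0 X g hg
  rw [← hI] at hc hν hI1
  have hE : (1 : ℝ) ≤ E0 := by exact_mod_cast hE0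
  have hg' : (0 : ℝ) < g := by exact_mod_cast hg
  have hpr : ∀ e ∈ Sel J, ∀ p ∈ e, p.Prime := fun e he p hp => ((mem_Sel.1 he).1 p hp).1
  have hinj : ∀ c : κ, Set.InjOn pr ((Sel J).filter (fun e => key e = c) : Set (Finset ℕ)) :=
    fun c d hd e he h => pr_inj (hpr d (mem_filter.1 hd).1) (hpr e (mem_filter.1 he).1) h
  have h1 : |∑ P ∈ B j0, ∑ e ∈ Sel J, ((cnt ν I (P * pr e) : ℝ) - I / (P * pr e))| ≤
      (B j0).card * (Sel J).card / (2 * (E0 : ℝ) ^ 2) := by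
    have e1 : ∀ P, ∑ e ∈ Sel J, ((cnt ν I (P * pr e) : ℝ) - I / (P * pr e)) =
        ∑ c ∈ (Sel J).image key, Dev ν I P (((Sel J).filter (fun e => key e = c)).image pr) := fun P => by
      rw [← sum_fiberwise_of_maps_to (g := key) fun e he => mem_image_of_mem key he]
      exact sum_congr rfl fun c _ => by rw [Dev, sum_image (hinj c)]
    simp only [e1]
    rw [sum_comm, card_eq_sum_card_fiberwise (f := key) fun e he => mem_image_of_mem key he]
    push_cast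
    rw [mul_sum, sum_div]
    refine (abs_sum_le_sum_abs _ _).trans (sum_le_sum fun c hc' => ?_)
    obtain ⟨e0, he0, rfl⟩ := mem_image.1 hc'
    refine (abs_sum_le_sum_abs _ _).trans ((hc e0 he0).trans_eq ?_)
    rw [card_image_of_injOn (hinj _)]
  have h2 : |∑ P ∈ B j0, ∑ e ∈ Sel J, ((I : ℝ) / (P * pr e) - X / (g * P * pr e))| ≤
      (B j0).card * (Sel J).card / (2 * (E0 : ℝ) ^ 2) := by
    refine (abs_sum_le_sum_abs _ _).trans ((sum_le_card_nsmul _ _ ((Sel J).card / (2 * (E0 : ℝ) ^ 2))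
      fun P hP => ?_).trans_eq (by rw [nsmul_eq_mul, mul_div_assoc]))
    refine (abs_sum_le_sum_abs _ _).trans ((sum_le_card_nsmul _ _ (1 / (2 * (E0 : ℝ) ^ 2))
      fun e he => ?_).trans_eq (by rw [nsmul_eq_mul, mul_one_div]))
    obtain ⟨hP1, hP2⟩ := mem_B.1 hP
    have a1 := two_pow_lv_lt hP1.two_le
    rw [hP2] at a1
    have a2 : 2 * (E0 : ℝ) ^ 2 ≤ P := by exact_mod_cast (by omega : 2 * E0 ^ 2 ≤ P)
    have a3 : (1 : ℝ) ≤ pr e := by exact_mod_cast pr_pos (hpr e he)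
    have a4 : (0 : ℝ) < P := by exact_mod_cast hP1.pos
    rw [show (I : ℝ) / (P * pr e) - X / (g * P * pr e) = (I - X / g) / (P * pr e) by field_simp, abs_div,
      abs_of_pos (by positivity : (0 : ℝ) < P * pr e)]
    exact div_le_div₀ zero_le_one hI1 (by positivity) (by nlinarith)
  have e : Rem a0 X j0 J g = ∑ P ∈ B j0, ∑ e ∈ Sel J, ((cnt ν I (P * pr e) : ℝ) - I / (P * pr e)) +
      ∑ P ∈ B j0, ∑ e ∈ Sel J, ((I : ℝ) / (P * pr e) - X / (g * P * pr e)) := by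
    simp only [Rem, ← sum_add_distrib, mul_assoc g, hν, sub_add_sub_cancel]
  rw [e]
  refine (abs_add_le _ _).trans ((add_le_add h1 h2).trans_eq ?_)
  field_simp
  ring

end Crest.Agent.R1
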