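import Crest.Agent.R1.Basic2

/-!
# R1 / Ident : the exact sieve identity


-/

set_option autoImplicit false

noncomputable section

open scoped Classical

namespace Crest.Agent.R1

open Finset

/-- If `S = ∅` both sides are `1` (`supp_empty`).  Otherwise let `s = min S`, `S = insert s S'`.  Split the subsets of
`S` into `d ⊆ S'` and `insert s d` (`Finset.sum_powerset_insert`); by `supp_insert_min`, `insert s d` is supported iff
`d` is supported and not (`d.card` odd and `T ≤ sg d + 3 lv s`).  So the first sum is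
`- #{d ⊆ S' : IsBd T (s, d)}`.  In the second sum `x.1 = s` is forced and `s < π` for `π ∈ x.2` means `x.2 ⊆ S'`. -/
theorem sieve_ident (T : ℕ) (S : Finset ℕ) :
    (if S = ∅ then (1 : ℝ) else 0) = ∑ d ∈ S.powerset.filter (Supp T), (-1) ^ d.card +
      (((S ×ˢ S.powerset).filter (fun x => IsBd T x ∧ ∀ π ∈ S, x.1 ≤ π)).card : ℝ) := by
  split_ifs with hS
  · subst hS
    simp [filter_singleton, supp_empty]
  obtain ⟨s, hs, hmin⟩ := exists_min_image S id (nonempty_iff_ne_empty.2 hS)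
  simp only [id] at hmin
  obtain ⟨S', hs', rfl⟩ : ∃ S', s ∉ S' ∧ S = insert s S' :=
    ⟨S.erase s, notMem_erase _ _, (insert_erase hs).symm⟩
  have hlt : ∀ π ∈ S', s < π := fun π hπ =>
    (hmin π (mem_insert_of_mem hπ)).lt_of_ne fun e => hs' (e ▸ hπ)
  have e1 : (insert s S' ×ˢ (insert s S').powerset).filter
      (fun x => IsBd T x ∧ ∀ π ∈ insert s S', x.1 ≤ π) =
      (S'.powerset.filter fun d => IsBd T (s, d)).image (Prod.mk s) := by
    ext ⟨p, g⟩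
    simp only [mem_filter, mem_product, mem_powerset, mem_image, Prod.mk.injEq]
    constructor
    · rintro ⟨⟨h1, h2⟩, h3, h4⟩
      obtain rfl : p = s := le_antisymm (h4 s hs) (hmin p h1)
      refine ⟨g, ⟨fun π hπ => ?_, h3⟩, rfl, rfl⟩
      exact (mem_insert.1 (h2 hπ)).resolve_left (h3.2.2.1 π hπ).ne'
    · rintro ⟨d, ⟨h1, h2⟩, rfl, rfl⟩
      exact ⟨⟨hs, h1.trans (subset_insert _ _)⟩, h2, hmin⟩
  rw [e1, card_image_of_injective _ (Prod.mk_right_injective s), sum_filter, sum_powerset_insert hs',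
    card_filter, Nat.cast_sum, ← sum_add_distrib, ← sum_add_distrib]
  refine (sum_eq_zero fun d hd => ?_).symm
  have hd' : ∀ π ∈ d, s < π := fun π hπ => hlt π (mem_powerset.1 hd hπ)
  have hsd : s ∉ d := fun h => lt_irrefl _ (hd' s h)
  rw [supp_insert_min hd', card_insert_of_notMem hsd, pow_succ]
  by_cases h1 : Supp T d
  · by_cases h2 : Odd d.card → sg d + 3 * lv s < T
    · rw [if_pos h1, if_pos ⟨h1, h2⟩, if_neg fun h : IsBd T (s, d) => absurd (h2 h.2.1) (not_lt.2 h.2.2.2)]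
      simp
    · rw [Classical.not_imp, not_lt] at h2
      rw [if_pos h1, if_neg fun h => absurd (h.2 h2.1) (not_lt.2 h2.2),
        if_pos (show IsBd T (s, d) from ⟨h1, h2.1, hd', h2.2⟩), h2.1.neg_one_pow]
      simp
  · rw [if_neg h1, if_neg fun h => h1 h.1, if_neg fun h : IsBd T (s, d) => h1 h.1]
    simp

/-- Apply `sieve_ident` to `S i = (PL (t0+1) Z).filter (π ∣ v i)`, multiply by `a i`, sum over `i` and interchange the
sums (`pr_dvd_iff`; for a boundary pair `p · pr g = pr (insert p g)`; for `p ∈ PL (t0+1) Z` one has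
`SP t0 p = (PL (t0+1) Z).filter (· < p)`). -/
theorem weighted_ident {ι : Type} (Ω : Finset ι) (v : ι → ℤ) (a : ι → ℝ) (t0 Z T : ℕ) :
    ∑ i ∈ Ω.filter (fun i => ∀ π ∈ PL (t0 + 1) Z, ¬ (π : ℤ) ∣ v i), a i =
      ∑ d ∈ SS t0 Z T, (-1) ^ d.card * ∑ i ∈ Ω.filter (fun i => ((pr d : ℕ) : ℤ) ∣ v i), a i +
      ∑ x ∈ BP t0 Z T, ∑ i ∈ Ω.filter (fun i => ((x.1 * pr x.2 : ℕ) : ℤ) ∣ v i ∧
        ∀ π ∈ SP t0 x.1, ¬ (π : ℤ) ∣ v i), a i := by
  simp only [sum_filter, mul_sum]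
  rw [sum_comm (s := SS t0 Z T), sum_comm (s := BP t0 Z T), ← sum_add_distrib]
  refine sum_congr rfl fun i _ => ?_
  obtain ⟨S, hS⟩ : ∃ S : Finset ℕ, ∀ π, π ∈ S ↔ π ∈ PL (t0 + 1) Z ∧ (π : ℤ) ∣ v i :=
    ⟨_, fun π => mem_filter⟩
  have h := sieve_ident T S
  have e1 : S.powerset.filter (Supp T) = (SS t0 Z T).filter fun d => ((pr d : ℕ) : ℤ) ∣ v i := by
    ext d
    simp only [SS, mem_filter, mem_powerset, subset_iff, hS]
    constructor
    · rintro ⟨h1, h2⟩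
      exact ⟨⟨fun π hπ => (h1 hπ).1, h2⟩,
        (pr_dvd_iff (fun π hπ => (mem_PL.1 (h1 hπ).1).1) _).2 fun π hπ => (h1 hπ).2⟩
    · rintro ⟨⟨h1, h2⟩, h3⟩
      exact ⟨fun π hπ => ⟨h1 hπ, (pr_dvd_iff (fun π hπ => (mem_PL.1 (h1 hπ)).1) _).1 h3 π hπ⟩, h2⟩
  have e2 : (S ×ˢ S.powerset).filter (fun x => IsBd T x ∧ ∀ π ∈ S, x.1 ≤ π) =
      (BP t0 Z T).filter fun x => ((x.1 * pr x.2 : ℕ) : ℤ) ∣ v i ∧
        ∀ π ∈ SP t0 x.1, ¬ (π : ℤ) ∣ v i := by
    ext ⟨p, g⟩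
    simp only [BP, mem_filter, mem_product, mem_powerset, subset_iff, hS]
    have key : p ∈ PL (t0 + 1) Z → (∀ π ∈ g, π ∈ PL (t0 + 1) Z) → IsBd T (p, g) →
        (((p * pr g : ℕ) : ℤ) ∣ v i ↔ (p : ℤ) ∣ v i ∧ ∀ π ∈ g, (π : ℤ) ∣ v i) := fun h1 h2 h3 => by
      rw [← pr_insert fun h => lt_irrefl _ (h3.2.2.1 p h), pr_dvd_iff, forall_mem_insert]
      exact (forall_mem_insert _ _ _).2 ⟨(mem_PL.1 h1).1, fun π hπ => (mem_PL.1 (h2 π hπ)).1⟩
    constructor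
    · rintro ⟨⟨⟨h1, h2⟩, h3⟩, h4, h5⟩
      refine ⟨⟨⟨h1, fun π hπ => (h3 hπ).1⟩, h4⟩,
        (key h1 (fun π hπ => (h3 hπ).1) h4).2 ⟨h2, fun π hπ => (h3 hπ).2⟩, fun π hπ hd => ?_⟩
      obtain ⟨c1, c2, c3⟩ := mem_SP.1 hπ
      exact absurd (h5 π ⟨mem_PL.2 ⟨c1, c2, (lv_mono c3.le).trans (mem_PL.1 h1).2.2⟩, hd⟩)
        (not_le.2 c3)
    · rintro ⟨⟨⟨h1, h2⟩, h3⟩, h4, h5⟩
      obtain ⟨c1, c2⟩ := (key h1 (fun π hπ => h2 hπ) h3).1 h4
      refine ⟨⟨⟨h1, c1⟩, fun π hπ => ⟨h2 hπ, c2 π hπ⟩⟩, h3, fun π hπ => ?_⟩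
      by_contra hc
      exact h5 π (mem_SP.2 ⟨(mem_PL.1 hπ.1).1, (mem_PL.1 hπ.1).2.1, not_le.1 hc⟩) hπ.2
  rw [e1, e2, sum_filter, card_filter, Nat.cast_sum] at h
  have e3 : S = ∅ ↔ ∀ π ∈ PL (t0 + 1) Z, ¬ (π : ℤ) ∣ v i := by
    simp only [eq_empty_iff_forall_notMem, hS, not_and]
  calc _ = (if S = ∅ then (1 : ℝ) else 0) * a i := by
        by_cases h0 : S = ∅
        · rw [if_pos h0, if_pos (e3.1 h0), one_mul]
        · rw [if_neg h0, if_neg fun h => h0 (e3.2 h), zero_mul]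
    _ = _ := by
        rw [h, add_mul, sum_mul, sum_mul]
        congr 1
        · refine sum_congr rfl fun d _ => ?_
          split_ifs <;> simp
        · refine sum_congr rfl fun d _ => ?_
          split_ifs <;> simp

/-- `weighted_ident` with `a = 1`, `cnt_approx`, `card_SS_le` -/
theorem real_lower (t0 Z T X : ℕ) (hZT : Z < T) (a0 : ℤ) :
    X * Tm t0 Z T - 2 ^ T + ∑ x ∈ BP t0 Z T, (Scnt t0 a0 X (x.1 * pr x.2) x.1 : ℝ)
      ≤ Surv t0 Z a0 X := by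
  have h := weighted_ident (range X) (fun j : ℕ => a0 + j) (fun _ => (1 : ℝ)) t0 Z T
  simp only [sum_const, nsmul_eq_mul, mul_one] at h
  have h1 : (Surv t0 Z a0 X : ℝ) = ∑ d ∈ SS t0 Z T, (-1) ^ d.card * (cnt a0 X (pr d) : ℝ) +
      ∑ x ∈ BP t0 Z T, (Scnt t0 a0 X (x.1 * pr x.2) x.1 : ℝ) := by
    unfold Surv cnt Scnt
    convert h
    rfl
  have h2 : ∀ d ∈ SS t0 Z T, X * ((-1) ^ d.card * wt d) - 1 ≤ (-1) ^ d.card * (cnt a0 X (pr d) : ℝ) := by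
    intro d hd
    have c1 := abs_le.1 (cnt_approx a0 X (pr d) (pr_pos fun p hp => ((mem_SS.1 hd).1 p hp).1))
    rw [wt_eq]
    rcases neg_one_pow_eq_or ℝ d.card with e | e <;> rw [e]
    · rw [one_mul, one_mul, mul_one_div]
      linarith [c1.1]
    · rw [neg_one_mul, neg_one_mul, mul_neg, mul_one_div]
      linarith [c1.2]
  have h3 := sum_le_sum h2
  rw [sum_sub_distrib, ← mul_sum, sum_const, nsmul_eq_mul, mul_one] at h3
  have h4 : ((SS t0 Z T).card : ℝ) ≤ 2 ^ T := by exact_mod_cast card_SS_le hZT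
  rw [h1, Tm]
  linarith

end Crest.Agent.R1
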