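import Crest.Agent.R1.Moments
import Crest.Agent.R1.Primes

/-!
# R1 / ModelLow : survivors of the model


-/

set_option autoImplicit false

noncomputable section

open scoped Classical

namespace Crest.Agent.R1

open Finset

theorem ml_pair {M p q : ℕ} (hp : p.Prime) (hM : 2 * lv p + 1 ≤ M)
    (hq : q ∈ Ioc ⌊(2 : ℝ) ^ M / (2 * p)⌋₊ ⌊3 / 2 * ((2 : ℝ) ^ M / (2 * p))⌋₊) :
    p < q ∧ 2 ^ M < 2 * (p * q) ∧ p * q ≤ 2 ^ M := by
  have hp0 : (0 : ℝ) < p := by exact_mod_cast hp.pos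
  rw [mem_Ioc] at hq
  have hy0 : (0 : ℝ) ≤ (2 : ℝ) ^ M / (2 * p) := by positivity
  have h1 : (2 : ℝ) ^ M / (2 * p) < q := (Nat.floor_lt hy0).1 hq.1
  have h2 : (q : ℝ) ≤ 3 / 2 * ((2 : ℝ) ^ M / (2 * p)) :=
    (Nat.le_floor_iff (by positivity)).1 hq.2
  have h3 : p * (2 * p) ≤ 2 ^ M := by
    have := le_two_pow_lv p
    calc p * (2 * p) ≤ 2 ^ lv p * (2 * 2 ^ lv p) := by gcongr
      _ = 2 ^ (2 * lv p + 1) := by ring
      _ ≤ 2 ^ M := Nat.pow_le_pow_right (by norm_num) hM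
  have h4 : (p : ℝ) ≤ (2 : ℝ) ^ M / (2 * p) := by
    rw [le_div_iff₀ (by positivity)]
    exact_mod_cast h3
  refine ⟨?_, ?_, ?_⟩
  · exact_mod_cast h4.trans_lt h1
  · rw [div_lt_iff₀ (by positivity)] at h1
    have : ((2 ^ M : ℕ) : ℝ) < ((2 * (p * q) : ℕ) : ℝ) := by push_cast; linarith
    exact_mod_cast this
  · have h5 : (p : ℝ) * q ≤ p * (3 / 2 * ((2 : ℝ) ^ M / (2 * p))) := by gcongr
    have h6 : (p : ℝ) * (3 / 2 * ((2 : ℝ) ^ M / (2 * p))) = 3 / 4 * 2 ^ M := by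
      field_simp; ring
    have h7 : (0 : ℝ) < 2 ^ M := by positivity
    have : ((p * q : ℕ) : ℝ) ≤ ((2 ^ M : ℕ) : ℝ) := by push_cast; linarith
    exact_mod_cast this

theorem ml_lam {p : ℕ} (hp : p.Prime) : lam p = -1 := by
  unfold lam
  rw [ArithmeticFunction.cardFactors_apply_prime hp, pow_one]

theorem ml_ndvd {Z p q π : ℕ} (hp : p.Prime) (hq : q.Prime) (hZ : Z < lv p) (hpq : p < q)
    (hπ : π.Prime) (hl : lv π ≤ Z) : ¬ π ∣ p * q := by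
  intro h
  rcases (Nat.Prime.dvd_mul hπ).1 h with h | h
  · have := (Nat.prime_dvd_prime_iff_eq hπ hp).1 h
    subst this; omega
  · have := (Nat.prime_dvd_prime_iff_eq hπ hq).1 h
    subst this
    have := lv_mono hpq.le
    omega

theorem ml_am {t0 Z x p q : ℕ} (hp : p.Prime) (hq : q.Prime) (ht : t0 ≤ Z) (hZ : Z < lv p)
    (hpq : p < q) (h1 : x < 2 * (p * q)) (h2 : p * q ≤ x) : am t0 x (p * q) = 2 := by
  unfold am
  rw [if_pos]
  · rw [lam_mul hp.ne_zero hq.ne_zero, ml_lam hp, ml_lam hq]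
    unfold phi
    have : x / (p * q) = 1 := by
      apply Nat.div_eq_of_lt_le <;> omega
    rw [this]; norm_num
  · apply coprime_pr
    · intro π hπ; exact (mem_PL.1 hπ).1
    · intro π hπ
      have := mem_PL.1 hπ
      exact ml_ndvd hp hq hZ hpq this.1 (this.2.2.trans ht)

theorem ml_inj {p q p' q' : ℕ} (hp : p.Prime) (_hq : q.Prime) (hp' : p'.Prime) (hq' : q'.Prime)
    (h : p < q) (h' : p' < q') (e : p * q = p' * q') : p = p' ∧ q = q' := by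
  have h1 : p ∣ p' * q' := e ▸ dvd_mul_right p q
  rcases (Nat.Prime.dvd_mul hp).1 h1 with h2 | h2
  · have := (Nat.prime_dvd_prime_iff_eq hp hp').1 h2
    subst this
    exact ⟨rfl, Nat.eq_of_mul_eq_mul_left hp.pos e⟩
  · have := (Nat.prime_dvd_prime_iff_eq hp hq').1 h2
    subst this
    rw [mul_comm p'] at e
    have := Nat.eq_of_mul_eq_mul_left hp.pos e
    omega

/-- the sum is at least twice the number of pairs -/
theorem ml_count {t0 Z M : ℕ} (ht : t0 ≤ Z) (hM : 1 ≤ M) :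
    ∑ p ∈ PL (Z + 1) ((M - 1) / 2),
      2 * (((Ioc ⌊(2 : ℝ) ^ M / (2 * p)⌋₊ ⌊3 / 2 * ((2 : ℝ) ^ M / (2 * p))⌋₊).filter Nat.Prime).card : ℝ) ≤
      ∑ n ∈ (Icc 1 (2 ^ M)).filter
        (fun n : ℕ => ∀ π ∈ PL (t0 + 1) Z, ¬ (π : ℤ) ∣ (n : ℤ)), am t0 (2 ^ M) n := by
  set P : Finset (Σ _ : ℕ, ℕ) := (PL (Z + 1) ((M - 1) / 2)).sigma (fun p : ℕ =>
    (Ioc ⌊(2 : ℝ) ^ M / (2 * p)⌋₊ ⌊3 / 2 * ((2 : ℝ) ^ M / (2 * p))⌋₊).filter Nat.Prime) with hP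
  have key : ∀ a ∈ P, a.1.Prime ∧ a.2.Prime ∧ Z < lv a.1 ∧ a.1 < a.2 ∧ 2 ^ M < 2 * (a.1 * a.2) ∧
      a.1 * a.2 ≤ 2 ^ M := by
    intro a ha
    rw [hP, mem_sigma, mem_filter, mem_PL] at ha
    obtain ⟨⟨h1, h2, h3⟩, h4, h5⟩ := ha
    have := ml_pair h1 (M := M) (by omega) h4
    exact ⟨h1, h5, by omega, this⟩
  have hinj : Set.InjOn (fun a : (Σ _ : ℕ, ℕ) => a.1 * a.2) P := by
    intro a ha b hb e
    obtain ⟨a1, a2, _, a4, _⟩ := key a ha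
    obtain ⟨b1, b2, _, b4, _⟩ := key b hb
    obtain ⟨e1, e2⟩ := ml_inj a1 a2 b1 b2 a4 b4 e
    obtain ⟨x, y⟩ := a
    obtain ⟨x', y'⟩ := b
    simp only at e1 e2
    subst e1 e2
    rfl
  calc _ = ∑ a ∈ P, am t0 (2 ^ M) (a.1 * a.2) := by
        have e : ∑ a ∈ P, am t0 (2 ^ M) (a.1 * a.2) = ∑ a ∈ P, (2 : ℝ) :=
          sum_congr rfl (fun a ha => by
            obtain ⟨a1, a2, a3, a4, a5, a6⟩ := key a ha
            exact ml_am a1 a2 ht a3 a4 a5 a6)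
        rw [e, hP, sum_sigma]
        refine sum_congr rfl (fun p _ => ?_)
        rw [sum_const, nsmul_eq_mul, mul_comm]
    _ = ∑ n ∈ P.image (fun a : (Σ _ : ℕ, ℕ) => a.1 * a.2), am t0 (2 ^ M) n := by
        rw [sum_image hinj]
    _ ≤ _ := by
        apply sum_le_sum_of_subset_of_nonneg
        · intro n hn
          obtain ⟨a, ha, rfl⟩ := mem_image.1 hn
          obtain ⟨a1, a2, a3, a4, a5, a6⟩ := key a ha
          simp only [mem_filter, mem_Icc]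
          refine ⟨⟨Nat.mul_pos a1.pos a2.pos, a6⟩, fun π hπ hd => ?_⟩
          have := mem_PL.1 hπ
          exact ml_ndvd a1 a2 a3 a4 this.1 this.2.2 (Int.natCast_dvd_natCast.1 hd)
        · intro n _ _; exact am_nonneg _ _ _

/-- `x = 2^(T+τ)`.  Use `n = π₁ π₂` with `π₁ ∈ B j`, `Z < j`, `2j + 1 ≤ T + τ`, and `π₂` a prime in `(y, 3y/2]`, `y = x/(2π₁)
≥ π₁`.  Then `x/2 < n ≤ x` (`phi x n = 1`), `lam n = 1`, both primes have level `> Z ≥ t0`, so `am t0 x n = 2`, and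
`(π₁, π₂) ↦ n` is injective (`π₁ < π₂`).  By `primes_short` there are `≥ c y/log y ≥ c x/(4 N π₁)` choices of `π₂`
(`log y ≤ T + τ ≤ 2N`, `y ≥ 2^Z ≥ y0`), `mm j ≥ 1/(2j) ≥ 1/(2N)` (`mm_two_sided`), and the number of `j` is
`≥ (T + τ - 2)/2 - Z ≥ (τ - 13Λ)/2` (`params`: `T = N - 3Λ`, `2Z ≤ N + 2 + 6Λ`, `Λ ≥ 3`). -/
theorem model_low (hP : PAP) : ∃ c : ℝ, 0 < c ∧ ∃ N0 : ℕ, ∀ N ≥ N0, ∀ t0 τ : ℕ, t0 ≤ ZZ N →
    13 * Lam N ≤ τ → τ ≤ N →
    c * 2 ^ (TT N + τ) * ((τ : ℝ) - 13 * Lam N) / (N : ℝ) ^ 2 ≤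
      ∑ n ∈ (Icc 1 (2 ^ (TT N + τ))).filter
        (fun n : ℕ => ∀ π ∈ PL (t0 + 1) (ZZ N), ¬ (π : ℤ) ∣ (n : ℤ)), am t0 (2 ^ (TT N + τ)) n := by
  obtain ⟨c, hc, y0, hy0, hps⟩ := primes_short hP
  obtain ⟨j1, hj1, hmm⟩ := mm_two_sided hP
  obtain ⟨N1, hN1⟩ := params
  refine ⟨c / 8, by positivity, max N1 (2 * (j1 + ⌈y0⌉₊) + 2), fun N hN t0 τ ht hτ1 hτ2 => ?_⟩
  obtain ⟨p1, p2, p3, p4, p5, p6, p7, p8⟩ := hN1 N (le_of_max_le_left hN)
  have hN2 : 2 * (j1 + ⌈y0⌉₊) + 2 ≤ N := le_of_max_le_right hN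
  set M := TT N + τ with hM
  set Z := ZZ N with hZ
  have hM1 : 1 ≤ M := by omega
  have hM2 : M ≤ 2 * N := by omega
  have hN0 : (0 : ℝ) < N := by exact_mod_cast (by omega : 0 < N)
  refine le_trans ?_ (ml_count ht hM1)
  have h1 : ∀ p ∈ PL (Z + 1) ((M - 1) / 2), c * 2 ^ M / (2 * N) * (1 / (p : ℝ)) ≤
      2 * (((Ioc ⌊(2 : ℝ) ^ M / (2 * p)⌋₊ ⌊3 / 2 * ((2 : ℝ) ^ M / (2 * p))⌋₊).filter Nat.Prime).card : ℝ) := by
    intro p hp
    obtain ⟨hp1, hp2, hp3⟩ := mem_PL.1 hp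
    have hp0 : (0 : ℝ) < p := by exact_mod_cast hp1.pos
    have h3 : p * (2 * p) ≤ 2 ^ M := by
      have := le_two_pow_lv p
      calc p * (2 * p) ≤ 2 ^ lv p * (2 * 2 ^ lv p) := by gcongr
        _ = 2 ^ (2 * lv p + 1) := by ring
        _ ≤ 2 ^ M := Nat.pow_le_pow_right (by norm_num) (by omega)
    have h4 : (p : ℝ) ≤ (2 : ℝ) ^ M / (2 * p) := by
      rw [le_div_iff₀ (by positivity)]
      exact_mod_cast h3
    have h5 : ⌈y0⌉₊ ≤ p := by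
      have := lt_lv_iff.1 (show Z < lv p by omega)
      have h' : Z < 2 ^ Z := Nat.lt_two_pow_self
      omega
    have h6 : y0 ≤ (2 : ℝ) ^ M / (2 * p) := by
      refine le_trans ?_ h4
      exact (Nat.le_ceil y0).trans (by exact_mod_cast h5)
    have h7 := hps _ h6
    have h8 : Real.log ((2 : ℝ) ^ M / (2 * p)) ≤ 2 * N := by
      have hp1' : (1 : ℝ) ≤ p := by exact_mod_cast hp1.one_le
      calc Real.log ((2 : ℝ) ^ M / (2 * p)) ≤ Real.log ((2 : ℝ) ^ M) := by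
            apply Real.log_le_log (by positivity)
            exact div_le_self (by positivity) (by linarith)
        _ = M * Real.log 2 := by rw [Real.log_pow]
        _ ≤ (2 * N : ℝ) * 1 := by
            have : Real.log 2 ≤ 1 := by have := Real.log_two_lt_d9; linarith
            have h2 : (M : ℝ) ≤ 2 * N := by exact_mod_cast hM2
            gcongr
        _ = 2 * N := mul_one _
    have h9 : 0 < Real.log ((2 : ℝ) ^ M / (2 * p)) := Real.log_pos (by linarith)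
    have h10 : c * ((2 : ℝ) ^ M / (2 * p)) / (2 * N) ≤
        c * ((2 : ℝ) ^ M / (2 * p)) / Real.log ((2 : ℝ) ^ M / (2 * p)) := by
      gcongr
    calc _ = 2 * (c * ((2 : ℝ) ^ M / (2 * p)) / (2 * N)) := by field_simp
      _ ≤ _ := by linarith
  refine le_trans ?_ (sum_le_sum h1)
  rw [← mul_sum, sum_PL]
  have h2 : ∀ j ∈ Icc (Z + 1) ((M - 1) / 2), 1 / (2 * (N : ℝ)) ≤ ∑ p ∈ B j, 1 / (p : ℝ) := by
    intro j hj
    rw [mem_Icc] at hj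
    have hj0 : (0 : ℝ) < j := by exact_mod_cast (by omega : 0 < j)
    have hjN : (j : ℝ) ≤ N := by exact_mod_cast (by omega : j ≤ N)
    refine le_trans ?_ (hmm j (by omega)).1
    gcongr
  have h3 := sum_le_sum h2
  rw [sum_const, nsmul_eq_mul, Nat.card_Icc] at h3
  have h4 : (τ : ℝ) - 13 * Lam N ≤ 2 * (((M - 1) / 2 + 1 - (Z + 1) : ℕ) : ℝ) := by
    have : τ ≤ 2 * ((M - 1) / 2 + 1 - (Z + 1)) + 13 * Lam N := by omega
    have h' : (τ : ℝ) ≤ 2 * (((M - 1) / 2 + 1 - (Z + 1) : ℕ) : ℝ) + 13 * Lam N := by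
      exact_mod_cast this
    linarith
  calc _ = c * 2 ^ M / (2 * N) * (((τ : ℝ) - 13 * Lam N) / 2 * (1 / (2 * (N : ℝ)))) := by
        field_simp; ring
    _ ≤ c * 2 ^ M / (2 * N) * ((((M - 1) / 2 + 1 - (Z + 1) : ℕ) : ℝ) * (1 / (2 * (N : ℝ)))) := by
        gcongr; linarith
    _ ≤ _ := by gcongr

end Crest.Agent.R1
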