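import Crest.Agent.R1.Basic1

/-! # R1 / Rankin_A : covering lemmas for sums over sets of primes -/

set_option autoImplicit false

noncomputable section

open scoped Classical

namespace Crest.Agent.R1

open Finset

/-- every `g ∈ G` is the image of a parameter `x ∈ P` of larger weight -/
theorem rk_cover {α β : Type*} (G : Finset α) (P : Finset β) (f : α → ℝ) (F : β → ℝ) (φ : β → α)
    (hF : ∀ x ∈ P, 0 ≤ F x) (h : ∀ g ∈ G, ∃ x ∈ P, φ x = g ∧ f g ≤ F x) :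
    ∑ g ∈ G, f g ≤ ∑ x ∈ P, F x := by
  choose ψ h1 h2 h3 using h
  calc ∑ g ∈ G, f g = ∑ g ∈ G.attach, f g := (Finset.sum_attach G f).symm
    _ ≤ ∑ g ∈ G.attach, F (ψ g.1 g.2) := Finset.sum_le_sum fun g _ => h3 g.1 g.2
    _ = ∑ x ∈ G.attach.image (fun g => ψ g.1 g.2), F x := by
        rw [Finset.sum_image]
        intro g _ g' _ e
        apply Subtype.ext
        rw [← h2 g.1 g.2, ← h2 g'.1 g'.2]
        exact congrArg φ e
    _ ≤ _ := by
        refine Finset.sum_le_sum_of_subset_of_nonneg (fun x hx => ?_) fun x hx _ => hF x hx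
        obtain ⟨g, _, rfl⟩ := Finset.mem_image.1 hx
        exact h1 g.1 g.2

theorem rk_min {g : Finset ℕ} (h : g.Nonempty) :
    ∃ (π : ℕ) (g' : Finset ℕ), (∀ x ∈ g', π < x) ∧ π ∉ g' ∧ g = insert π g' :=
  ⟨g.min' h, g.erase (g.min' h), fun x hx => lt_of_le_of_ne
    (g.min'_le x (mem_of_mem_erase hx)) (ne_of_mem_erase hx).symm, notMem_erase _ _,
    (insert_erase (g.min'_mem h)).symm⟩

theorem rk_max {g : Finset ℕ} (h : g.Nonempty) :
    ∃ (π : ℕ) (g' : Finset ℕ), (∀ x ∈ g', x < π) ∧ π ∉ g' ∧ g = insert π g' :=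
  ⟨g.max' h, g.erase (g.max' h), fun x hx => lt_of_le_of_ne
    (g.le_max' x (mem_of_mem_erase hx)) (ne_of_mem_erase hx), notMem_erase _ _,
    (insert_erase (g.max'_mem h)).symm⟩

theorem rk_prod (P : Finset ℕ) (x : ℕ → ℝ) (hx : ∀ p, 0 ≤ x p) :
    ∑ g ∈ P.powerset, ∏ p ∈ g, x p ≤ Real.exp (∑ p ∈ P, x p) := by
  rw [← Finset.prod_one_add, Real.exp_sum]
  exact Finset.prod_le_prod (fun p _ => by linarith [hx p]) fun p _ => by
    linarith [Real.add_one_le_exp (x p)]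

theorem rk_inv_sq {a : ℕ} (ha : 1 ≤ a) (s : Finset ℕ) (hs : ∀ j ∈ s, a ≤ j) :
    ∑ j ∈ s, (1 : ℝ) / (j : ℝ) ^ 2 ≤ 2 / (a : ℝ) := by
  have h := sum_Ioo_inv_sq_le (α := ℝ) (a - 1) (s.sup id + 1)
  rw [Nat.cast_sub ha, Nat.cast_one, sub_add_cancel] at h
  simp only [one_div]
  refine le_trans (Finset.sum_le_sum_of_subset_of_nonneg (fun j hj => ?_)
    fun _ _ _ => by positivity) h
  have h1 := hs j hj
  have h2 : j ≤ s.sup id := Finset.le_sup (f := id) hj
  rw [mem_Ioo]; omega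

theorem rk_lv_le_sg {g : Finset ℕ} {π : ℕ} (h : π ∈ g) : lv π ≤ sg g :=
  Finset.single_le_sum (f := lv) (fun _ _ => Nat.zero_le _) h

end Crest.Agent.R1
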