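import Crest.Agent.R1.Primes
import Crest.Agent.R1.Rankin_A

/-!
# R1 / Rankin : Rankin's trick for sets of primes with levels in `[a, b]`

`∑_{g ⊆ P} ∏_{p ∈ g} x_p = ∏_{p ∈ P} (1 + x_p) ≤ exp (∑ x_p)` (`Finset.prod_one_add`/`Finset.prod_add_one`).
-/

set_option autoImplicit false

noncomputable section

open scoped Classical

namespace Crest.Agent.R1

open Finset

/-- `x_p = exp (lv p / b) / p`, `exp s ≤ 1 + 2 s` on `[0,1]`, so `∑ x_p ≤ ∑ mm j + (2/b) ∑ j mm j ≤
log (b/a) + C` (`sum_PL_lv`, `sum_mm_le`, `mm_le`). -/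
theorem rankin (hP : PAP) : ∃ C : ℝ, 1 ≤ C ∧ ∀ a b : ℕ, 1 ≤ a → a ≤ b →
    ∑ g ∈ (PL a b).powerset, wt g * Real.exp ((sg g : ℝ) / b) ≤ C * b / a := by
  obtain ⟨C1, hC1, h1⟩ := sum_mm_le hP
  obtain ⟨C2, hC2, h2⟩ := mm_le hP
  refine ⟨Real.exp (C1 + 2 * C2), Real.one_le_exp (by linarith), fun a b ha hab => ?_⟩
  have ha' : (0 : ℝ) < a := by exact_mod_cast ha
  have hb' : (0 : ℝ) < b := by exact_mod_cast ha.trans hab
  have e : ∀ g : Finset ℕ, wt g * Real.exp ((sg g : ℝ) / b) =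
      ∏ p ∈ g, (1 / (p : ℝ) * Real.exp ((lv p : ℝ) / b)) := by
    intro g
    rw [Finset.prod_mul_distrib, ← Real.exp_sum, sg, Nat.cast_sum, Finset.sum_div]; rfl
  simp only [e]
  refine (rk_prod _ _ fun p => by positivity).trans ?_
  rw [sum_PL_lv a b (fun j => Real.exp ((j : ℝ) / b))]
  have h3 : ∑ j ∈ Icc a b, mm j * Real.exp ((j : ℝ) / b) ≤ ∑ j ∈ Icc a b, (mm j + 2 * C2 / b) := by
    refine Finset.sum_le_sum fun j hj => ?_
    rw [mem_Icc] at hj
    have hj0 : (0 : ℝ) < j := by exact_mod_cast ha.trans hj.1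
    have hjb : (j : ℝ) / b ≤ 1 := by rw [div_le_one hb']; exact_mod_cast hj.2
    have hj1 : 0 ≤ (j : ℝ) / b := by positivity
    have h4 := Real.abs_exp_sub_one_le (x := (j : ℝ) / b) (by rwa [abs_of_nonneg hj1])
    rw [abs_of_nonneg hj1] at h4
    have h5 : Real.exp ((j : ℝ) / b) ≤ 1 + 2 * (j / b) := by linarith [le_abs_self (Real.exp ((j : ℝ) / b) - 1)]
    have h6 : mm j * (2 * ((j : ℝ) / b)) ≤ 2 * C2 / b := by
      refine (mul_le_mul_of_nonneg_right (h2 j (ha.trans hj.1)) (by positivity)).trans (le_of_eq ?_)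
      field_simp
    nlinarith [mul_le_mul_of_nonneg_left h5 (mm_nonneg j)]
  rw [Finset.sum_add_distrib, Finset.sum_const, Nat.card_Icc, nsmul_eq_mul] at h3
  have h7 : ((b + 1 - a : ℕ) : ℝ) * (2 * C2 / b) ≤ 2 * C2 := by
    have : ((b + 1 - a : ℕ) : ℝ) ≤ b := by exact_mod_cast (by omega : b + 1 - a ≤ b)
    refine (mul_le_mul_of_nonneg_right this (by positivity)).trans (le_of_eq ?_)
    field_simp
  calc _ ≤ Real.exp (Real.log ((b : ℝ) / a) + (C1 + 2 * C2)) :=
        Real.exp_le_exp.2 (by linarith [h1 a b ha hab])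
    _ = _ := by rw [Real.exp_add, Real.exp_log (by positivity)]; ring

theorem rankin_tail (hP : PAP) : ∃ C : ℝ, 1 ≤ C ∧ ∀ (a b : ℕ) (U : ℝ), 1 ≤ a → a ≤ b →
    ∑ g ∈ (PL a b).powerset.filter (fun g => U ≤ (sg g : ℝ)), wt g
      ≤ C * b / a * Real.exp (-(U / b)) := by
  obtain ⟨C, hC, h⟩ := rankin hP
  refine ⟨C, hC, fun a b U ha hab => ?_⟩
  have hb' : (0 : ℝ) < b := by exact_mod_cast ha.trans hab
  refine le_trans ?_ (mul_le_mul_of_nonneg_right (h a b ha hab) (Real.exp_pos _).le)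
  rw [Finset.sum_mul, Finset.sum_filter]
  refine Finset.sum_le_sum fun g _ => ?_
  have := wt_nonneg g
  split_ifs with hg
  · rw [mul_assoc, ← Real.exp_add]
    refine le_mul_of_one_le_right this (Real.one_le_exp ?_)
    rw [← sub_eq_add_neg, sub_nonneg]
    exact div_le_div_of_nonneg_right hg hb'.le
  · positivity

/-- `∏ (1 + 2/p) ≤ exp (2 log b + C)` -/
theorem sum_two_pow_card (hP : PAP) : ∃ C : ℝ, 1 ≤ C ∧ ∀ b : ℕ, 1 ≤ b →
    ∑ g ∈ (PL 1 b).powerset, wt g * 2 ^ g.card ≤ C * (b : ℝ) ^ 2 := by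
  obtain ⟨C1, hC1, h1⟩ := sum_mm_le hP
  refine ⟨Real.exp (2 * C1), Real.one_le_exp (by linarith), fun b hb => ?_⟩
  have hb' : (0 : ℝ) < b := by exact_mod_cast hb
  have e : ∀ g : Finset ℕ, wt g * 2 ^ g.card = ∏ p ∈ g, (1 / (p : ℝ) * 2) := by
    intro g
    rw [Finset.prod_mul_distrib, Finset.prod_const]; rfl
  simp only [e]
  refine (rk_prod _ _ fun p => by positivity).trans ?_
  rw [sum_PL_lv 1 b (fun _ => 2), ← Finset.sum_mul]
  have h2 := h1 1 b le_rfl hb
  rw [Nat.cast_one, div_one] at h2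
  calc _ ≤ Real.exp (Real.log b + Real.log b + 2 * C1) := Real.exp_le_exp.2 (by linarith)
    _ = _ := by rw [Real.exp_add, Real.exp_add, Real.exp_log hb']; ring

theorem rk_comp (hP : PAP) : ∃ C : ℝ, 1 ≤ C ∧ ∀ a b U : ℕ, 1 ≤ a → 1 ≤ b → b ≤ U →
    ∑ g ∈ (PL a b).powerset.filter (fun g => sg g = U), wt g
      ≤ C / a * Real.exp (-((U : ℝ) / b)) := by
  obtain ⟨C1, hC1, h1⟩ := mm_le hP
  obtain ⟨C2, hC2, h2⟩ := rankin_tail hP
  refine ⟨12 * C1 * C2, by nlinarith, fun a b U ha hb hU => ?_⟩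
  have ha' : (0 : ℝ) < a := by exact_mod_cast ha
  have hb' : (0 : ℝ) < b := by exact_mod_cast hb
  have hU' : (1 : ℝ) ≤ (U : ℝ) / b := by rw [one_le_div hb']; exact_mod_cast hU
  refine (rk_cover _ (((range b).filter fun i => a ≤ b / 2 ^ i).sigma fun i =>
    ((PL a (b / 2 ^ i)).powerset.filter
      (fun g => (U : ℝ) - (b / 2 ^ i : ℕ) ≤ (sg g : ℝ))).sigma fun g =>
      (B (U - sg g)).filter fun _ => b < 2 ^ (i + 1) * (U - sg g)) wt
    (fun x => wt x.2.1 * (1 / (x.2.2 : ℝ))) (fun x => insert x.2.2 x.2.1)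
    (fun x _ => mul_nonneg (wt_nonneg _) (by positivity)) fun g hg => ?_).trans ?_
  · rw [mem_filter, mem_powerset] at hg
    obtain ⟨hg1, hg2⟩ := hg
    have hne : g.Nonempty := by
      rw [nonempty_iff_ne_empty]
      rintro rfl
      simp [sg] at hg2
      omega
    obtain ⟨π, g', m1, m2, rfl⟩ := rk_max hne
    rw [sg_insert m2] at hg2
    obtain ⟨p1, p2, p3⟩ := mem_PL.1 (hg1 (mem_insert_self _ _))
    have hj : 0 < lv π := by omega
    set i := Nat.log 2 (b / lv π) with hi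
    have hq : b / lv π ≠ 0 := (Nat.div_pos p3 hj).ne'
    have i1 : 2 ^ i * lv π ≤ b :=
      (Nat.le_div_iff_mul_le hj).1 (Nat.pow_log_le_self 2 hq)
    have i2 : b < 2 ^ (i + 1) * lv π :=
      (Nat.div_lt_iff_lt_mul hj).1 (Nat.lt_pow_succ_log_self one_lt_two _)
    have i3 : lv π ≤ b / 2 ^ i := (Nat.le_div_iff_mul_le (by positivity)).2 (by rwa [mul_comm])
    have i4 : i < b := lt_of_lt_of_le (Nat.lt_two_pow_self) (le_trans
      (Nat.le_mul_of_pos_right _ hj) i1)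
    have e : U - sg g' = lv π := by omega
    refine ⟨⟨i, g', π⟩, ?_, rfl, by rw [wt_insert m2, mul_comm]⟩
    simp only [mem_sigma, mem_filter, mem_range, mem_powerset, e]
    refine ⟨⟨i4, p2.trans i3⟩, ⟨fun x hx => ?_, ?_⟩, mem_B.2 ⟨p1, rfl⟩, i2⟩
    · obtain ⟨q1, q2, -⟩ := mem_PL.1 (hg1 (mem_insert_of_mem hx))
      exact mem_PL.2 ⟨q1, q2, (lv_mono (m1 x hx).le).trans i3⟩
    · have : (U : ℝ) ≤ (sg g' : ℝ) + (b / 2 ^ i : ℕ) := by exact_mod_cast (by omega)
      linarith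
  · rw [Finset.sum_sigma]
    have key : ∀ i ∈ (range b).filter fun i => a ≤ b / 2 ^ i,
        ∑ x ∈ ((PL a (b / 2 ^ i)).powerset.filter
          (fun g => (U : ℝ) - (b / 2 ^ i : ℕ) ≤ (sg g : ℝ))).sigma fun g =>
          (B (U - sg g)).filter fun _ => b < 2 ^ (i + 1) * (U - sg g), wt x.1 * (1 / (x.2 : ℝ)) ≤
        6 * C1 * C2 / a * Real.exp (-((U : ℝ) / b)) * (1 / 2) ^ i := by
      intro i hi
      have hi' := (mem_filter.1 hi).2
      set c := b / 2 ^ i with hc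
      have hc0 : (0 : ℝ) < c := by exact_mod_cast ha.trans hi'
      have hcb : (c : ℝ) * 2 ^ i ≤ b := by exact_mod_cast Nat.div_mul_le_self b (2 ^ i)
      rw [Finset.sum_sigma]
      have k1 : ∀ g : Finset ℕ, ∑ π ∈ (B (U - sg g)).filter
          fun _ => b < 2 ^ (i + 1) * (U - sg g), wt g * (1 / (π : ℝ)) ≤ wt g * (2 * C1 / c) := by
        intro g
        rw [← Finset.mul_sum]
        refine mul_le_mul_of_nonneg_left ?_ (wt_nonneg g)
        by_cases hh : b < 2 ^ (i + 1) * (U - sg g)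
        · rw [Finset.filter_true_of_mem fun _ _ => hh]
          generalize U - sg g = j at hh
          have hj : 1 ≤ j := Nat.pos_of_ne_zero (by rintro rfl; simp at hh)
          have hj' : (0 : ℝ) < j := by exact_mod_cast hj
          refine (h1 j hj).trans ?_
          have : (b : ℝ) ≤ 2 ^ (i + 1) * j := by exact_mod_cast hh.le
          have h3 : (c : ℝ) ≤ 2 * j := by
            apply le_of_mul_le_mul_right _ (show (0 : ℝ) < 2 ^ i by positivity)
            rw [pow_succ] at this; linarith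
          rw [div_le_div_iff₀ hj' hc0]; nlinarith
        · rw [Finset.filter_false_of_mem fun _ _ => hh, sum_empty]; positivity
      refine (Finset.sum_le_sum fun g _ => k1 g).trans ?_
      rw [← Finset.sum_mul]
      refine (mul_le_mul_of_nonneg_right (h2 a c _ ha hi') (by positivity)).trans ?_
      have k2 : Real.exp (-(((U : ℝ) - c) / c)) ≤ 3 * (Real.exp (-((U : ℝ) / b)) * (1 / 2) ^ i) := by
        have a1 : (U : ℝ) / b + i ≤ U / c := by
          have b1 : (1 : ℝ) + i ≤ 2 ^ i := by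
            have := one_add_mul_le_pow (show (-2 : ℝ) ≤ 1 by norm_num) i
            norm_num at this; exact this
          have b2 : (U : ℝ) / b * 2 ^ i ≤ U / c := by
            rw [div_mul_eq_mul_div, div_le_div_iff₀ hb' hc0]
            have : (0 : ℝ) ≤ U := Nat.cast_nonneg _
            nlinarith [mul_le_mul_of_nonneg_left hcb this]
          have : (0 : ℝ) ≤ i := Nat.cast_nonneg _
          nlinarith
        have a2 : Real.exp (-(i : ℝ)) ≤ (1 / 2) ^ i := by
          rw [show -(i : ℝ) = i * (-1) by ring, Real.exp_nat_mul]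
          apply pow_le_pow_left₀ (Real.exp_pos _).le
          rw [Real.exp_neg, ← one_div]
          exact one_div_le_one_div_of_le two_pos (by linarith [Real.add_one_le_exp (1 : ℝ)])
        calc _ ≤ Real.exp (1 + (-((U : ℝ) / b) + -(i : ℝ))) := by
              apply Real.exp_le_exp.2
              rw [sub_div, div_self hc0.ne']; linarith
          _ ≤ _ := by
              rw [Real.exp_add, Real.exp_add]
              have := Real.exp_one_lt_d9
              gcongr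
              linarith
      calc _ ≤ C2 * c / a * (3 * (Real.exp (-((U : ℝ) / b)) * (1 / 2) ^ i)) * (2 * C1 / c) := by
            gcongr
        _ = _ := by field_simp; ring
    refine (Finset.sum_le_sum key).trans ?_
    rw [← Finset.mul_sum]
    have g1 : ∑ i ∈ (range b).filter fun i => a ≤ b / 2 ^ i, (1 / 2 : ℝ) ^ i ≤ 2 :=
      (Finset.sum_le_sum_of_subset_of_nonneg (filter_subset _ _) fun _ _ _ => by positivity).trans
        (sum_geometric_two_le b)
    refine (mul_le_mul_of_nonneg_left g1 (by positivity)).trans (le_of_eq (by ring))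

/-- Exact sums.  All elements of `g` have level `≤ U`, so we may replace `b` by `min b U` and assume
`b ≤ U` (if `U < b` then `exp (-1) ≤ exp (-U/b)`).  `g ≠ ∅`; let `π` be its largest element, `j = lv π`,
`g = insert π g'`.  Let `i` be such that `b < 2^(i+1) j` and `2^i j ≤ b`, `b_i = b / 2^i ≥ j ≥ a`.  Then
`g' ⊆ PL a b_i`, `sg g' = U - j ≥ U - b_i`, and `j` is determined by `g'`; `mm j ≤ C/j ≤ C 2^(i+1)/b`.  Hence the
`g` with given `i` contribute `≤ (C 2^(i+1)/b) · C (b_i/a) e^{1 - U/b_i} ≤ (C'/a) e^{-2^i U/b}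
≤ (C'/a) e^{-U/b} e^{-i}` (`2^i u ≥ u + i` for `u ≥ 1`).  Sum over `i`. -/
theorem comp_le (hP : PAP) : ∃ C : ℝ, 1 ≤ C ∧ ∀ a b U : ℕ, 1 ≤ a → 1 ≤ b → 1 ≤ U →
    ∑ g ∈ (PL a b).powerset.filter (fun g => sg g = U), wt g
      ≤ C / a * Real.exp (-((U : ℝ) / b)) := by
  obtain ⟨C, hC, h⟩ := rk_comp hP
  refine ⟨C, hC, fun a b U ha hb hU => ?_⟩
  rcases le_or_gt b U with hbU | hbU
  · exact h a b U ha hb hbU
  have hb' : (0 : ℝ) < b := by exact_mod_cast hb
  have hU' : (0 : ℝ) < U := by exact_mod_cast hU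
  refine le_trans (Finset.sum_le_sum_of_subset_of_nonneg (fun g hg => ?_) fun g _ _ => wt_nonneg g)
    ((h a U U ha hU le_rfl).trans ?_)
  · rw [mem_filter, mem_powerset] at hg ⊢
    refine ⟨fun x hx => ?_, hg.2⟩
    obtain ⟨q1, q2, -⟩ := mem_PL.1 (hg.1 hx)
    exact mem_PL.2 ⟨q1, q2, hg.2 ▸ rk_lv_le_sg hx⟩
  · refine mul_le_mul_of_nonneg_left (Real.exp_le_exp.2 ?_) (by positivity)
    rw [div_self hU'.ne', neg_le_neg_iff, div_le_one hb']
    exact_mod_cast hbU.le

/-- Two elements on the same level `j ∈ [a, b]`: remove them; `∑_{π, π' ∈ B j} 1/(π π') ≤ (mm j)² ≤ C²/j²`, the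
factor `exp (2j/b) ≤ e²`, the rest is bounded by `rankin`, and `∑_{j ≥ a} 1/j² ≤ 2/a`. -/
theorem rankin_tie (hP : PAP) : ∃ C : ℝ, 1 ≤ C ∧ ∀ t a b : ℕ, 1 ≤ t → t ≤ b → 1 ≤ a →
    ∑ g ∈ (PL t b).powerset.filter (BadTie a b), wt g * Real.exp ((sg g : ℝ) / b)
      ≤ C * b / (t * a) := by
  obtain ⟨C1, hC1, h1⟩ := mm_le hP
  obtain ⟨C2, hC2, h2⟩ := rankin hP
  refine ⟨18 * C1 ^ 2 * C2, by nlinarith, fun t a b ht htb ha => ?_⟩
  have ha' : (0 : ℝ) < a := by exact_mod_cast ha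
  have ht' : (0 : ℝ) < t := by exact_mod_cast ht
  have hb' : (0 : ℝ) < b := by exact_mod_cast ht.trans htb
  refine (rk_cover _ ((Icc a b).sigma fun j => B j ×ˢ B j ×ˢ (PL t b).powerset) _
    (fun x => 1 / (x.2.1 : ℝ) * (1 / (x.2.2.1 : ℝ) *
      (9 * (wt x.2.2.2 * Real.exp ((sg x.2.2.2 : ℝ) / b)))))
    (fun x => insert x.2.1 (insert x.2.2.1 x.2.2.2))
    (fun x _ => by have := wt_nonneg x.2.2.2; positivity) fun g hg => ?_).trans ?_
  · rw [mem_filter, mem_powerset] at hg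
    obtain ⟨hg1, π, m1, π', m2, hne, e, l1, l2⟩ := hg
    have m3 : π' ∈ g.erase π := mem_erase.2 ⟨hne.symm, m2⟩
    have e1 : insert π (insert π' ((g.erase π).erase π')) = g := by
      rw [insert_erase m3, insert_erase m1]
    have n1 : π ∉ insert π' ((g.erase π).erase π') := by rw [insert_erase m3]; exact notMem_erase _ _
    have n2 : π' ∉ (g.erase π).erase π' := notMem_erase _ _
    refine ⟨⟨lv π, π, π', (g.erase π).erase π'⟩, ?_, e1, ?_⟩
    · simp only [mem_sigma, mem_Icc, mem_product, mem_powerset]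
      exact ⟨⟨l1, l2⟩, mem_B.2 ⟨(mem_PL.1 (hg1 m1)).1, rfl⟩,
        mem_B.2 ⟨(mem_PL.1 (hg1 m2)).1, e.symm⟩,
        ((erase_subset _ _).trans (erase_subset _ _)).trans hg1⟩
    · simp only
      generalize (g.erase π).erase π' = g' at e1 n1 n2
      rw [← e1, wt_insert n1, wt_insert n2, sg_insert n1, sg_insert n2, ← e]
      have b1 : Real.exp ((lv π : ℝ) / b) ≤ 3 := by
        have : (lv π : ℝ) / b ≤ 1 := by rw [div_le_one hb']; exact_mod_cast l2
        linarith [Real.exp_le_exp.2 this, Real.exp_one_lt_d9]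
      have := wt_nonneg g'
      push_cast
      rw [add_div, add_div, Real.exp_add, Real.exp_add]
      calc _ ≤ 1 / (π : ℝ) * (1 / (π' : ℝ) * wt g') * (3 * (3 * Real.exp ((sg g' : ℝ) / b))) := by
            gcongr
        _ = _ := by ring
  · rw [Finset.sum_sigma]
    have key : ∀ j ∈ Icc a b, ∑ x ∈ B j ×ˢ B j ×ˢ (PL t b).powerset, 1 / (x.1 : ℝ) *
        (1 / (x.2.1 : ℝ) * (9 * (wt x.2.2 * Real.exp ((sg x.2.2 : ℝ) / b)))) ≤
        9 * C1 ^ 2 * (C2 * b / t) * (1 / (j : ℝ) ^ 2) := by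
      intro j hj
      have hj1 : 1 ≤ j := ha.trans (mem_Icc.1 hj).1
      simp only [Finset.sum_product, ← Finset.mul_sum, ← Finset.sum_mul]
      have k1 := h1 j hj1
      have k2 := h2 t b ht htb
      have k3 := mm_nonneg j
      have k4 : 0 ≤ ∑ g ∈ (PL t b).powerset, wt g * Real.exp ((sg g : ℝ) / b) :=
        Finset.sum_nonneg fun g _ => mul_nonneg (wt_nonneg g) (Real.exp_pos _).le
      calc mm j * (mm j * (9 * ∑ g ∈ (PL t b).powerset, wt g * Real.exp ((sg g : ℝ) / b)))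
          ≤ C1 / j * (C1 / j * (9 * (C2 * b / t))) := by gcongr
        _ = _ := by ring
    refine (Finset.sum_le_sum key).trans ?_
    rw [← Finset.mul_sum]
    refine (mul_le_mul_of_nonneg_left (rk_inv_sq ha _ fun j hj => (mem_Icc.1 hj).1)
      (by positivity)).trans (le_of_eq ?_)
    field_simp; ring

end Crest.Agent.R1
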