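import Crest.Agent.R1.Ident
import Crest.Agent.R1.ModelLow
import Crest.Agent.R1.Disc
import Crest.Agent.R1.Rankin

/-!
# R1 / Model : the inequality given by the model

`x = 2^(T+τ)`, `ω = 6Λ`, `τ' = τ + 6Λ + 1`.  Apply `weighted_ident` to `Ω = Icc 1 x`, `v n = n`, `a = am t0 x`, and divide by `x`.
* left side: `model_low`.
* support terms: `moments` (`pr d` is coprime to `pr (PL 0 t0)`), error `≤ C ∑_{d ∈ SS} √(x/pr d) ≤ C ∑_{n ≤ 2^T} √(x/n)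
  ≤ 2C √(x 2^T) = 2 C x 2^(-τ/2) ≤ 2C x/N³` (`pr` is injective on `SS` with values in `[1, 2^T]`; `2^Λ ≥ N`).
* boundary terms (`disc_le`): the summands `2` give `≤ 2 · 2^(2Z) ≤ x/N³` (`card_BP_le`, `2Z + 1 + 3Λ ≤ T + 13Λ`).
  For `z = (p, g)`, `d = p · pr g`, `y = x/d`, `t = lv p`: if `g.card + 1 > ω` use `nu ≤ y ≤ x/d` and
  `∑ 1/d ≤ 2^(-ω) ∑_{d ⊆ PL 1 Z} 2^|d| wt d ≤ C Z²/N⁶` (`sum_two_pow_card`; `z ↦ insert p g` is injective).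
  If `g.card + 1 ≤ ω`: `2^(sg g + t) ≤ 2^ω d` (`two_pow_sg_le`) and `T ≤ sg g + 3t` give `y ≤ 2^(2t + τ + ω)`, so `nu_le`
  applies with `σ = τ + ω ≤ τ'`; moreover `nu ≠ 0` forces `y ≥ p² > 2^(2t-2)`, hence `sg g + 3t ≤ T + τ + ω + 1`.
-/

set_option autoImplicit false

noncomputable section

open scoped Classical

namespace Crest.Agent.R1

open Finset

theorem md_sqrt (M : ℕ) : ∑ n ∈ Icc 1 M, Real.sqrt (1 / (n : ℝ)) ≤ 2 * Real.sqrt M := by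
  induction M with
  | zero => simp
  | succ M ih =>
    rw [sum_Icc_succ_top (by omega), one_div, Real.sqrt_inv]
    have h1 := Real.sq_sqrt (Nat.cast_nonneg (α := ℝ) M)
    have h2 := Real.sq_sqrt (Nat.cast_nonneg (α := ℝ) (M + 1))
    have h3 : 0 < Real.sqrt (M + 1 : ℕ) := Real.sqrt_pos.2 (by positivity)
    have h4 : (Real.sqrt (M + 1 : ℕ))⁻¹ ≤ 2 * Real.sqrt (M + 1 : ℕ) - 2 * Real.sqrt M := by
      rw [inv_le_iff_one_le_mul₀ h3]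
      push_cast at h2 ⊢
      nlinarith [sq_nonneg (Real.sqrt (M + 1) - Real.sqrt M)]
    linarith

theorem md_notMem {t0 Z T : ℕ} {z : ℕ × Finset ℕ} (hz : z ∈ BP t0 Z T) : z.1 ∉ z.2 :=
  fun h => lt_irrefl _ ((mem_BP.1 hz).2.2.2.2.1 _ h)

theorem md_inj (t0 Z T : ℕ) : Set.InjOn (fun z : ℕ × Finset ℕ => insert z.1 z.2) (BP t0 Z T) := by
  intro x hx y hy h
  have h' : insert x.1 x.2 = insert y.1 y.2 := h
  have e : x.1 = y.1 := by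
    by_contra hne
    exact lt_asymm ((mem_BP.1 hy).2.2.2.2.1 _
      ((mem_insert.1 (h' ▸ mem_insert_self x.1 x.2)).resolve_left hne)) ((mem_BP.1 hx).2.2.2.2.1 _
      ((mem_insert.1 (h' ▸ mem_insert_self y.1 y.2)).resolve_left (Ne.symm hne)))
  refine Prod.ext e ?_
  rw [← erase_insert (md_notMem hx), h', e, erase_insert (md_notMem hy)]

theorem sum_sqrt_SS (t0 Z T : ℕ) (hZT : Z < T) :
    ∑ d ∈ SS t0 Z T, Real.sqrt (1 / (pr d : ℝ)) ≤ 2 * Real.sqrt (2 ^ T) := by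
  have h1 : ∀ d ∈ SS t0 Z T, ∀ p ∈ d, p.Prime := fun d hd p hp => ((mem_SS.1 hd).1 p hp).1
  rw [← sum_image (f := fun n : ℕ => Real.sqrt (1 / (n : ℝ))) fun d hd e he =>
    pr_inj (h1 d hd) (h1 e he)]
  refine le_trans (sum_le_sum_of_subset_of_nonneg (fun n hn => ?_) fun _ _ _ => Real.sqrt_nonneg _)
    ((md_sqrt (2 ^ T)).trans_eq (by push_cast; rfl))
  obtain ⟨d, hd, rfl⟩ := mem_image.1 hn
  exact mem_Icc.2 ⟨pr_pos (h1 d hd), (pr_le d).trans (Nat.pow_le_pow_right two_pos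
    ((mem_SS.1 hd).2.sg_lt (fun p hp => ((mem_SS.1 hd).1 p hp).2.2) hZT).le)⟩

theorem sum_BP_large (hP : PAP) : ∃ C : ℝ, 0 ≤ C ∧ ∀ t0 Z T ω : ℕ, 1 ≤ Z →
    ∑ z ∈ (BP t0 Z T).filter (fun z => ¬ (z.2.card + 1 ≤ ω)), wt z.2 / z.1
      ≤ C * (Z : ℝ) ^ 2 / 2 ^ ω := by
  obtain ⟨C, hC, h⟩ := sum_two_pow_card hP
  refine ⟨C, by linarith, fun t0 Z T ω hZ => ?_⟩
  rw [le_div_iff₀ (by positivity), sum_mul]
  refine le_trans ?_ (h Z hZ)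
  calc _ ≤ ∑ z ∈ (BP t0 Z T).filter (fun z => ¬ (z.2.card + 1 ≤ ω)),
        wt (insert z.1 z.2) * 2 ^ (insert z.1 z.2).card := by
        refine sum_le_sum fun z hz => ?_
        obtain ⟨h1, h2⟩ := mem_filter.1 hz
        rw [wt_insert (md_notMem h1), card_insert_of_notMem (md_notMem h1), one_div_mul_eq_div]
        exact mul_le_mul_of_nonneg_left (pow_le_pow_right₀ one_le_two (by omega))
          (div_nonneg (wt_nonneg _) (Nat.cast_nonneg _))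
    _ ≤ _ := by
        rw [← sum_image (f := fun g => wt g * 2 ^ g.card)
          ((md_inj t0 Z T).mono (coe_subset.2 (filter_subset _ _)))]
        refine sum_le_sum_of_subset_of_nonneg (fun g hg => ?_) fun _ _ _ =>
          mul_nonneg (wt_nonneg _) (by positivity)
        obtain ⟨z, hz, rfl⟩ := mem_image.1 hg
        obtain ⟨h1, h2, -⟩ := mem_BP.1 (mem_filter.1 hz).1
        refine mem_powerset.2 (insert_subset (mem_PL.2 ⟨h1.1, by omega, h1.2.2⟩) fun π hπ => ?_)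
        have := h2 π hπ
        exact mem_PL.2 ⟨this.1, by omega, this.2.2⟩

theorem md_supp {t0 : ℕ} {c0 C : ℝ} (hC : 0 ≤ C) {x : ℕ} (h : ∀ d : ℕ, 1 ≤ d →
    Nat.Coprime d (pr (PL 0 t0)) →
    |∑ n ∈ (Icc 1 x).filter (fun n : ℕ => (d : ℤ) ∣ (n : ℤ)), am t0 x n - c0 * x / d|
      ≤ C * Real.sqrt (x / d)) {Z T : ℕ} (hZT : Z < T) :
    ∑ d ∈ SS t0 Z T, (-1) ^ d.card *
        ∑ n ∈ (Icc 1 x).filter (fun n : ℕ => ((pr d : ℕ) : ℤ) ∣ (n : ℤ)), am t0 x n ≤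
      x * (c0 * Tm t0 Z T) + 2 * C * Real.sqrt (x * 2 ^ T) := by
  have h1 := mul_le_mul_of_nonneg_left (sum_sqrt_SS t0 Z T hZT)
    (mul_nonneg hC (Real.sqrt_nonneg x))
  rw [Real.sqrt_mul (Nat.cast_nonneg _)]
  refine le_trans ?_ (add_le_add le_rfl (h1.trans_eq (by ring)))
  rw [Tm, mul_sum, mul_sum, mul_sum, ← sum_add_distrib]
  refine sum_le_sum fun d hd => ?_
  have h2 := (mem_SS.1 hd).1
  have h3 := abs_le.1 (h (pr d) (pr_pos fun p hp => (h2 p hp).1)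
    (coprime_pr (fun p hp => (mem_PL.1 hp).1) fun p hp h4 => by
      have h5 := h2 p ((prime_dvd_pr (fun p hp => (h2 p hp).1) (mem_PL.1 hp).1).1 h4)
      have h6 := mem_PL.1 hp
      omega))
  rw [mul_assoc C, ← Real.sqrt_mul (Nat.cast_nonneg _), mul_one_div, wt_eq]
  have e : c0 * x / pr d = x * (c0 * (1 / pr d)) := by ring
  rcases neg_one_pow_eq_or ℝ d.card with e' | e' <;> rw [e'] <;> linarith [h3.1, h3.2]

theorem md_div {z : ℕ × Finset ℕ} (x : ℕ) :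
    ((x / (z.1 * pr z.2) : ℕ) : ℝ) ≤ x * (wt z.2 / z.1) :=
  Nat.cast_div_le.trans_eq (by rw [wt_eq]; push_cast; ring)

theorem md_nu (y p : ℕ) : nu y p ≤ y :=
  (card_filter_le _ _).trans (by rw [Nat.card_Icc]; omega)

theorem md_bd {C : ℝ} (hC : 0 ≤ C) (h : ∀ y p σ : ℕ, p.Prime → 2 ≤ lv p → 1 ≤ σ →
    y ≤ 2 ^ (2 * lv p + σ) → (nu y p : ℝ) ≤ C * y * min (1 / (lv p : ℝ)) (σ / (lv p : ℝ) ^ 2))
    {t0 Z T ω τ : ℕ} (ht0 : 1 ≤ t0) :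
    ∑ z ∈ (BP t0 Z T).filter (fun z => z.2.card + 1 ≤ ω),
      (nu (2 ^ (T + τ) / (z.1 * pr z.2)) z.1 : ℝ) ≤
      (2 ^ (T + τ) : ℕ) * (C * NN t0 Z T ω (τ + ω + 1)) := by
  rw [NN, ← filter_filter, sum_filter (fun z : ℕ × Finset ℕ => sg z.2 + 3 * lv z.1 ≤ _), mul_sum,
    mul_sum]
  refine sum_le_sum fun z hz => ?_
  obtain ⟨h1, h2⟩ := mem_filter.1 hz
  obtain ⟨h3, h4, -, -, -, h5⟩ := mem_BP.1 h1
  have h6 := two_pow_sg_le (d := insert z.1 z.2)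
    ((forall_mem_insert _ _ _).2 ⟨h3.1, fun π hπ => (h4 π hπ).1⟩)
  rw [sg_insert (md_notMem h1), card_insert_of_notMem (md_notMem h1), pr_insert (md_notMem h1)] at h6
  replace h6 := h6.trans (Nat.mul_le_mul_right _ (Nat.pow_le_pow_right two_pos h2))
  split_ifs with h7
  · refine (h _ _ (τ + ω + 1) h3.1 (by omega) (by omega) (Nat.div_le_of_le_mul ?_)).trans ?_
    · calc 2 ^ (T + τ) ≤ 2 ^ (lv z.1 + sg z.2) * 2 ^ (2 * lv z.1 + τ + 1) := by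
            rw [← pow_add]
            exact Nat.pow_le_pow_right two_pos (by omega)
        _ ≤ 2 ^ ω * (z.1 * pr z.2) * 2 ^ (2 * lv z.1 + τ + 1) := Nat.mul_le_mul_right _ h6
        _ = _ := by ring
    · refine le_of_le_of_eq (mul_le_mul_of_nonneg_right (mul_le_mul_of_nonneg_left
        (md_div _) hC) (by positivity)) (by ring)
  · rw [nu_eq_zero (Nat.div_lt_of_lt_mul (Nat.lt_of_mul_lt_mul_left (a := 2 ^ ω * 4) ?_))]
    · simp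
    · have h8 := two_pow_lv_lt h3.1.two_le
      have h9 : 0 < pr z.2 := pr_pos fun π hπ => (h4 π hπ).1
      have h10 := h3.1.pos
      calc 2 ^ ω * 4 * 2 ^ (T + τ) = 2 ^ (T + τ + ω + 2) := by ring
        _ ≤ 2 ^ (lv z.1 + sg z.2) * (2 ^ lv z.1) ^ 2 := by
            rw [← pow_mul, ← pow_add]
            exact Nat.pow_le_pow_right two_pos (by omega)
        _ ≤ 2 ^ ω * (z.1 * pr z.2) * (2 ^ lv z.1) ^ 2 := Nat.mul_le_mul_right _ h6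
        _ < 2 ^ ω * (z.1 * pr z.2) * (2 * z.1) ^ 2 := by gcongr
        _ = _ := by ring

theorem model_ineq (hP : PAP) (t0 : ℕ) (ht0 : 1 ≤ t0) : ∃ c0 c1 C : ℝ, 0 < c0 ∧ c0 ≤ 1 ∧ 0 < c1 ∧
    0 ≤ C ∧ ∃ N0 : ℕ, ∀ N ≥ N0, ∀ τ : ℕ, 13 * Lam N ≤ τ → τ ≤ N →
    c1 * ((τ : ℝ) - 13 * Lam N) / (N : ℝ) ^ 2 ≤ c0 * Tm t0 (ZZ N) (TT N) + C / (N : ℝ) ^ 3 +
      C * NN t0 (ZZ N) (TT N) (6 * Lam N) (τ + 6 * Lam N + 1) := by
  obtain ⟨c0, C0, hc0, hc1, hC0, hm⟩ := moments t0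
  obtain ⟨c1, hc, hl⟩ := model_low hP
  obtain ⟨Cn, hCn, hn⟩ := nu_le hP
  obtain ⟨Cb, hCb, hb⟩ := sum_BP_large hP
  refine ⟨c0, c1, 2 * C0 + 1 + 2 * Cb + 2 * Cn, hc0, hc1, hc, by positivity,
    Filter.eventually_atTop.1 ?_⟩
  filter_upwards [Filter.eventually_atTop.2 hl, Filter.eventually_atTop.2 params,
    Filter.eventually_atTop.2 (lam_small t0 0)] with N hl ⟨p1, p2, _, p4, p5, p6, p7, p8⟩ ⟨p9, _⟩ τ h1 h2
  have a1 := hl t0 τ (by unfold ZZ; omega) h1 h2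
  have a2 := md_supp hC0 (hm (2 ^ (TT N + τ))) (Z := ZZ N) (T := TT N) (by omega)
  have a3 := md_bd hCn hn (Z := ZZ N) (T := TT N) (ω := 6 * Lam N) (τ := τ) ht0
  have a4 := hb t0 (ZZ N) (TT N) (6 * Lam N) (by omega)
  have a5 := sum_le_sum fun z (hz : z ∈ BP t0 (ZZ N) (TT N)) => disc_le hz (2 ^ (TT N + τ))
  have a6 : ((BP t0 (ZZ N) (TT N)).card : ℝ) ≤ 2 ^ (2 * ZZ N) := by exact_mod_cast card_BP_le p4
  have a7 : 0 ≤ NN t0 (ZZ N) (TT N) (6 * Lam N) (τ + 6 * Lam N + 1) :=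
    sum_nonneg fun z _ => mul_nonneg (div_nonneg (wt_nonneg _) (Nat.cast_nonneg _)) (by positivity)
  have a8 := sum_le_sum (s := (BP t0 (ZZ N) (TT N)).filter (fun z => ¬ (z.2.card + 1 ≤ 6 * Lam N)))
    fun z _ => (Nat.cast_le.2 (md_nu _ z.1)).trans
      (md_div (z := z) (2 ^ (TT N + τ)))
  rw [weighted_ident (Icc 1 (2 ^ (TT N + τ))) (fun n : ℕ => (n : ℤ)) _ t0 (ZZ N) (TT N)] at a1
  rw [sum_add_distrib, sum_const, nsmul_eq_mul, ← mul_sum,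
    ← sum_filter_add_sum_filter_not _ (fun z : ℕ × Finset ℕ => z.2.card + 1 ≤ 6 * Lam N)
      fun z => (nu (2 ^ (TT N + τ) / (z.1 * pr z.2)) z.1 : ℝ)] at a5
  rw [← mul_sum] at a8
  have b0 : (0 : ℝ) < N := by exact_mod_cast (by omega : 0 < N)
  have b1 : (N : ℝ) ≤ 2 ^ Lam N := by exact_mod_cast le_two_pow_Lam N
  have b2 : (ZZ N : ℝ) ≤ 2 ^ Lam N := le_trans (by exact_mod_cast (by omega : ZZ N ≤ N)) b1
  have b3 : (2 : ℝ) ^ (2 * ZZ N) * 2 ≤ 2 ^ (TT N + τ) * (1 / (N : ℝ) ^ 3) := by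
    rw [mul_one_div, le_div_iff₀ (by positivity)]
    calc (2 : ℝ) ^ (2 * ZZ N) * 2 * (N : ℝ) ^ 3 ≤ 2 ^ (2 * ZZ N) * 2 * (2 ^ Lam N) ^ 3 := by gcongr
      _ ≤ _ := by
        rw [← pow_succ, ← pow_mul, ← pow_add]
        exact pow_le_pow_right₀ one_le_two (by omega)
  have b4 : √((2 : ℝ) ^ (TT N + τ) * 2 ^ TT N) ≤ 2 ^ (TT N + τ) * (1 / (N : ℝ) ^ 3) := by
    rw [Real.sqrt_le_left (by positivity), mul_one_div, div_pow, le_div_iff₀ (by positivity)]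
    calc (2 : ℝ) ^ (TT N + τ) * 2 ^ TT N * ((N : ℝ) ^ 3) ^ 2 ≤
        2 ^ (TT N + τ) * 2 ^ TT N * ((2 ^ Lam N) ^ 3) ^ 2 := by gcongr
      _ ≤ _ := by
        simp only [← pow_mul, ← pow_add]
        exact pow_le_pow_right₀ one_le_two (by omega)
  have b5 : Cb * (ZZ N : ℝ) ^ 2 / 2 ^ (6 * Lam N) ≤ Cb * (1 / (N : ℝ) ^ 3) := by
    rw [mul_div_assoc]
    refine mul_le_mul_of_nonneg_left ?_ hCb
    rw [div_le_div_iff₀ (by positivity) (by positivity), one_mul]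
    calc (ZZ N : ℝ) ^ 2 * (N : ℝ) ^ 3 ≤ (2 ^ Lam N) ^ 2 * (2 ^ Lam N) ^ 3 := by gcongr
      _ ≤ _ := by
        simp only [← pow_mul, ← pow_add]
        exact pow_le_pow_right₀ one_le_two (by omega)
  simp only [Nat.cast_pow, Nat.cast_ofNat] at a2 a3 a8
  have b6 : (0 : ℝ) < 2 ^ (TT N + τ) := by positivity
  have b7 := mul_le_mul_of_nonneg_left (a4.trans b5) b6.le
  have b8 := mul_le_mul_of_nonneg_left b4 hC0
  have b9 := mul_nonneg b6.le (mul_nonneg (by positivity : 0 ≤ 2 * C0 + 1 + 2 * Cb) a7)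
  have b10 := mul_nonneg b6.le (by positivity : 0 ≤ Cn * (1 / (N : ℝ) ^ 3))
  refine le_of_mul_le_mul_left ?_ b6
  rw [div_eq_mul_one_div _ ((N : ℝ) ^ 3)]
  have e : 2 ^ (TT N + τ) * (c1 * ((τ : ℝ) - 13 * Lam N) / (N : ℝ) ^ 2) =
      c1 * 2 ^ (TT N + τ) * ((τ : ℝ) - 13 * Lam N) / (N : ℝ) ^ 2 := by ring
  linarith

end Crest.Agent.R1
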