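import Crest.Agent.R1.WBound

/-!
# R1 / NBound : upper bounds for the boundary mass `NN`

For `(p, g) ∈ BP t0 Z T` put `t = lv p` and `R = T - sg g` (`sg g < T` by `Supp.sg_lt`, `Z < T`); then `g` is counted in
`WW Z T _ R t` (`g ⊆ PL t Z` because `p < π`), `1 ≤ R ≤ 3t`, and the condition `sg g + 3t ≤ T + τ` says
`3t ≤ R + τ`.  So `R` takes at most `min (3t) (τ + 1)` values, and by `W_le` each `WW ≤ 9 C t/T²`;
`∑_{p ∈ B t} 1/p = mm t ≤ C/t`.
-/

set_option autoImplicit false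

noncomputable section

open scoped Classical

namespace Crest.Agent.R1

open Finset

theorem ite_zero_mul_ite_zero_aux (c : Prop) [Decidable c] (a b : ℝ) :
    a * (if c then b else 0) = if c then a * b else 0 := by
  split_ifs <;> simp

/-- the basic reduction to `WW` -/
theorem sum_BP_le (t0 Z T τ : ℕ) (hZT : Z < T) (Q : Finset ℕ → Prop) (S : ℕ → Prop) (F : ℕ → ℝ)
    (hF : ∀ t, 0 ≤ F t) :
    ∑ x ∈ (BP t0 Z T).filter (fun x => sg x.2 + 3 * lv x.1 ≤ T + τ ∧ S (lv x.1) ∧ Q x.2),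
        wt x.2 / x.1 * F (lv x.1)
      ≤ ∑ t ∈ (Icc (t0 + 1) Z).filter S, mm t * F t *
        ∑ R ∈ (Icc 1 (3 * t)).filter (fun R => 3 * t ≤ R + τ), WW Z T Q R t := by
  have key : ∀ p ∈ PL (t0 + 1) Z, ∑ g ∈ (PL (t0 + 1) Z).powerset.filter
      (fun g => IsBd T (p, g) ∧ sg g + 3 * lv p ≤ T + τ ∧ Q g), wt g ≤
      ∑ R ∈ (Icc 1 (3 * lv p)).filter (fun R => 3 * lv p ≤ R + τ), WW Z T Q R (lv p) := by
    intro p _
    have hlt : ∀ g ∈ (PL (t0 + 1) Z).powerset.filter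
        (fun g => IsBd T (p, g) ∧ sg g + 3 * lv p ≤ T + τ ∧ Q g), sg g < T := fun g hg => by
      rw [mem_filter, mem_powerset] at hg
      exact hg.2.1.1.sg_lt (fun π hπ => (mem_PL.1 (hg.1 hπ)).2.2) hZT
    rw [← sum_fiberwise_of_maps_to (g := fun g => T - sg g)
      (t := (Icc 1 (3 * lv p)).filter (fun R => 3 * lv p ≤ R + τ)) fun g hg => by
        have h1 := hlt g hg
        rw [mem_filter] at hg
        have h2 : T ≤ sg g + 3 * lv p := hg.2.1.2.2.2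
        have h3 := hg.2.2.1
        rw [mem_filter, mem_Icc]
        omega]
    refine sum_le_sum fun R _ => sum_le_sum_of_subset_of_nonneg (fun g hg => ?_)
      fun _ _ _ => wt_nonneg _
    rw [mem_filter] at hg
    have h1 := hlt g hg.1
    have h2 := hg.2
    obtain ⟨h3, h4, -, h5⟩ := mem_filter.1 hg.1
    rw [mem_powerset] at h3
    refine mem_filter.2 ⟨mem_powerset.2 fun π hπ => ?_, h4.1, h4.2.1, by omega, h5⟩
    have := mem_PL.1 (h3 hπ)
    exact mem_PL.2 ⟨this.1, lv_mono (h4.2.2.1 π hπ).le, this.2.2⟩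
  rw [BP, filter_filter, sum_filter, sum_product]
  rw [sum_filter S]
  conv_rhs => simp only [← ite_zero_mul_ite_zero_aux, mul_assoc]
  rw [← sum_PL_lv]
  refine sum_le_sum fun p hp => ?_
  split_ifs with h
  · rw [← sum_filter]
    simp only [h, true_and]
    refine le_trans (le_of_eq ?_) (mul_le_mul_of_nonneg_left
      (mul_le_mul_of_nonneg_left (key p hp) (hF _)) (by positivity))
    rw [mul_sum, mul_sum]
    exact sum_congr rfl fun g _ => by ring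
  · simp [h]

theorem nb_inv_sq {L : ℕ} (hL : 1 ≤ L) (s : Finset ℕ) (hs : ∀ t ∈ s, L < t) :
    ∑ t ∈ s, 1 / (t : ℝ) ^ 2 ≤ 1 / (L : ℝ) := by
  have h := sum_Ioc_inv_sq_le_sub (α := ℝ) (k := L) (n := max L (s.sup id)) (by omega) (le_max_left _ _)
  simp only [one_div]
  refine (sum_le_sum_of_subset_of_nonneg (fun t ht => mem_Ioc.2 ⟨hs t ht,
    (le_sup (f := id) ht).trans (le_max_right _ _)⟩) fun _ _ _ => by positivity).trans (h.trans ?_)
  exact sub_le_self _ (by positivity)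

theorem nb_W {t2 : ℕ} {D : ℝ} (hW : ∀ Z T : ℕ, 5 * Z ≤ 3 * T → 8 ≤ T →
    ∀ R t : ℕ, t2 ≤ t → WW Z T (fun _ => True) R t
      ≤ D * ((max R (3 * t) : ℕ) : ℝ) ^ 2 / (t * (T : ℝ) ^ 2)) {Z T R t : ℕ} (hZ : 5 * Z ≤ 3 * T)
    (hT : 8 ≤ T) (ht : t2 ≤ t) (ht1 : 1 ≤ t) (hR : R ≤ 3 * t) :
    WW Z T (fun _ => True) R t ≤ 9 * D * t / (T : ℝ) ^ 2 := by
  refine (hW Z T hZ hT R t ht).trans (le_of_eq ?_)
  have : (t : ℝ) ≠ 0 := by positivity
  rw [max_eq_right hR]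
  push_cast
  field_simp
  ring

theorem nb_split (hP : PAP) : ∃ (t1 : ℕ) (C : ℝ), 0 ≤ C ∧ ∀ t0 ≥ t1, ∀ (Z T ω τ M : ℕ) (ε : ℝ)
    (Q : Finset ℕ → Prop), 5 * Z ≤ 3 * T → 8 ≤ T → 1 ≤ τ → 1 ≤ M → 0 ≤ ε →
    (∀ R t : ℕ, t0 < t → t ≤ M * τ → R ≤ 3 * t → WW Z T Q R t ≤ ε * t / (T : ℝ) ^ 2) →
    NN t0 Z T ω τ ≤
      ∑ x ∈ (BP t0 Z T).filter (fun x => x.2.card + 1 ≤ ω ∧ lv x.1 ≤ M * τ ∧ ¬ Q x.2), wb x
        + C * (1 / M + ε * M) * τ / (T : ℝ) ^ 2 := by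
  obtain ⟨C, hC, hm⟩ := mm_le hP
  obtain ⟨t2, D, -, hD, hW⟩ := W_le hP
  refine ⟨t2, 18 * C * D, by positivity, fun t0 ht0 Z T ω τ M ε Q hZ hT hτ hM hε hQ => ?_⟩
  set F : ℕ → ℝ := fun t => min (1 / (t : ℝ)) (τ / (t : ℝ) ^ 2) with hF
  have hF0 : ∀ t, 0 ≤ F t := fun t => le_min (by positivity) (by positivity)
  have hT0 : (0 : ℝ) < T := by exact_mod_cast (by omega : 0 < T)
  have hτ1 : (1 : ℝ) ≤ τ := by exact_mod_cast hτ
  have hM1 : (1 : ℝ) ≤ M := by exact_mod_cast hM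
  have hL : 1 ≤ M * τ := Nat.mul_pos hM hτ
  have h1 := sum_BP_le t0 Z T τ (by omega) (fun _ => True) (fun t => M * τ < t) F hF0
  have h2 := sum_BP_le t0 Z T τ (by omega) Q (fun t => t ≤ M * τ) F hF0
  have h3 : ∑ t ∈ (Icc (t0 + 1) Z).filter (fun t => M * τ < t), mm t * F t *
      ∑ R ∈ (Icc 1 (3 * t)).filter (fun R => 3 * t ≤ R + τ), WW Z T (fun _ => True) R t ≤
      18 * C * D * (1 / M) * τ / (T : ℝ) ^ 2 := by
    refine (sum_le_sum (g := fun t : ℕ => 18 * C * D * τ ^ 2 / (T : ℝ) ^ 2 * (1 / (t : ℝ) ^ 2))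
      fun t ht => ?_).trans ?_
    · obtain ⟨a1, a2⟩ := mem_filter.1 ht
      rw [mem_Icc] at a1
      have ht0 : (0 : ℝ) < t := by exact_mod_cast (by omega : 0 < t)
      have b1 : ∑ R ∈ (Icc 1 (3 * t)).filter (fun R => 3 * t ≤ R + τ), WW Z T (fun _ => True) R t ≤
          (2 * τ) * (9 * D * t / (T : ℝ) ^ 2) := by
        refine (sum_le_card_nsmul _ _ _ fun R hR => nb_W hW hZ hT (by omega) (by omega)
          (mem_Icc.1 (mem_filter.1 hR).1).2).trans ?_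
        rw [nsmul_eq_mul]
        refine mul_le_mul_of_nonneg_right ?_ (by positivity)
        have : ((Icc 1 (3 * t)).filter (fun R => 3 * t ≤ R + τ)).card ≤ 2 * τ := by
          refine (card_le_card (t := Icc (3 * t - τ) (3 * t)) fun R hR => ?_).trans ?_
          · rw [mem_filter, mem_Icc] at hR
            rw [mem_Icc]
            omega
          · rw [Nat.card_Icc]
            omega
        exact_mod_cast this
      calc _ ≤ C / t * (τ / (t : ℝ) ^ 2) * ((2 * τ) * (9 * D * t / (T : ℝ) ^ 2)) :=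
            mul_le_mul (mul_le_mul (hm t (by omega)) (min_le_right _ _) (hF0 t) (by positivity)) b1
              (sum_nonneg fun _ _ => WW_nonneg _ _ _ _ _) (by positivity)
        _ = _ := by field_simp; ring
    · rw [← mul_sum]
      refine (mul_le_mul_of_nonneg_left (nb_inv_sq hL _ fun t ht => (mem_filter.1 ht).2)
        (by positivity)).trans (le_of_eq ?_)
      push_cast
      field_simp
  have h4 : ∑ t ∈ (Icc (t0 + 1) Z).filter (fun t => t ≤ M * τ), mm t * F t *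
      ∑ R ∈ (Icc 1 (3 * t)).filter (fun R => 3 * t ≤ R + τ), WW Z T Q R t ≤
      18 * C * D * (ε * M) * τ / (T : ℝ) ^ 2 := by
    refine (sum_le_card_nsmul _ _ (3 * C * ε / (T : ℝ) ^ 2) fun t ht => ?_).trans ?_
    · obtain ⟨a1, a2⟩ := mem_filter.1 ht
      rw [mem_Icc] at a1
      have ht0 : (0 : ℝ) < t := by exact_mod_cast (by omega : 0 < t)
      have b1 : ∑ R ∈ (Icc 1 (3 * t)).filter (fun R => 3 * t ≤ R + τ), WW Z T Q R t ≤
          (3 * t) * (ε * t / (T : ℝ) ^ 2) := by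
        refine (sum_le_card_nsmul _ _ _ fun R hR => hQ R t (by omega) a2
          (mem_Icc.1 (mem_filter.1 hR).1).2).trans ?_
        rw [nsmul_eq_mul]
        refine mul_le_mul_of_nonneg_right ?_ (by positivity)
        have : ((Icc 1 (3 * t)).filter (fun R => 3 * t ≤ R + τ)).card ≤ 3 * t :=
          (card_filter_le _ _).trans (by simp)
        exact_mod_cast this
      calc _ ≤ C / t * (1 / (t : ℝ)) * ((3 * t) * (ε * t / (T : ℝ) ^ 2)) :=
            mul_le_mul (mul_le_mul (hm t (by omega)) (min_le_left _ _) (hF0 t) (by positivity)) b1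
              (sum_nonneg fun _ _ => WW_nonneg _ _ _ _ _) (by positivity)
        _ = _ := by field_simp
    · rw [nsmul_eq_mul]
      have : ((Icc (t0 + 1) Z).filter (fun t => t ≤ M * τ)).card ≤ M * τ := by
        refine (card_le_card (t := Icc 1 (M * τ)) fun t ht => ?_).trans (by simp)
        rw [mem_filter, mem_Icc] at ht
        rw [mem_Icc]
        omega
      have b2 : (((Icc (t0 + 1) Z).filter (fun t => t ≤ M * τ)).card : ℝ) ≤ M * τ := by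
        exact_mod_cast this
      calc _ ≤ (M * τ) * (3 * C * ε / (T : ℝ) ^ 2) := by gcongr
        _ = 3 * C * 1 * (ε * M) * τ / (T : ℝ) ^ 2 := by ring
        _ ≤ _ := by gcongr; norm_num
  have h5 := add_le_add (h1.trans (le_of_eq_of_le (by congr) h3)) (h2.trans (le_of_eq_of_le (by congr) h4))
  rw [mul_add, add_mul, add_div]
  refine le_trans ?_ (add_le_add le_rfl h5)
  rw [NN]
  simp only [sum_filter]
  rw [← sum_add_distrib, ← sum_add_distrib]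
  refine sum_le_sum fun x _ => ?_
  have c0 : 0 ≤ wt x.2 / x.1 := div_nonneg (wt_nonneg _) (Nat.cast_nonneg _)
  have c1 : 0 ≤ wt x.2 / x.1 * F (lv x.1) := mul_nonneg c0 (hF0 _)
  have c2 : wt x.2 / x.1 * F (lv x.1) ≤ wb x := by
    rw [wb, ← div_div, div_eq_mul_one_div (wt x.2 / x.1)]
    exact mul_le_mul_of_nonneg_left (min_le_left _ _) c0
  have c3 := wb_nonneg x
  change (if _ then wt x.2 / x.1 * F (lv x.1) else 0) ≤ _
  by_cases e1 : x.2.card + 1 ≤ ω <;> by_cases e2 : sg x.2 + 3 * lv x.1 ≤ T + τ <;>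
    by_cases e3 : lv x.1 ≤ M * τ <;> by_cases e4 : Q x.2 <;>
    simp only [e1, e2, e3, e4, ← not_le, not_true, not_false_iff, and_true, and_false,
      if_true, if_false] <;> linarith

/-- levels `t ≤ τ` contribute `≤ (C/t)(1/t)(3t)(9Ct/T²) = 27 C²/T²` each; levels `t > τ` contribute
`≤ (C/t)(τ/t²)(2τ)(9Ct/T²)`, and `∑_{t > τ} 1/t² ≤ 1/τ`. -/
theorem NN_total (hP : PAP) : ∃ (t1 : ℕ) (C : ℝ), 0 ≤ C ∧ ∀ t0 ≥ t1, ∀ Z T ω τ : ℕ,
    5 * Z ≤ 3 * T → 8 ≤ T → 1 ≤ τ → NN t0 Z T ω τ ≤ C * τ / (T : ℝ) ^ 2 := by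
  obtain ⟨t1, C, hC, h⟩ := nb_split hP
  obtain ⟨t2, D, -, hD, hW⟩ := W_le hP
  refine ⟨max t1 t2, C * (1 + 9 * D), by positivity, fun t0 ht0 Z T ω τ hZ hT hτ => ?_⟩
  have key := h t0 (le_of_max_le_left ht0) Z T ω τ 1 (9 * D) (fun _ => True) hZ hT hτ le_rfl
    (by positivity) fun R t h1 _ h3 => nb_W hW hZ hT (by have := le_of_max_le_right ht0; omega)
      (by omega) h3
  simpa using key

/-- Split the terms of `NN` into: `t > M τ` (total `≤ 18 C² τ²/(M τ T²)`), `t ≤ M τ` and `Q g` (total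
`≤ ∑_{t ≤ Mτ} (C/t)(1/t)(3t)(ε t/T²) ≤ 3 C ε M τ/T²`), and the rest, where `min ≤ 1/t` gives `wb`. -/
theorem NN_split (hP : PAP) : ∃ (t1 : ℕ) (C : ℝ), 0 ≤ C ∧ ∀ t0 ≥ t1, ∀ (Z T ω τ M : ℕ) (ε : ℝ)
    (Q : Finset ℕ → Prop), 5 * Z ≤ 3 * T → 8 ≤ T → 1 ≤ τ → 1 ≤ M → 0 ≤ ε →
    (∀ R t : ℕ, t0 < t → t ≤ M * τ → R ≤ 3 * t → WW Z T Q R t ≤ ε * t / (T : ℝ) ^ 2) →
    NN t0 Z T ω τ ≤
      ∑ x ∈ (BP t0 Z T).filter (fun x => x.2.card + 1 ≤ ω ∧ lv x.1 ≤ M * τ ∧ ¬ Q x.2), wb x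
        + C * (1 / M + ε * M) * τ / (T : ℝ) ^ 2 :=
  nb_split hP

end Crest.Agent.R1
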