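import Crest.Agent.R1.NearCore
import Crest.Agent.R1.UB

/-!
# R1 / Near : the aligned model, general position


-/

set_option autoImplicit false

noncomputable section

open scoped Classical

namespace Crest.Agent.R1

open Finset

/-- reflection `j ↦ X - 1 - j` -/
theorem Sb_reflect (t0 : ℕ) (a0 b : ℤ) (X q D0 u p : ℕ) :
    Sb t0 a0 b X q D0 u p = Sb t0 (-(a0 + X - 1)) (-(b + q * (X - 1))) X q D0 u p := by
  unfold Sb
  have key : ∀ j < X, ((X - 1 - j : ℕ) : ℤ) = X - 1 - j := fun j hj => by omega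
  refine card_nbij' (fun j => X - 1 - j) (fun j => X - 1 - j) ?_ ?_ ?_ ?_
  · intro j hj
    obtain ⟨h1, h2⟩ := mem_filter.1 (mem_coe.1 hj)
    have h3 := mem_range.1 h1
    beta_reduce
    refine mem_coe.2 (mem_filter.2 ⟨mem_range.2 (by omega), ?_⟩)
    rw [key j h3, show -(a0 + X - 1) + (X - 1 - j) = -(a0 + j) by ring,
      show -(b + q * (X - 1)) + q * (X - 1 - j) = -(b + q * j) by ring]
    simpa only [dvd_neg] using h2
  · intro j hj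
    obtain ⟨h1, h2⟩ := mem_filter.1 (mem_coe.1 hj)
    have h3 := mem_range.1 h1
    beta_reduce
    refine mem_coe.2 (mem_filter.2 ⟨mem_range.2 (by omega), ?_⟩)
    rw [key j h3, show a0 + (X - 1 - j) = -(-(a0 + X - 1) + j) by ring,
      show b + q * (X - 1 - j) = -(-(b + q * (X - 1)) + q * j) by ring]
    simpa only [dvd_neg] using h2
  · intro j hj
    have h3 := mem_range.1 (mem_filter.1 (mem_coe.1 hj)).1
    show X - 1 - (X - 1 - j) = j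
    omega
  · intro j hj
    have h3 := mem_range.1 (mem_filter.1 (mem_coe.1 hj)).1
    show X - 1 - (X - 1 - j) = j
    omega

/-- restriction to the window `[s, s + X')` -/
theorem Sb_window (t0 : ℕ) (a0 b : ℤ) (X X' s q D0 u p : ℕ) (h : s + X' ≤ X) :
    Sb t0 (a0 + s) (b + q * s) X' q D0 u p ≤ Sb t0 a0 b X q D0 u p := by
  unfold Sb
  refine card_le_card_of_injOn (fun j => s + j) (fun j hj => ?_) fun j _ j' _ hj => Nat.add_left_cancel hj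
  obtain ⟨h1, h2⟩ := mem_filter.1 (mem_coe.1 hj)
  have h3 := mem_range.1 h1
  beta_reduce
  refine mem_coe.2 (mem_filter.2 ⟨mem_range.2 (by omega), ?_⟩)
  rw [Nat.cast_add, ← add_assoc, mul_add, ← add_assoc]
  exact h2

theorem near_card (t0 : ℕ) (a0 b : ℤ) (X q γ D w ρ p : ℕ) (h1 : (D : ℤ) ∣ b - q * a0)
    (h2 : IsCoprime (D : ℤ) (q : ℤ)) (h3 : IsCoprime (γ : ℤ) (D : ℤ)) :
    ((range X).filter (fun j : ℕ => (γ : ℤ) ∣ a0 + j ∧ ((D * w * ρ : ℕ) : ℤ) ∣ b + q * j ∧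
      ∀ π ∈ SP t0 p, ¬ (π : ℤ) ∣ a0 + j)).card ≤ Sb t0 a0 b X q (γ * D) (w * ρ) p := by
  refine card_le_card (monotone_filter_right _ fun j _ hj => ⟨?_, ?_, hj.2.2⟩)
  · have h4 : (D : ℤ) ∣ b + q * j := dvd_trans (by push_cast; exact ⟨w * ρ, by ring⟩) hj.2.1
    have h5 := dvd_sub h4 h1
    rw [show b + q * j - (b - q * a0) = q * (a0 + j) by ring] at h5
    rw [Nat.cast_mul]
    exact h3.mul_dvd hj.1 (h2.dvd_of_dvd_mul_left h5)
  · exact dvd_trans (by push_cast; exact ⟨D, by ring⟩) hj.2.1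

theorem near_arith {c C m : ℝ} {D w t k n : ℕ} (hc : 0 < c) (hC : 1 ≤ C) (hD : 0 < D) (hw : 0 < w) (ht : 0 < t)
    (hk : 0 < k) (hm : m ≤ C / k) :
    c / (32 * C) * 2 ^ (n + 5) / (D * w * t) * m ≤ c * ((2 ^ n : ℕ) : ℝ) / (D * w * k * t) := by
  refine (mul_le_mul_of_nonneg_left hm (by positivity)).trans_eq ?_
  push_cast
  field_simp
  ring

theorem near_size {b q x y z : ℤ} (hq : 1 ≤ q) (hx : 0 < x) (hy : 1 ≤ y) (h5 : y * 2 ^ 7 ≤ z)
    (hb : b ≤ y * 2 ^ 6 * x) : b + q * (31 * x) ≤ z * q * x := by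
  have h6 := mul_pos (zero_lt_one.trans_le hq) hx
  have h7 : y * x ≤ y * (q * x) := by nlinarith [mul_pos (zero_lt_one.trans_le hy) hx]
  have h8 : q * x ≤ y * (q * x) := by nlinarith
  have h9 := mul_le_mul_of_nonneg_right h5 h6.le
  linarith

theorem near_pos (hP : PAP) : ∃ (t1 κ0 V0 : ℕ) (c : ℝ), 5 ≤ κ0 ∧ 0 < c ∧ ∀ t0 ≥ t1, ∀ V ≥ V0,
    ∀ (a0 b : ℤ) (N q w k p : ℕ) (d : Finset ℕ), t0 < lv p → κ0 * lv p ≤ V → κ0 * V ≤ k → 1 ≤ q →
    IsCoprime b (q : ℤ) → (∀ π ∈ d, π.Prime ∧ p ≤ π) → w.Prime → 2 ^ (3 * V) < w →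
    q * pr (d.filter (fun π : ℕ => ¬ (π : ℤ) ∣ b - q * a0)) ≤ 2 ^ (3 * V) →
    -((q : ℤ) * 2 ^ N) ≤ 2 * b → b ≤ 2 ^ (N + 2 * V + 1) →
    (pr d * w * 2 ^ k) ^ 2 * 2 ^ (3 * lv p) ≤ 2 ^ (2 * N) →
    c * 2 ^ N / (pr d * w * lv p) * mm k
      ≤ ∑ ρ ∈ B k, (Sb t0 a0 b (2 ^ N) q (pr d) (w * ρ) p : ℝ) := by
  obtain ⟨t1, κ0, V0, c, hκ, hc, H⟩ := near_core hP
  obtain ⟨C, hC, hmm⟩ := mm_le hP
  refine ⟨t1, κ0, max V0 7, c / (32 * C), hκ, by positivity, ?_⟩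
  intro t0 ht0 V hV a0 b N q w k p d ht hp hk hq hbq hd hw hwV hγ hb1 hb2 hN
  have hV7 : 7 ≤ V := (le_max_right _ _).trans hV
  have hdp : ∀ π ∈ d, π.Prime := fun π hπ => (hd π hπ).1
  have hk5 : 5 * V ≤ k := (Nat.mul_le_mul_right V hκ).trans hk
  have hpV : 5 * lv p ≤ V := (Nat.mul_le_mul_right _ hκ).trans hp
  have hkN : k ≤ N := by
    have h1 : 2 ^ k ≤ pr d * w * 2 ^ k := Nat.le_mul_of_pos_left _ (Nat.mul_pos (pr_pos hdp) hw.pos)
    have h2 := (Nat.pow_le_pow_left h1 2).trans ((Nat.le_mul_of_pos_right _ (by positivity)).trans hN)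
    rw [← pow_mul] at h2
    have := (Nat.pow_le_pow_iff_right (by norm_num)).1 h2
    omega
  obtain ⟨n, rfl⟩ : ∃ n, N = n + 5 := ⟨N - 5, by omega⟩
  set S := d.filter (fun π : ℕ => ¬ (π : ℤ) ∣ b - q * a0) with hS
  set T := d.filter (fun π : ℕ => (π : ℤ) ∣ b - q * a0) with hT
  have hSp : ∀ π ∈ S, π.Prime := fun π hπ => hdp π (mem_filter.1 hπ).1
  have hTp : ∀ π ∈ T, π.Prime := fun π hπ => hdp π (mem_filter.1 hπ).1
  have hST : pr S * pr T = pr d := by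
    unfold pr
    rw [mul_comm]
    exact prod_filter_mul_prod_filter_not _ _ _
  have h1 : ((pr T : ℕ) : ℤ) ∣ b - q * a0 := (pr_dvd_iff hTp _).2 fun π hπ => (mem_filter.1 hπ).2
  have h2 : IsCoprime ((pr S : ℕ) : ℤ) (b - q * a0) := by
    unfold pr
    rw [Nat.cast_prod]
    exact IsCoprime.prod_left fun π hπ =>
      (Nat.prime_iff_prime_int.1 (hSp π hπ)).irreducible.coprime_iff_not_dvd.2 (mem_filter.1 hπ).2
  have h3 : IsCoprime ((pr T : ℕ) : ℤ) (q : ℤ) := by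
    refine IsCoprime.of_isCoprime_of_dvd_left ?_ h1
    have := hbq.add_mul_left_left (-a0)
    rwa [mul_neg, ← sub_eq_add_neg] at this
  have h4 : IsCoprime ((pr S : ℕ) : ℤ) ((pr T : ℕ) : ℤ) := h2.of_isCoprime_of_dvd_right h1
  have he : b + q * ((31 * 2 ^ n : ℕ) : ℤ) - q * (a0 + ((31 * 2 ^ n : ℕ) : ℤ)) = b - q * a0 := by ring
  have hqγ : 0 < q * pr S := Nat.mul_pos hq (pr_pos hSp)
  have hq' : (1 : ℤ) ≤ q := by exact_mod_cast hq
  have hx : (0 : ℤ) < 2 ^ n := by positivity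
  have key := H t0 ht0 V ((le_max_left _ _).trans hV) (a0 + ((31 * 2 ^ n : ℕ) : ℤ))
    (b + q * ((31 * 2 ^ n : ℕ) : ℤ)) (2 ^ n) q (pr S) (pr T * w) k p ht hp hk hq (pr_pos hSp)
    (Nat.mul_pos (pr_pos hTp) hw.pos) hγ (hbq.add_mul_left_left _) (by rw [he]; exact h2)
    (Nat.Coprime.mul_left (Nat.Coprime.mul_right (Nat.isCoprime_iff_coprime.1 h3)
      (Nat.isCoprime_iff_coprime.1 h4.symm))
      ((Nat.Prime.coprime_iff_not_dvd hw).2 fun h => by have := Nat.le_of_dvd hqγ h; omega))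
    (fun π hπ => by
      obtain ⟨h5, -, h6⟩ := mem_SP.1 hπ
      refine ⟨fun h => ?_, fun h => ?_⟩
      · rcases (Nat.Prime.dvd_mul h5).1 h with h | h
        · have := (hd π (mem_filter.1 ((prime_dvd_pr hTp h5).1 h)).1).2
          omega
        · have h7 := (Nat.prime_dvd_prime_iff_eq h5 hw).1 h
          have h8 := (le_two_pow_lv p).trans
            (Nat.pow_le_pow_right (by norm_num) (show lv p ≤ 3 * V by omega))
          omega
      · have := (hd π (mem_filter.1 ((prime_dvd_pr hSp h5).1 h)).1).2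
        omega)
    (by
      push_cast
      rw [pow_add] at hb1
      linarith [mul_pos (zero_lt_one.trans_le hq') hx])
    (by
      push_cast
      have h5 : (2 : ℤ) ^ (2 * V + 7) ≤ 2 ^ (3 * V) := pow_le_pow_right₀ (by norm_num) (by omega)
      rw [show n + 5 + 2 * V + 1 = 2 * V + 6 + n by ring, pow_add, pow_add] at hb2
      rw [pow_add] at h5
      exact near_size hq' hx (one_le_pow₀ (by norm_num)) h5 hb2)
    (by
      rw [← mul_assoc, hST]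
      refine hN.trans_eq ?_
      ring)
  refine le_trans ?_ (key.trans (sum_le_sum fun ρ _ => ?_))
  · rw [Nat.cast_mul, ← mul_assoc (pr S : ℝ), ← Nat.cast_mul (pr S), hST]
    exact near_arith hc hC (pr_pos hdp) hw.pos ((Nat.zero_le _).trans_lt ht) (by omega) (hmm k (by omega))
  · rw [Nat.cast_le, ← hST]
    exact (near_card t0 (a0 + ((31 * 2 ^ n : ℕ) : ℤ)) (b + q * ((31 * 2 ^ n : ℕ) : ℤ)) (2 ^ n) q (pr S) (pr T)
      w ρ p (by rw [he]; exact h1) h3 h4).trans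
      (Sb_window t0 a0 b _ (2 ^ n) (31 * 2 ^ n) q _ _ p (by rw [pow_add]; omega))

/-- `X = 2^N`; the size hypothesis gives `N ≥ k ≥ 5`.  By `Sb_reflect` (which changes `b - q a0` to its negative and
keeps `IsCoprime b q`; the new `b` has `|b'| ≤ |b| + qX`) we may assume `2 b' ≥ - qX`.  Restrict to the window
`X' = X/32`, `s = X - X'`: `b₁ = b' + q s ≥ 8 q X'`, `b₁ ≤ 2^(N+2V+1) + 2qX ≤ 2^(3V) q X'` for `V ≥ 7`.
Let `γ = pr (d.filter (π ∤ b - q a0))`, `D₁ = pr (d.filter (π ∣ b - q a0))`, `D = D₁ w`.  `D₁ ∣ b - q a0` is coprime to `q`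
and to `γ`; `w > 2^(3V) ≥ qγ` is prime; the primes of `SP t0 p` are `< p ≤ 2^V` and divide neither.  `near_core`,
and every `j` counted there is counted by `Sb`: `D₁ ∣ b + qj = (b - q a0) + q (a0 + j)` gives `D₁ ∣ a0 + j`.
Finally `mm k ≤ C/k` (`mm_le`). -/
theorem near_lower (hP : PAP) : ∃ (t1 κ0 V0 : ℕ) (c : ℝ), 5 ≤ κ0 ∧ 0 < c ∧ ∀ t0 ≥ t1, ∀ V ≥ V0,
    ∀ (a0 b : ℤ) (N q w k p : ℕ) (d : Finset ℕ), t0 < lv p → κ0 * lv p ≤ V → κ0 * V ≤ k → 1 ≤ q →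
    IsCoprime b (q : ℤ) → (∀ π ∈ d, π.Prime ∧ p ≤ π) → w.Prime → 2 ^ (3 * V) < w →
    q * pr (d.filter (fun π : ℕ => ¬ (π : ℤ) ∣ b - q * a0)) ≤ 2 ^ (3 * V) →
    |b| ≤ 2 ^ (N + 2 * V + 1) → (pr d * w * 2 ^ k) ^ 2 * 2 ^ (3 * lv p) ≤ 2 ^ (2 * N) →
    c * 2 ^ N / (pr d * w * lv p) * mm k
      ≤ ∑ ρ ∈ B k, (Sb t0 a0 b (2 ^ N) q (pr d) (w * ρ) p : ℝ) := by
  obtain ⟨t1, κ0, V0, c, hκ, hc, H⟩ := near_pos hP
  refine ⟨t1, κ0, V0, c, hκ, hc, ?_⟩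
  intro t0 ht0 V hV a0 b N q w k p d ht hp hk hq hbq hd hw hwV hγ hb hN
  by_cases h : -((q : ℤ) * 2 ^ N) ≤ 2 * b
  · exact H t0 ht0 V hV a0 b N q w k p d ht hp hk hq hbq hd hw hwV hγ h (abs_le.1 hb).2 hN
  simp only [Sb_reflect t0 a0 b]
  have hq' : (0 : ℤ) ≤ q := Nat.cast_nonneg _
  have hx : (1 : ℤ) ≤ 2 ^ N := one_le_pow₀ (by norm_num)
  refine H t0 ht0 V hV _ _ N q w k p d ht hp hk hq (hbq.add_mul_left_left _).neg_left hd hw hwV ?_ ?_ ?_ hN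
  · rw [show -(b + q * (((2 ^ N : ℕ) : ℤ) - 1)) - q * -(a0 + ((2 ^ N : ℕ) : ℤ) - 1) = -(b - q * a0) by ring]
    simpa only [dvd_neg] using hγ
  · push_cast
    nlinarith
  · have := (abs_le.1 hb).1
    push_cast
    nlinarith

end Crest.Agent.R1
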