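import Crest.Agent.R1.Primes

/-!
# R1 / Rough : many integers free of a given set of primes in `(μ, 3μ/2]`


-/

set_option autoImplicit false

noncomputable section

open scoped Classical

namespace Crest.Agent.R1

open Finset

theorem rough_step (S : Finset ℕ) {π : ℕ} (hπ : 0 < π) (y : ℕ) :
    ∑ m ∈ (Icc 1 y).filter (fun m => ∀ q ∈ S, ¬ q ∣ m), 1 / (m : ℝ) ≤
      ∑ m ∈ (Icc 1 y).filter (fun m => ∀ q ∈ insert π S, ¬ q ∣ m), 1 / (m : ℝ) +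
      (∑ m ∈ (Icc 1 y).filter (fun m => ∀ q ∈ S, ¬ q ∣ m), 1 / (m : ℝ)) / π := by
  set T := (Icc 1 y).filter (fun m => ∀ q ∈ S, ¬ q ∣ m) with hT
  have e1 : (Icc 1 y).filter (fun m => ∀ q ∈ insert π S, ¬ q ∣ m) = T.filter (fun m => ¬ π ∣ m) := by
    ext m
    simp only [hT, mem_filter, forall_mem_insert]
    tauto
  rw [e1, ← sum_filter_not_add_sum_filter T (fun m => π ∣ m), add_le_add_iff_left]
  have hπ' : (0 : ℝ) < π := by exact_mod_cast hπ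
  have h1 : T.filter (fun m => π ∣ m) ⊆ T.image (fun m => π * m) := by
    intro m hm
    obtain ⟨hmT, k, rfl⟩ := mem_filter.1 hm
    obtain ⟨h1, h2⟩ := mem_filter.1 hmT
    rw [mem_Icc] at h1
    refine mem_image.2 ⟨k, mem_filter.2 ⟨mem_Icc.2 ⟨?_, ?_⟩, fun q hq hqk => h2 q hq (hqk.mul_left _)⟩, rfl⟩
    · exact Nat.pos_of_ne_zero fun h => by simp [h] at h1
    · exact (Nat.le_mul_of_pos_left k hπ).trans h1.2
  refine (sum_le_sum_of_subset_of_nonneg h1 fun _ _ _ => by positivity).trans ?_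
  rw [sum_image fun a _ b _ h => Nat.eq_of_mul_eq_mul_left hπ h,
    sum_filter_not_add_sum_filter T (fun m => π ∣ m), sum_div]
  refine le_of_eq (sum_congr rfl fun m _ => ?_)
  push_cast
  rw [div_div, mul_comm]

/-- `∑_{n ≤ y} 1/n ≤ (∑_{m ≤ y, S-free} 1/m) · ∏_{π ∈ S} (1 - 1/π)⁻¹`; induction on `S`: if `F(S)` is the sum over the
`S`-free `m ≤ y` then `F(S) ≤ F(insert π S) + F(S)/π`. -/
theorem free_sum_ge (S : Finset ℕ) (hS : ∀ π ∈ S, π.Prime) (y : ℕ) :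
    Real.log (y + 1) * ∏ π ∈ S, (1 - 1 / (π : ℝ))
      ≤ ∑ m ∈ (Icc 1 y).filter (fun m => ∀ π ∈ S, ¬ π ∣ m), 1 / (m : ℝ) := by
  induction S using Finset.induction_on with
  | empty =>
    have h := log_add_one_le_harmonic y
    rw [harmonic_eq_sum_Icc] at h
    push_cast at h
    simpa using h
  | insert π S hπ ih =>
    have hp := hS π (mem_insert_self _ _)
    have ih' := ih fun q hq => hS q (mem_insert_of_mem hq)
    have h1 := rough_step S hp.pos y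
    have hπ1 : (1 : ℝ) ≤ π := by exact_mod_cast hp.one_le
    have h2 : 0 ≤ 1 - 1 / (π : ℝ) := by
      rw [sub_nonneg, div_le_one (by linarith)]; exact hπ1
    rw [prod_insert hπ, mul_left_comm]
    refine (mul_le_mul_of_nonneg_left ih' h2).trans ?_
    rw [sub_mul, one_mul, one_div_mul_eq_div]
    linarith

/-- the primes of `(y, 3y/2]` not dividing `Q`. -/
theorem rough_primes {c y t : ℝ} {Q : ℕ} (hc : 0 < c) (ht : 2 ≤ t) (hct : 8 / c ≤ t) (hy : t ^ 3 ≤ y) (hy' : y ≤ t ^ 4)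
    (hQ : 1 ≤ Q) (hQ' : (Q : ℝ) ≤ t ^ 4)
    (h : c * y / Real.log y ≤ (((Ioc ⌊y⌋₊ ⌊3 / 2 * y⌋₊).filter Nat.Prime).card : ℝ)) :
    c / (12 * Real.log t) ≤
      ∑ p ∈ ((Ioc ⌊y⌋₊ ⌊3 / 2 * y⌋₊).filter Nat.Prime).filter (fun p => ¬ p ∣ Q), 1 / (p : ℝ) := by
  set P := (Ioc ⌊y⌋₊ ⌊3 / 2 * y⌋₊).filter Nat.Prime with hP
  have ht0 : 0 < t := by linarith
  have ht3 : t ≤ t ^ 3 := by nlinarith [sq_nonneg t, mul_pos ht0 ht0]
  have hy1 : 2 ≤ y := by linarith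
  have hlt : 0 < Real.log t := Real.log_pos (by linarith)
  have hly : 0 < Real.log y := Real.log_pos (by linarith)
  have hly' : Real.log y ≤ 4 * Real.log t := by
    have := Real.log_le_log (by linarith) hy'
    rwa [Real.log_pow, Nat.cast_ofNat] at this
  have hmem : ∀ p ∈ P, p.Prime ∧ y < p ∧ (p : ℝ) ≤ 3 / 2 * y := by
    intro p hp
    obtain ⟨h1, h2⟩ := mem_filter.1 hp
    rw [mem_Ioc] at h1
    exact ⟨h2, (Nat.floor_lt (by linarith)).1 h1.1, (Nat.le_floor_iff (by linarith)).1 h1.2⟩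
  have h1 : (P.filter (fun p => p ∣ Q)).card ≤ 1 := by
    refine card_le_one.2 fun p hp q hq => ?_
    obtain ⟨hp1, hp2⟩ := mem_filter.1 hp
    obtain ⟨hq1, hq2⟩ := mem_filter.1 hq
    obtain ⟨a1, a2, -⟩ := hmem p hp1
    obtain ⟨b1, b2, -⟩ := hmem q hq1
    by_contra hne
    have h3 : p * q ∣ Q := Nat.Coprime.mul_dvd_of_dvd_of_dvd ((Nat.coprime_primes a1 b1).2 hne) hp2 hq2
    have h4 : (p : ℝ) * q ≤ Q := by exact_mod_cast Nat.le_of_dvd hQ h3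
    have h5 : y * y < p * q := mul_lt_mul'' a2 b2 (by linarith) (by linarith)
    have h6 : t ^ 3 * t ≤ y * y := mul_le_mul hy (ht3.trans hy) ht0.le (by linarith)
    nlinarith
  have h2 : (P.card : ℝ) ≤ (P.filter (fun p => ¬ p ∣ Q)).card + 1 := by
    have := card_filter_add_card_filter_not (s := P) (fun p => p ∣ Q)
    have h3 : P.card ≤ (P.filter (fun p => ¬ p ∣ Q)).card + 1 := by omega
    exact_mod_cast h3
  have h3 : c * y / (4 * Real.log t) ≤ P.card :=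
    (div_le_div_of_nonneg_left (by positivity) hly hly').trans h
  have h4 : 2 ≤ c * y / (4 * Real.log t) := by
    rw [le_div_iff₀ (by positivity)]
    have a1 : Real.log t ≤ t := (Real.log_le_sub_one_of_pos ht0).trans (by linarith)
    have a2 : 8 ≤ c * t := by rw [div_le_iff₀ hc] at hct; linarith
    have a3 : c * t ^ 3 ≤ c * y := mul_le_mul_of_nonneg_left hy hc.le
    have a4 : t ≤ t ^ 2 := by nlinarith
    nlinarith [mul_le_mul_of_nonneg_right a2 (sq_nonneg t)]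
  have h5 : c * y / (8 * Real.log t) ≤ (P.filter (fun p => ¬ p ∣ Q)).card := by
    have : c * y / (8 * Real.log t) = c * y / (4 * Real.log t) / 2 := by field_simp; ring
    linarith
  calc c / (12 * Real.log t) = c * y / (8 * Real.log t) * (1 / (3 / 2 * y)) := by field_simp; ring
    _ ≤ (P.filter (fun p => ¬ p ∣ Q)).card * (1 / (3 / 2 * y)) :=
        mul_le_mul_of_nonneg_right h5 (by positivity)
    _ ≤ _ := by
        rw [← nsmul_eq_mul]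
        refine card_nsmul_le_sum _ _ _ fun p hp => ?_
        obtain ⟨-, a2, a3⟩ := hmem p (mem_filter.1 hp).1
        exact one_div_le_one_div_of_le (by linarith) a3

/-- Use `m = m₁ π'`, `m₁ ≤ μ^(1/4)` free of `S = A ∪ Q.primeFactors`, `π'` a prime in `(y, 3y/2]`, `y = μ/m₁ ≥ μ^(3/4)`,
`π' ∤ Q`.  `π' ∉ A` since `π'^4 > μ³`; at most one prime `> μ^(3/4)` divides `Q ≤ μ`; `(m₁, π') ↦ m₁ π'` is injective
(`π'` is the only prime factor `> μ^(1/4)`).  By `primes_short`, `∑ 1/π' ≥ (c y/log y - 1)/(3y/2) ≥ c'/log μ`,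
and `free_sum_ge` gives `∑ 1/m₁ ≥ ¼ log μ · ∏`. -/
theorem rough (hP : PAP) : ∃ c : ℝ, 0 < c ∧ ∃ μ0 : ℝ, ∀ μ : ℝ, μ0 ≤ μ → ∀ (A : Finset ℕ) (Q : ℕ),
    (∀ π ∈ A, π.Prime ∧ (π : ℝ) ^ 4 ≤ μ ^ 3) → 1 ≤ Q → (Q : ℝ) ≤ μ →
    c * ∏ π ∈ A ∪ Q.primeFactors, (1 - 1 / (π : ℝ)) ≤
      ∑ m ∈ (Ioc ⌊μ⌋₊ ⌊3 / 2 * μ⌋₊).filter (fun m => ∀ π ∈ A ∪ Q.primeFactors, ¬ π ∣ m),
        1 / (m : ℝ) := by
  obtain ⟨c, hc, y0, hy0, h⟩ := primes_short hP
  refine ⟨c / 12, by positivity, (y0 + 8 / c) ^ 4, fun μ hμ A Q hA hQ hQμ => ?_⟩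
  have hc8 : 0 < 8 / c := by positivity
  have hμ0 : 0 < μ := lt_of_lt_of_le (by positivity) hμ
  obtain ⟨t, ht0, rfl⟩ : ∃ t : ℝ, 0 ≤ t ∧ μ = t ^ 4 := by
    refine ⟨√(√μ), Real.sqrt_nonneg _, ?_⟩
    rw [show (4 : ℕ) = 2 * 2 from rfl, pow_mul, Real.sq_sqrt (Real.sqrt_nonneg _), Real.sq_sqrt hμ0.le]
  have ht : y0 + 8 / c ≤ t := le_of_pow_le_pow_left₀ (by norm_num) ht0 hμ
  have ht2 : 2 ≤ t := by linarith
  have htp : 0 < t := by linarith
  have ht3 : t ≤ t ^ 3 := by nlinarith [sq_nonneg t, mul_pos htp htp]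
  have hlt : 0 < Real.log t := Real.log_pos (by linarith)
  set S := A ∪ Q.primeFactors with hS
  have hSp : ∀ π ∈ S, π.Prime := fun π hπ => by
    rcases mem_union.1 hπ with h1 | h1
    · exact (hA π h1).1
    · exact Nat.prime_of_mem_primeFactors h1
  set T := (Icc 1 ⌊t⌋₊).filter (fun m => ∀ π ∈ S, ¬ π ∣ m) with hT
  set P : ℕ → Finset ℕ := fun m =>
    ((Ioc ⌊t ^ 4 / m⌋₊ ⌊3 / 2 * (t ^ 4 / m)⌋₊).filter Nat.Prime).filter (fun p => ¬ p ∣ Q) with hPd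
  have hTm : ∀ m ∈ T, (1 : ℝ) ≤ m ∧ (m : ℝ) ≤ t ∧ t ^ 3 ≤ t ^ 4 / m ∧ t ^ 4 / m ≤ t ^ 4 := by
    intro m hm
    have h1 := mem_Icc.1 (mem_filter.1 hm).1
    have a1 : (1 : ℝ) ≤ m := by exact_mod_cast h1.1
    have a2 : (m : ℝ) ≤ t := (Nat.le_floor_iff ht0).1 h1.2
    refine ⟨a1, a2, ?_, div_le_self (by positivity) a1⟩
    rw [le_div_iff₀ (by linarith), pow_succ t 3]
    exact mul_le_mul_of_nonneg_left a2 (by positivity)
  have hPm : ∀ m ∈ T, ∀ p ∈ P m, p.Prime ∧ ¬ p ∣ Q ∧ t ^ 4 / m < p ∧ (p : ℝ) ≤ 3 / 2 * (t ^ 4 / m) := by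
    intro m hm p hp
    obtain ⟨h1, h2⟩ := mem_filter.1 hp
    obtain ⟨h3, h4⟩ := mem_filter.1 h1
    rw [mem_Ioc] at h3
    exact ⟨h4, h2, (Nat.floor_lt (by positivity)).1 h3.1, (Nat.le_floor_iff (by positivity)).1 h3.2⟩
  have hprod : 0 ≤ ∏ π ∈ S, (1 - 1 / (π : ℝ)) := prod_nonneg fun π hπ => by
    have hπ1 : (1 : ℝ) ≤ π := by exact_mod_cast (hSp π hπ).one_le
    rw [sub_nonneg, div_le_one (by linarith)]; exact hπ1
  have h1 : Real.log t * ∏ π ∈ S, (1 - 1 / (π : ℝ)) ≤ ∑ m ∈ T, 1 / (m : ℝ) :=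
    (mul_le_mul_of_nonneg_right (Real.log_le_log htp (Nat.lt_floor_add_one t).le) hprod).trans
      (free_sum_ge S hSp ⌊t⌋₊)
  have h2 : ∑ m ∈ T, 1 / (m : ℝ) * (c / (12 * Real.log t)) ≤
      ∑ x ∈ T.sigma P, 1 / ((x.1 * x.2 : ℕ) : ℝ) := by
    rw [sum_sigma]
    refine sum_le_sum fun m hm => ?_
    obtain ⟨a1, a2, a3, a4⟩ := hTm m hm
    have h3 := rough_primes hc ht2 (by linarith) a3 a4 hQ hQμ (h _ (by linarith))
    refine (mul_le_mul_of_nonneg_left h3 (by positivity)).trans (le_of_eq ?_)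
    rw [mul_sum]
    refine sum_congr rfl fun p _ => ?_
    push_cast
    rw [div_mul_div_comm, one_mul]
  have hinj : Set.InjOn (fun x : (Σ _ : ℕ, ℕ) => x.1 * x.2) (T.sigma P : Finset (Σ _ : ℕ, ℕ)) := by
    rintro ⟨m, p⟩ hx ⟨m', p'⟩ hx' he
    obtain ⟨hm, hp⟩ := mem_sigma.1 (mem_coe.1 hx)
    obtain ⟨hm', hp'⟩ := mem_sigma.1 (mem_coe.1 hx')
    simp only at he hm hp hm' hp'
    obtain ⟨a1, a2, a3, -⟩ := hTm m hm
    obtain ⟨b1, b2, -, -⟩ := hTm m' hm'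
    obtain ⟨c1, -, c3, -⟩ := hPm m hm p hp
    obtain ⟨d1, -, -, -⟩ := hPm m' hm' p' hp'
    have hpp : p = p' := by
      have h3 : p ∣ m' * p' := he ▸ dvd_mul_left p m
      rcases (Nat.Prime.dvd_mul c1).1 h3 with h4 | h4
      · have h5 : (p : ℝ) ≤ m' := by exact_mod_cast Nat.le_of_dvd (by exact_mod_cast b1) h4
        linarith
      · exact (Nat.prime_dvd_prime_iff_eq c1 d1).1 h4
    subst hpp
    rw [Nat.eq_of_mul_eq_mul_right c1.pos he]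
  have h3 : ∑ x ∈ T.sigma P, 1 / ((x.1 * x.2 : ℕ) : ℝ) ≤
      ∑ m ∈ (Ioc ⌊t ^ 4⌋₊ ⌊3 / 2 * t ^ 4⌋₊).filter (fun m => ∀ π ∈ S, ¬ π ∣ m), 1 / (m : ℝ) := by
    rw [← sum_image (f := fun m : ℕ => 1 / (m : ℝ)) hinj]
    refine sum_le_sum_of_subset_of_nonneg (fun n hn => ?_) fun _ _ _ => by positivity
    obtain ⟨⟨m, p⟩, hx, rfl⟩ := mem_image.1 hn
    obtain ⟨hm, hp⟩ := mem_sigma.1 hx
    simp only at hm hp ⊢
    obtain ⟨a1, a2, a3, -⟩ := hTm m hm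
    obtain ⟨c1, c2, c3, c4⟩ := hPm m hm p hp
    have hm0 : (0 : ℝ) < m := by linarith
    refine mem_filter.2 ⟨mem_Ioc.2 ⟨(Nat.floor_lt (by positivity)).2 ?_, (Nat.le_floor_iff (by positivity)).2 ?_⟩,
      fun π hπ hd => ?_⟩
    · push_cast
      rw [div_lt_iff₀ hm0] at c3
      linarith
    · push_cast
      rw [← mul_div_assoc, le_div_iff₀ hm0] at c4
      linarith
    · rcases (Nat.Prime.dvd_mul (hSp π hπ)).1 hd with h4 | h4
      · exact (mem_filter.1 hm).2 π hπ h4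
      · have e := (Nat.prime_dvd_prime_iff_eq (hSp π hπ) c1).1 h4
        subst e
        rcases mem_union.1 hπ with h5 | h5
        · have h6 := (hA π h5).2
          have h7 : (t ^ 3) ^ 4 < (π : ℝ) ^ 4 := pow_lt_pow_left₀ (by linarith) (by positivity) (by norm_num)
          have h8 : (t ^ 3) ^ 4 = (t ^ 4) ^ 3 := by ring
          linarith
        · exact c2 (Nat.dvd_of_mem_primeFactors h5)
  refine le_trans ?_ (h2.trans h3)
  rw [← sum_mul]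
  calc c / 12 * ∏ π ∈ S, (1 - 1 / (π : ℝ))
      = (Real.log t * ∏ π ∈ S, (1 - 1 / (π : ℝ))) * (c / (12 * Real.log t)) := by field_simp
    _ ≤ _ := mul_le_mul_of_nonneg_right h1 (by positivity)

end Crest.Agent.R1
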