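import Crest.Agent.R1.NearM
import Crest.Agent.R1.Rough

/-!
# R1 / NearCore : the aligned model, positive window

Put `t = lv p`, `P = SP t0 p`, `Nn = b - q a0`, `Q₀ = qγ`, `W = 2^(k-1)`, `μ = 0.6 b/(D W)`, `A = P.filter (π ∣ Nn)`.
From `b ≥ 8 q X` and the size hypothesis `32 X ≥ γ D 2^k 2^(3t/2)`: `μ ≥ 0.3 Q₀ 2^(3t/2)`, hence for `t > t1`:
`μ ≥ μ0`, `μ ≥ Q₀`, `μ³ ≥ 2^(4t) ≥ π⁴` for `π < p`.  Let `ℳ` be the set of `rough` (`m ∈ (μ, 3μ/2]`, free of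
`A ∪ primeFactors Q₀`).  For `m ∈ ℳ` apply `near_m` with `M = D m`, `y1 = b/M`, `y2 = (b + qX - 1)/M`:
`W ≤ y1` (`m ≤ 0.9 b/(DW)`), `y2 ≤ 2W` (`b + qX ≤ 1.125 b`, `m ≥ μ`), `y2 - y1 ≥ qX/(2M) ≥ W 2^(-3V)/2`.
(`IsCoprime Nn q` from `IsCoprime b q`.)  For each prime `ρ` counted there, `ρ ∈ B k`, `log ρ ≤ k`, and
`j = (Mρ - b)/q ∈ [0, X)` is an integer (`q ∣ Mρ - Nn`), `q (a0 + j) = Mρ - Nn`, so `γ ∣ a0 + j`, `Dρ ∣ b + qj = Mρ`,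
and `π ∣ a0 + j` would give `γπ ∣ a0 + j` (`π ∤ γ`), i.e. `qγπ ∣ Mρ - Nn`.  For fixed `ρ` the map `m ↦ j` is
injective.  So `k ∑_ρ count ≥ ∑_{m ∈ ℳ} ¼ (qX/(2Dm))/φ(Q₀) ∏_{π ∤ Nn}(1 - 1/(π-1))`, and by `rough`
`∑ 1/m ≥ c ∏_{A ∪ pf Q₀} ≥ c (φ(Q₀)/Q₀) ∏_A (1 - 1/(π-1))` (`Nat.totient_eq_mul_prod_factors`, a product over a
union is `≥` the product of the two products).  Finally `∏_P (1 - 1/(π-1)) ≥ c₁/t` (`prod_lower`).
-/

set_option autoImplicit false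

noncomputable section

open scoped Classical

namespace Crest.Agent.R1

open Finset

theorem nc_floor {y : ℝ} (h : 0 < ⌊y⌋₊) : (⌊y⌋₊ : ℝ) ≤ y :=
  Nat.floor_le (zero_le_one.trans (Nat.floor_pos.1 h))

theorem nc_size {q γ D W T X b : ℝ} (q1 : 1 ≤ q) (γ1 : 1 ≤ γ) (D1 : 1 ≤ D) (hW1 : 32 ≤ W)
    (hT1 : 2048 ≤ T) (hX : 0 ≤ X) (hb1 : 8 * q * X ≤ b)
    (hsz : (γ * D * (W * 2)) ^ 2 * T ^ 3 ≤ (32 * X) ^ 2) :
    2 ≤ q * X ∧ T * (q * γ) ≤ 3 / 5 * b / (D * W) ∧ T ^ 4 ≤ (3 / 5 * b / (D * W)) ^ 3 := by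
  have hX2 : (2 : ℝ) ≤ X := by
    have a1 : (1 * 1 * (32 * 2) : ℝ) ^ 2 * 1 ^ 3 ≤ (γ * D * (W * 2)) ^ 2 * T ^ 3 := by
      gcongr
      linarith
    have := (abs_le_of_sq_le_sq' (a := 64) (b := 32 * X) (by linarith) (by positivity)).2
    linarith
  have hqX : (2 : ℝ) ≤ q * X := by nlinarith
  have hb0 : (0 : ℝ) < b := by linarith
  set μ : ℝ := 3 / 5 * b / (D * W) with hμ
  have hμ0 : 0 < μ := by positivity
  have hμ2 : 9 / 100 * (q * γ) ^ 2 * T ^ 3 ≤ μ ^ 2 := by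
    rw [hμ, div_pow, le_div_iff₀ (by positivity)]
    calc _ = 9 / 400 * q ^ 2 * ((γ * D * (W * 2)) ^ 2 * T ^ 3) := by ring
      _ ≤ 9 / 400 * q ^ 2 * (32 * X) ^ 2 := by gcongr
      _ = (3 / 5 * (8 * q * X)) ^ 2 := by ring
      _ ≤ _ := by gcongr
  have hQ1 : (1 : ℝ) ≤ q * γ := one_le_mul_of_one_le_of_one_le q1 γ1
  refine ⟨hqX, (abs_le_of_sq_le_sq' (le_trans ?_ hμ2) hμ0.le).2,
    (abs_le_of_sq_le_sq' ?_ (by positivity)).2⟩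
  · calc _ = 1 * (T * (q * γ)) ^ 2 := by ring
      _ ≤ (9 / 100 * T) * (T * (q * γ)) ^ 2 := by
          gcongr
          linarith
      _ = _ := by ring
  · calc _ = 1 * T ^ 8 := by ring
      _ ≤ ((9 / 100) ^ 3 * T) * T ^ 8 := by
          gcongr
          linarith
      _ = (9 / 100 * 1 ^ 2 * T ^ 3) ^ 3 := by ring
      _ ≤ (9 / 100 * (q * γ) ^ 2 * T ^ 3) ^ 3 := by gcongr
      _ ≤ (μ ^ 2) ^ 3 := by gcongr
      _ = _ := by ring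

/-- the primes counted by `near_m` for the cofactor `m` -/
def ncR (P : Finset ℕ) (a0 b : ℤ) (X q γ D m : ℕ) : Finset ℕ :=
  (Ioc ⌊(b : ℝ) / (D * m)⌋₊ ⌊((b : ℝ) + q * X - 1) / (D * m)⌋₊).filter
    (fun ρ : ℕ => ρ.Prime ∧ ((q * γ : ℕ) : ℤ) ∣ (D * m : ℕ) * ρ - (b - q * a0) ∧
      ∀ π ∈ P, ¬ ((q * γ * π : ℕ) : ℤ) ∣ (D * m : ℕ) * ρ - (b - q * a0))

theorem nc_inj {P : Finset ℕ} {a0 b : ℤ} {X q γ D : ℕ} (hq : 1 ≤ q) (hD : 1 ≤ D)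
    (hP : ∀ π ∈ P, Nat.Coprime π γ) (ℳ : Finset ℕ) (hℳ : ∀ m ∈ ℳ, (0 : ℝ) < m) (ρ : ℕ) :
    (ℳ.filter (fun m => ρ ∈ ncR P a0 b X q γ D m)).card ≤ ((range X).filter (fun j : ℕ =>
      (γ : ℤ) ∣ a0 + j ∧ ((D * ρ : ℕ) : ℤ) ∣ b + q * j ∧ ∀ π ∈ P, ¬ (π : ℤ) ∣ a0 + j)).card := by
  refine card_le_card_of_surjOn (fun j : ℕ => ((b + q * j) / (D * ρ : ℕ)).toNat) fun m hm => ?_
  obtain ⟨hm, hρ⟩ := mem_filter.1 (mem_coe.1 hm)
  have a0' := hℳ m hm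
  have D0 : (0 : ℝ) < D := by exact_mod_cast hD
  obtain ⟨a1, a2, a3, a4⟩ := mem_filter.1 hρ
  obtain ⟨a5, a6⟩ := mem_Ioc.1 a1
  have a7 := Nat.lt_of_floor_lt a5
  have a8 := (Nat.cast_le.2 a6).trans (nc_floor (a2.pos.trans_le a6))
  rw [div_lt_iff₀ (by positivity)] at a7
  rw [le_div_iff₀ (by positivity)] at a8
  have a7' : b < ρ * (D * m) := by exact_mod_cast a7
  have a8' : (ρ : ℤ) * (D * m) ≤ b + q * X - 1 := by exact_mod_cast a8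
  obtain ⟨n, hn⟩ := a3
  have q0 : (0 : ℤ) < q := by exact_mod_cast hq
  have e1 : b + q * (γ * n - a0) = ρ * (D * m) := by
    push_cast at hn
    linear_combination -hn
  have j0 : 0 ≤ γ * n - a0 :=
    ((pos_iff_pos_of_mul_pos (by linarith : 0 < (q : ℤ) * (γ * n - a0))).1 q0).le
  have jX : γ * n - a0 < X := lt_of_mul_lt_mul_left (by linarith) q0.le
  obtain ⟨j, hj⟩ := Int.eq_ofNat_of_zero_le j0
  have e2 : a0 + j = γ * n := by linarith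
  rw [hj] at e1 jX
  have e3 : b + q * j = (D * ρ : ℕ) * m := by
    push_cast
    linear_combination e1
  refine ⟨j, mem_coe.2 (mem_filter.2 ⟨mem_range.2 (by exact_mod_cast jX), ⟨n, e2⟩, ⟨m, e3⟩,
    fun π hπ h => a4 π hπ ?_⟩), ?_⟩
  · rw [hn, Nat.cast_mul (q * γ)]
    exact mul_dvd_mul_left _
      ((Nat.isCoprime_iff_coprime.2 (hP π hπ)).dvd_of_dvd_mul_left (e2 ▸ h))
  · simp only
    rw [e3, Int.mul_ediv_cancel_left _ (by exact_mod_cast (Nat.mul_pos hD a2.pos).ne'),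
      Int.toNat_natCast]

theorem near_core (hP : PAP) : ∃ (t1 κ0 V0 : ℕ) (c : ℝ), 5 ≤ κ0 ∧ 0 < c ∧ ∀ t0 ≥ t1, ∀ V ≥ V0,
    ∀ (a0 b : ℤ) (X q γ D k p : ℕ), t0 < lv p → κ0 * lv p ≤ V → κ0 * V ≤ k → 1 ≤ q → 1 ≤ γ → 1 ≤ D →
    q * γ ≤ 2 ^ (3 * V) → IsCoprime b (q : ℤ) → IsCoprime (γ : ℤ) (b - q * a0) →
    Nat.Coprime D (q * γ) → (∀ π ∈ SP t0 p, ¬ π ∣ D ∧ ¬ π ∣ γ) →
    8 * (q : ℤ) * X ≤ b → b ≤ 2 ^ (3 * V) * (q : ℤ) * X →
    (γ * D * 2 ^ k) ^ 2 * 2 ^ (3 * lv p) ≤ (32 * X) ^ 2 →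
    c * X / (γ * D * k * lv p) ≤ ∑ ρ ∈ B k,
      (((range X).filter (fun j : ℕ => (γ : ℤ) ∣ a0 + j ∧ ((D * ρ : ℕ) : ℤ) ∣ b + q * j ∧
        ∀ π ∈ SP t0 p, ¬ (π : ℤ) ∣ a0 + j)).card : ℝ) := by
  obtain ⟨κ0, V0, hκ0, hm⟩ := near_m hP
  obtain ⟨cr, hcr, μ0, hr⟩ := rough hP
  obtain ⟨c1, hc1, hlow⟩ := prod_lower hP
  refine ⟨⌈μ0⌉₊ + 11, κ0, V0, cr * c1 / 8, hκ0, by positivity,
    fun t0 ht0 V hV a0 b X q γ D k p htp hκt hκV hq hγ hD hQ hbq hγN hDQ hSP hb1 hb2 hsz => ?_⟩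
  set t := lv p with ht
  have htV : t ≤ V := (Nat.le_mul_of_pos_left t (by omega)).trans hκt
  have hk5 : 5 * V ≤ k := (Nat.mul_le_mul_right V hκ0).trans hκV
  obtain ⟨k', rfl⟩ : ∃ k', k = k' + 1 := ⟨k - 1, by omega⟩
  set Nn := b - q * a0 with hNn
  have hPP : ∀ π ∈ SP t0 p, π.Prime ∧ 3 ≤ π ∧ lv π ≤ t := fun π hπ => by
    obtain ⟨a1, a2, a3⟩ := mem_SP.1 hπ
    exact ⟨a1, (lt_lv_iff (j := 1)).1 (by omega), lv_mono a3.le⟩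
  have hNQ : IsCoprime Nn ((q * γ : ℕ) : ℤ) := by
    rw [Nat.cast_mul]
    refine IsCoprime.mul_right ?_ hγN.symm
    simpa [hNn, sub_eq_add_neg] using hbq.add_mul_left_left (-a0)
  have q1 : (1 : ℝ) ≤ q := by exact_mod_cast hq
  have γ1 : (1 : ℝ) ≤ γ := by exact_mod_cast hγ
  have D1 : (1 : ℝ) ≤ D := by exact_mod_cast hD
  have hb1' : 8 * (q : ℝ) * X ≤ b := by exact_mod_cast hb1
  have hb2' : (b : ℝ) ≤ 2 ^ (3 * V) * q * X := by exact_mod_cast hb2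
  set W : ℝ := 2 ^ k' with hW
  set T : ℝ := 2 ^ t with hT
  have hsz' : ((γ : ℝ) * D * (W * 2)) ^ 2 * T ^ 3 ≤ (32 * X) ^ 2 := by
    rw [hW, hT, ← pow_succ, ← pow_mul, mul_comm t]
    exact_mod_cast hsz
  have hT1 : 2048 ≤ T := by
    have : (2 : ℝ) ^ 11 ≤ 2 ^ t := pow_le_pow_right₀ one_le_two (by omega)
    linarith
  have hT2 : μ0 ≤ T := (Nat.le_ceil _).trans (by
    have : ⌈μ0⌉₊ ≤ 2 ^ t := (Nat.lt_two_pow_self (n := t)).le.trans' (by omega)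
    rw [hT]
    exact_mod_cast this)
  have hW1 : 32 ≤ W := by
    have : (2 : ℝ) ^ 5 ≤ 2 ^ k' := pow_le_pow_right₀ one_le_two (by omega)
    linarith
  obtain ⟨hqX, hμ3, hμ4⟩ := nc_size q1 γ1 D1 hW1 hT1 (Nat.cast_nonneg X) hb1' hsz'
  have hb0 : (0 : ℝ) < b := by linarith
  set μ : ℝ := 3 / 5 * b / (D * W) with hμ
  have hμ0 : 0 < μ := by positivity
  have hQ1 : (1 : ℝ) ≤ q * γ := one_le_mul_of_one_le_of_one_le q1 γ1
  have hμ5 : T ≤ μ := (le_mul_of_one_le_right (by positivity) hQ1).trans hμ3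
  have hμ6 : (q : ℝ) * γ ≤ μ := (le_mul_of_one_le_left (by positivity) (by linarith)).trans hμ3
  set A := (SP t0 p).filter (fun π : ℕ => (π : ℤ) ∣ Nn) with hA
  have r1 := hr μ (hT2.trans hμ5) A (q * γ) (fun π hπ => by
    have a1 := hPP π (mem_filter.1 hπ).1
    refine ⟨a1.1, le_trans ?_ hμ4⟩
    gcongr
    rw [hT]
    exact_mod_cast lv_le_iff.1 a1.2.2) (Nat.mul_pos hq hγ) (by rw [Nat.cast_mul]; exact hμ6)
  set ℳ := (Ioc ⌊μ⌋₊ ⌊3 / 2 * μ⌋₊).filter (fun m => ∀ π ∈ A ∪ (q * γ).primeFactors, ¬ π ∣ m) with hℳ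
  set R : ℕ → Finset ℕ := ncR (SP t0 p) a0 b X q γ D with hR
  have hmb : ∀ m ∈ ℳ, (0 : ℝ) < m ∧ W ≤ b / (D * m) ∧ ((b : ℝ) + q * X - 1) / (D * m) ≤ W * 2 := by
    intro m hm
    obtain ⟨a1, a2⟩ := mem_Ioc.1 (mem_filter.1 hm).1
    have a3 : μ < m := (Nat.floor_lt hμ0.le).1 a1
    have a4 : (m : ℝ) ≤ 3 / 2 * μ := (Nat.le_floor_iff (by positivity)).1 a2
    have a5 : (0 : ℝ) < m := hμ0.trans a3
    rw [hμ, div_lt_iff₀ (by positivity)] at a3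
    rw [hμ, ← mul_div_assoc, le_div_iff₀ (by positivity)] at a4
    refine ⟨a5, ?_, ?_⟩
    · rw [le_div_iff₀ (by positivity)]
      linarith
    · rw [div_le_iff₀ (by positivity)]
      linarith
  have hRB : ∀ m ∈ ℳ, R m ⊆ B (k' + 1) := fun m hm ρ hρ => by
    obtain ⟨-, a1, a2⟩ := hmb m hm
    obtain ⟨a3, a4, -⟩ := mem_filter.1 hρ
    obtain ⟨a5, a6⟩ := mem_Ioc.1 a3
    have a7 : W < ρ := a1.trans_lt (Nat.lt_of_floor_lt a5)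
    have a8 : (ρ : ℝ) ≤ W * 2 := ((Nat.cast_le.2 a6).trans (nc_floor (a4.pos.trans_le a6))).trans a2
    rw [hW, ← pow_succ] at a8
    rw [hW] at a7
    exact mem_B.2 ⟨a4, le_antisymm (lv_le_iff.2 (by exact_mod_cast a8))
      (lt_lv_iff.2 (by exact_mod_cast a7))⟩
  set Pi := ∏ π ∈ (SP t0 p).filter (fun π : ℕ => ¬ (π : ℤ) ∣ Nn), (1 - 1 / ((π : ℝ) - 1)) with hPi
  have hhalf : ∀ π ∈ SP t0 p, 0 ≤ 1 - 1 / ((π : ℝ) - 1) ∧ 1 - 1 / ((π : ℝ) - 1) ≤ 1 - 1 / (π : ℝ) :=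
    fun π hπ => by
      have h3 : (3 : ℝ) ≤ π := by exact_mod_cast (hPP π hπ).2.1
      exact ⟨sub_nonneg.2 (div_le_one_of_le₀ (by linarith) (by linarith)),
        sub_le_sub_left (one_div_le_one_div_of_le (by linarith) (by linarith)) _⟩
  have hPi0 : 0 ≤ Pi := prod_nonneg fun π hπ => (hhalf π (mem_filter.1 hπ).1).1
  have hφ : (0 : ℝ) < Nat.totient (q * γ) := by exact_mod_cast Nat.totient_pos.2 (Nat.mul_pos hq hγ)
  have s1 : ∀ m ∈ ℳ, q * X * Pi / (8 * D * Nat.totient (q * γ)) * (1 / (m : ℝ)) ≤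
      (k' + 1 : ℕ) * ((R m).card : ℝ) := fun m hmℳ => by
    obtain ⟨a0, a1, a2⟩ := hmb m hmℳ
    have a3 := (mem_filter.1 hmℳ).2
    have a4 : q * X / (2 * (D * m)) ≤ ((b : ℝ) + q * X - 1) / (D * m) - b / (D * m) := by
      rw [← sub_div, ← div_div]
      gcongr
      linarith
    have key := hm V hV Nn q γ (D * m) t (k' + 1) (SP t0 p) (b / (D * m)) ((b + q * X - 1) / (D * m))
      hq hγ hQ (by omega) hκt hκV hNQ (Nat.Coprime.mul_left hDQ (Nat.coprime_of_dvd fun π h1 h2 h3 =>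
        a3 π (mem_union_right _ (Nat.mem_primeFactors.2 ⟨h1, h3, (Nat.mul_pos hq hγ).ne'⟩)) h2))
      (fun π hπ => ⟨(hPP π hπ).1, (hPP π hπ).2.1, (hPP π hπ).2.2, (hSP π hπ).2, fun h1 h2 =>
        ((hPP π hπ).1.dvd_mul.1 h2).elim (hSP π hπ).1
          (a3 π (mem_union_left _ (mem_filter.2 ⟨hπ, h1⟩)))⟩)
      (by rw [pow_succ]; linarith) (by rw [pow_succ]; exact a2) (by
        refine le_trans ?_ (mul_le_mul_of_nonneg_left a4 (by positivity))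
        rw [le_div_iff₀ (by positivity)] at a1
        rw [← mul_div_assoc, le_div_iff₀ (by positivity), pow_succ, pow_add]
        linarith)
    calc _ = 1 / 4 * (q * X / (2 * (D * m)) / Nat.totient (q * γ)) * Pi := by
          field_simp
          ring
      _ ≤ 1 / 4 * ((((b : ℝ) + q * X - 1) / (D * m) - b / (D * m)) / Nat.totient (q * γ)) * Pi := by
          gcongr
      _ ≤ ∑ ρ ∈ R m, Real.log ρ := key
      _ ≤ _ := by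
          rw [mul_comm _ ((R m).card : ℝ), ← nsmul_eq_mul]
          refine sum_le_card_nsmul (R m) _ _ fun ρ hρ => ?_
          obtain ⟨b1, b2⟩ := mem_B.1 (hRB m hmℳ hρ)
          have b3 : (ρ : ℝ) ≤ 2 ^ (k' + 1) := by exact_mod_cast lv_le_iff.1 b2.le
          refine (Real.log_le_log (by exact_mod_cast b1.pos) b3).trans ?_
          rw [Real.log_pow]
          exact mul_le_of_le_one_right (by positivity) (by linarith [Real.log_two_lt_d9])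
  have s2 : ∑ m ∈ ℳ, (R m).card ≤ ∑ ρ ∈ B (k' + 1), ((range X).filter (fun j : ℕ =>
      (γ : ℤ) ∣ a0 + j ∧ ((D * ρ : ℕ) : ℤ) ∣ b + q * j ∧ ∀ π ∈ SP t0 p, ¬ (π : ℤ) ∣ a0 + j)).card := by
    rw [sum_congr rfl (g := fun m => ((B (k' + 1)).filter (fun ρ => ρ ∈ R m)).card) fun m hm => by
      rw [filter_mem_eq_inter, inter_eq_right.2 (hRB m hm)]]
    simp only [card_filter (fun ρ => ρ ∈ R _)]
    rw [sum_comm]
    refine sum_le_sum fun ρ _ => ?_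
    rw [← card_filter]
    exact nc_inj hq hD (fun π hπ => (hPP π hπ).1.coprime_iff_not_dvd.2 (hSP π hπ).2) ℳ
      (fun m hm => (hmb m hm).1) ρ
  have s3 : Nat.totient (q * γ) / (q * γ) * ∏ π ∈ A, (1 - 1 / ((π : ℝ) - 1)) ≤
      ∏ π ∈ A ∪ (q * γ).primeFactors, (1 - 1 / (π : ℝ)) := by
    have hdj : Disjoint A (q * γ).primeFactors := disjoint_left.2 fun π h1 h2 =>
      (Nat.prime_of_mem_primeFactors h2).one_lt.ne'
      (Nat.eq_one_of_dvd_coprimes (Int.isCoprime_iff_nat_coprime.1 hNQ)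
        (Int.natCast_dvd.1 (mem_filter.1 h1).2) (Nat.dvd_of_mem_primeFactors h2))
    rw [prod_union hdj, mul_comm]
    refine mul_le_mul (prod_le_prod (fun π hπ => (hhalf π (mem_filter.1 hπ).1).1)
      fun π hπ => (hhalf π (mem_filter.1 hπ).1).2) (le_of_eq ?_) (by positivity)
      (prod_nonneg fun π hπ => (hhalf π (mem_filter.1 hπ).1).1.trans (hhalf π (mem_filter.1 hπ).1).2)
    have := congrArg (Rat.cast : ℚ → ℝ) (Nat.totient_eq_mul_prod_factors (q * γ))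
    push_cast at this
    rw [this, mul_div_cancel_left₀ _ (by positivity)]
    simp only [one_div]
  have s4 : c1 / t ≤ (∏ π ∈ A, (1 - 1 / ((π : ℝ) - 1))) * Pi := by
    rw [hA, hPi, prod_filter_mul_prod_filter_not]
    exact hlow t (by omega) _ hPP
  have s5 := sum_le_sum s1
  rw [← mul_sum, ← mul_sum, ← Nat.cast_sum] at s5
  have hk0 : (0 : ℝ) < (k' + 1 : ℕ) := by positivity
  have ht0' : (0 : ℝ) < t := by exact_mod_cast (by omega : 0 < t)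
  rw [← Nat.cast_sum]
  refine le_of_mul_le_mul_left ?_ hk0
  calc _ = cr * X / (8 * D * γ) * (c1 / t) := by field_simp
    _ ≤ cr * X / (8 * D * γ) * ((∏ π ∈ A, (1 - 1 / ((π : ℝ) - 1))) * Pi) := by gcongr
    _ = q * X * Pi / (8 * D * Nat.totient (q * γ)) *
        (cr * (Nat.totient (q * γ) / (q * γ) * ∏ π ∈ A, (1 - 1 / ((π : ℝ) - 1)))) := by field_simp
    _ ≤ _ := mul_le_mul_of_nonneg_left ((mul_le_mul_of_nonneg_left s3 hcr.le).trans r1)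
        (by positivity)
    _ ≤ _ := s5
    _ ≤ _ := mul_le_mul_of_nonneg_left (Nat.cast_le.2 s2) hk0.le

end Crest.Agent.R1
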