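import Crest.Agent.R1.FL
import Crest.Agent.R1.Primes

/-!
# R1 / NearM : sieving primes in a progression


-/

set_option autoImplicit false

noncomputable section

open scoped Classical

namespace Crest.Agent.R1

open Finset

theorem nm_theta (hP : PAP) : ∃ c : ℝ, 0 < c ∧ c ≤ 1 ∧ ∃ C : ℝ, 0 ≤ C ∧
    ∀ (Nn : ℤ) (M F : ℕ) (y1 y2 : ℝ),
    1 ≤ F → Nat.Coprime M F → IsCoprime Nn (F : ℤ) → (F : ℝ) ≤ y1 → y1 ≤ y2 →
    |∑ ρ ∈ (Ioc ⌊y1⌋₊ ⌊y2⌋₊).filter (fun ρ : ℕ => ρ.Prime ∧ (F : ℤ) ∣ M * ρ - Nn), Real.log ρ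
      - (y2 - y1) / Nat.totient F| ≤ C * y2 ^ (1 - c) := by
  obtain ⟨c, hc, C, hC, h⟩ := hP
  refine ⟨min c 1, lt_min hc one_pos, min_le_right _ _, 2 * C, by positivity,
    fun Nn M F y1 y2 hF hM hN h1 h2 => ?_⟩
  have : NeZero F := ⟨by omega⟩
  have hF1 : (1 : ℝ) ≤ F := by exact_mod_cast hF
  have hMu : IsUnit (M : ZMod F) := (ZMod.isUnit_iff_coprime M F).2 hM
  have hNu : IsUnit (Nn : ZMod F) := (ZMod.coe_int_isUnit_iff_isCoprime Nn F).2 hN.symm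
  obtain ⟨v, hv⟩ := hMu
  set a := ((↑v⁻¹ : ZMod F) * Nn).val with ha
  have ha' : (a : ZMod F) = ↑v⁻¹ * Nn := ZMod.natCast_zmod_val _
  have hac : Nat.Coprime a F := (ZMod.isUnit_iff_coprime a F).1 (ha' ▸ (Units.isUnit _).mul hNu)
  have e : ∀ ρ : ℕ, (F : ℤ) ∣ M * ρ - Nn ↔ ρ ≡ a [MOD F] := fun ρ => by
    rw [← ZMod.intCast_zmod_eq_zero_iff_dvd, ← ZMod.natCast_eq_natCast_iff, ha']
    push_cast
    rw [sub_eq_zero, ← hv, Units.eq_inv_mul_iff_mul_eq]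
  have hb : ∀ y : ℝ, y1 ≤ y → y ≤ y2 → C * y ^ (1 - c) ≤ C * y2 ^ (1 - min c 1) := fun y a1 a2 =>
    mul_le_mul_of_nonneg_left ((Real.rpow_le_rpow_of_exponent_le (by linarith)
      (by linarith [min_le_left c 1])).trans
      (Real.rpow_le_rpow (by linarith) a2 (by linarith [min_le_right c 1]))) hC
  have a1 := abs_le.1 ((h y1 F a hF h1 hac).trans (hb y1 le_rfl h2))
  have a2 := abs_le.1 ((h y2 F a hF (h1.trans h2) hac).trans (hb y2 h2 le_rfl))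
  simp only [e, sum_filter] at a1 a2 ⊢
  have a3 := sum_Ioc_consecutive (fun ρ : ℕ => if ρ.Prime ∧ ρ ≡ a [MOD F] then Real.log ρ else 0)
    (Nat.zero_le ⌊y1⌋₊) (Nat.floor_mono h2)
  rw [show ∀ n : ℕ, Icc 1 n = Ioc 0 n from fun _ => rfl] at a1 a2
  rw [sub_div, abs_le]
  constructor <;> linarith [a1.1, a1.2, a2.1, a2.2]

theorem nm_totient (q γ : ℕ) (f : Finset ℕ) (hf : ∀ π ∈ f, π.Prime ∧ ¬ π ∣ γ) :
    1 / (Nat.totient (q * γ * pr f) : ℝ) = 1 / (Nat.totient (q * γ) : ℝ) *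
      ∏ π ∈ f, if π ∣ q then 1 / (π : ℝ) else 1 / ((π : ℝ) - 1) := by
  induction f using Finset.induction_on with
  | empty => simp [pr]
  | insert π f hπ ih =>
    obtain ⟨h1, h2⟩ := hf π (mem_insert_self _ _)
    have hf' := fun x hx => hf x (mem_insert_of_mem hx)
    rw [prod_insert hπ, mul_left_comm, ← ih hf', pr_insert hπ, mul_left_comm]
    split_ifs with h
    · rw [Nat.totient_mul_of_prime_of_dvd h1 ((h.mul_right γ).mul_right _), Nat.cast_mul,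
        one_div_mul_one_div]
    · rw [Nat.totient_mul_of_prime_of_not_dvd h1 fun h' => ?_, Nat.cast_mul, Nat.cast_pred h1.pos,
        one_div_mul_one_div]
      rcases h1.dvd_mul.1 h' with h' | h'
      · exact (h1.dvd_mul.1 h').elim h h2
      · exact hπ ((prime_dvd_pr (fun x hx => (hf' x hx).1) h1).1 h')

/-- `M ρ ≡ Nn (mod F)` is one reduced residue class for `ρ`; apply `PAP` at `y1` and `y2`. -/
theorem theta_class (hP : PAP) : ∃ c : ℝ, 0 < c ∧ ∃ C : ℝ, 0 ≤ C ∧ ∀ (Nn : ℤ) (M F : ℕ) (y1 y2 : ℝ),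
    1 ≤ F → Nat.Coprime M F → IsCoprime Nn (F : ℤ) → (F : ℝ) ≤ y1 → y1 ≤ y2 →
    |∑ ρ ∈ (Ioc ⌊y1⌋₊ ⌊y2⌋₊).filter (fun ρ : ℕ => ρ.Prime ∧ (F : ℤ) ∣ M * ρ - Nn), Real.log ρ
      - (y2 - y1) / Nat.totient F| ≤ C * y2 ^ (1 - c) := by
  obtain ⟨c, hc, -, h⟩ := nm_theta hP
  exact ⟨c, hc, h⟩

/-- Let `Q₀ = q γ`, `lm` from `exists_weights` for `P`, `s = t`.  For a prime `ρ ∈ (y1, y2]` with `Q₀ ∣ Mρ - Nn` put
`w_ρ π = 1[Q₀ π ∣ Mρ - Nn]`; `∏_{π ∈ f} w_ρ π = 1[Q₀ · pr f ∣ Mρ - Nn]` (write `Mρ - Nn = Q₀ n'`, `pr_dvd_iff`).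
Define `g π = 1/π` if `π ∣ q`, `g π = 0` if `π ∤ q` and (`π ∣ Nn` or `π ∣ M`), `g π = 1/(π-1)` otherwise.  If some `π ∈ f`
has `g π = 0` there is no such `ρ` (if `π ∣ Nn` then `π ∣ Mρ`, but `π ∤ M` and `π ≤ 2^t < ρ`; if `π ∣ M` then `π ∣ Nn`,
excluded by the hypothesis).  Otherwise `M`, `Nn` are coprime to `F = Q₀ · pr f ≤ 2^(4V) ≤ y1`,
`1/φ(F) = (1/φ(Q₀)) ∏_{π ∈ f} g π` (induction on `f`: `Nat.totient_mul_of_prime_of_dvd`,
`Nat.totient_mul_of_prime_of_not_dvd`; `π ∤ γ`), and `theta_class` applies.  So the sum is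
`≥ ((y2-y1)/φ(Q₀)) · ½ ∏(1 - g) - 2^(ut) C 2^(k(1-c))`, `∏ (1 - g) ≥ ∏_{π ∤ Nn} (1 - 1/(π-1)) ≥ c₁/t`
(`prod_lower`; `π ∣ Nn ⇒ π ∤ q`).  The error is at most half of the main term when
`2^(kc) ≥ C' t 2^(7V+2)`: take `κ0 ≥ u`, `κ0 ≥ 9/c`, `κ0 ≥ 5` and `V0` large. -/
theorem near_m (hP : PAP) : ∃ κ0 V0 : ℕ, 5 ≤ κ0 ∧ ∀ V ≥ V0, ∀ (Nn : ℤ) (q γ M t k : ℕ) (P : Finset ℕ)
    (y1 y2 : ℝ), 1 ≤ q → 1 ≤ γ → q * γ ≤ 2 ^ (3 * V) → 1 ≤ t → κ0 * t ≤ V → κ0 * V ≤ k →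
    IsCoprime Nn ((q * γ : ℕ) : ℤ) → Nat.Coprime M (q * γ) →
    (∀ π ∈ P, π.Prime ∧ 3 ≤ π ∧ lv π ≤ t ∧ ¬ π ∣ γ ∧ ((π : ℤ) ∣ Nn → ¬ π ∣ M)) →
    (2 : ℝ) ^ k ≤ 2 * y1 → y2 ≤ 2 ^ k → (2 : ℝ) ^ k ≤ 2 ^ (3 * V + 2) * (y2 - y1) →
    1 / 4 * ((y2 - y1) / Nat.totient (q * γ)) *
        ∏ π ∈ P.filter (fun π : ℕ => ¬ (π : ℤ) ∣ Nn), (1 - 1 / ((π : ℝ) - 1))
      ≤ ∑ ρ ∈ (Ioc ⌊y1⌋₊ ⌊y2⌋₊).filter (fun ρ : ℕ => ρ.Prime ∧ ((q * γ : ℕ) : ℤ) ∣ M * ρ - Nn ∧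
          ∀ π ∈ P, ¬ ((q * γ * π : ℕ) : ℤ) ∣ M * ρ - Nn), Real.log ρ := by
  obtain ⟨c, hc, hc1, C, hC, hθ⟩ := nm_theta hP
  obtain ⟨u, hu, hW⟩ := exists_weights
  obtain ⟨c1, hc10, hlow⟩ := prod_lower hP
  refine ⟨u + ⌈9 / c⌉₊ + 5, ⌈16 * C / c1⌉₊ + 1, by omega,
    fun V hV Nn q γ M t k P y1 y2 hq hγ hQ ht hκt hκV hN hM hPP h1 h2 h3 => ?_⟩
  have hut : u * t ≤ V := (Nat.mul_le_mul_right t (by omega)).trans hκt
  have htV : t ≤ V := (Nat.le_mul_of_pos_left t (by omega)).trans hκt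
  have hk5 : 5 * V ≤ k := (Nat.mul_le_mul_right V (by omega)).trans hκV
  have hy1 : ∀ i : ℕ, i ≤ 4 * V → (2 : ℝ) ^ i ≤ y1 := fun i hi => by
    have : (2 : ℝ) ^ (i + 1) ≤ 2 ^ k := pow_le_pow_right₀ one_le_two (by omega)
    rw [pow_succ] at this
    linarith
  have hy12 : 0 < y2 - y1 := (pos_iff_pos_of_mul_pos (lt_of_lt_of_le (by positivity) h3)).1 (by positivity)
  have hy10 : 1 ≤ y1 := by simpa using hy1 0 (Nat.zero_le _)
  obtain ⟨lm, lp, hs, -, hf, -, hw, hg⟩ := hW t P ht fun π hπ => ⟨(hPP π hπ).1, (hPP π hπ).2.2.1⟩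
  set g0 : ℕ → ℝ := fun π => if π ∣ q then 1 / (π : ℝ) else 1 / ((π : ℝ) - 1) with hg0
  set g : ℕ → ℝ := fun π => if ¬ π ∣ q ∧ ((π : ℤ) ∣ Nn ∨ π ∣ M) then 0 else g0 π with hgd
  have hgb : ∀ π ∈ P, 0 ≤ g π ∧ g π ≤ 1 / ((π : ℝ) - 1) := fun π hπ => by
    have h3 : (3 : ℝ) ≤ π := by exact_mod_cast (hPP π hπ).2.1
    have h4 : 0 < (π : ℝ) - 1 := by linarith
    simp only [hgd, hg0]
    split_ifs
    · exact ⟨le_rfl, by positivity⟩
    · exact ⟨by positivity, one_div_le_one_div_of_le h4 (by linarith)⟩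
    · exact ⟨by positivity, le_rfl⟩
  have hhalf : ∀ π ∈ P, 1 / ((π : ℝ) - 1) ≤ 1 / 2 ∧ 1 / ((π : ℝ) - 1) ≤ 2 / π := fun π hπ => by
    have h3 : (3 : ℝ) ≤ π := by exact_mod_cast (hPP π hπ).2.1
    refine ⟨one_div_le_one_div_of_le two_pos (by linarith), ?_⟩
    rw [div_le_div_iff₀ (by linarith) (by linarith)]
    linarith
  set A := (y2 - y1) / Nat.totient (q * γ) with hA
  have hφ : (0 : ℝ) < Nat.totient (q * γ) := by exact_mod_cast Nat.totient_pos.2 (Nat.mul_pos hq hγ)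
  have hA0 : 0 < A := div_pos hy12 hφ
  set Θ : Finset ℕ → ℝ := fun f => ∑ ρ ∈ (Ioc ⌊y1⌋₊ ⌊y2⌋₊).filter
    (fun ρ : ℕ => ρ.Prime ∧ ((q * γ * pr f : ℕ) : ℤ) ∣ M * ρ - Nn), Real.log ρ with hΘ
  have hE0 : 0 ≤ C * y2 ^ (1 - c) := mul_nonneg hC (Real.rpow_nonneg (by linarith) _)
  have key : ∀ f ⊆ P, lm f ≠ 0 → |Θ f - A * ∏ π ∈ f, g π| ≤ C * y2 ^ (1 - c) := by
    intro f hfP hl
    have hfp : ∀ π ∈ f, π.Prime := fun π hπ => (hPP π (hfP hπ)).1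
    by_cases hz : ∃ π ∈ f, ¬ π ∣ q ∧ ((π : ℤ) ∣ Nn ∨ π ∣ M)
    · obtain ⟨π, hπ, hz⟩ := hz
      rw [prod_eq_zero (f := g) hπ (if_pos hz), mul_zero, sub_zero, hΘ]
      simp only
      rw [filter_eq_empty_iff.2, sum_empty, abs_zero]
      · exact hE0
      rintro ρ hρ ⟨hρp, hd⟩
      have a1 : (π : ℤ) ∣ M * ρ - Nn :=
        (Int.natCast_dvd_natCast.2 ((dvd_prod_of_mem _ hπ).trans (Dvd.intro_left _ rfl))).trans hd
      have a2 : (π : ℤ) ∣ Nn := hz.2.elim id fun h => by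
        have := dvd_sub ((Int.natCast_dvd_natCast.2 h).mul_right (ρ : ℤ)) a1
        rwa [sub_sub_cancel] at this
      have a3 : π ∣ M * ρ := by
        have := dvd_add a1 a2
        rw [sub_add_cancel] at this
        exact_mod_cast this
      obtain ⟨b1, -, b3, -, b5⟩ := hPP π (hfP hπ)
      have a4 := (Nat.prime_dvd_prime_iff_eq b1 hρp).1 ((b1.dvd_mul.1 a3).resolve_left (b5 a2))
      have a5 : (π : ℝ) ≤ y1 := le_trans (by exact_mod_cast lv_le_iff.1 b3) (hy1 t (by omega))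
      have a6 := (mem_Ioc.1 hρ).1
      rw [← a4] at a6
      exact absurd (Nat.le_floor a5) (not_le.2 a6)
    · push Not at hz
      have a1 : ∏ π ∈ f, g π = ∏ π ∈ f, g0 π := prod_congr rfl fun π hπ => if_neg fun h =>
        h.2.elim (hz π hπ h.1).1 (hz π hπ h.1).2
      have a2 := nm_totient q γ f fun π hπ => ⟨hfp π hπ, (hPP π (hfP hπ)).2.2.2.1⟩
      have a3 : Nat.Coprime M (q * γ * pr f) := hM.mul_right (coprime_pr hfp fun π hπ h => by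
        by_cases h' : π ∣ q
        · exact (hfp π hπ).one_lt.ne' (Nat.eq_one_of_dvd_coprimes hM h (h'.mul_right γ))
        · exact (hz π hπ h').2 h)
      have hN' := Int.isCoprime_iff_nat_coprime.1 hN
      rw [Int.natAbs_natCast] at hN'
      have a4 : IsCoprime Nn ((q * γ * pr f : ℕ) : ℤ) := by
        rw [Int.isCoprime_iff_nat_coprime, Int.natAbs_natCast]
        refine hN'.mul_right (coprime_pr hfp fun π hπ h => ?_)
        by_cases h' : π ∣ q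
        · exact (hfp π hπ).one_lt.ne' (Nat.eq_one_of_dvd_coprimes hN' h (h'.mul_right γ))
        · exact (hz π hπ h').1 (Int.natCast_dvd.2 h)
      have a5 : ((q * γ * pr f : ℕ) : ℝ) ≤ y1 := by
        refine le_trans ?_ (hy1 (4 * V) le_rfl)
        have := Nat.mul_le_mul hQ ((hf f hfP hl).trans (Nat.pow_le_pow_right two_pos hut))
        rw [← pow_add, show 3 * V + V = 4 * V by ring] at this
        exact_mod_cast this
      have := hθ Nn M _ y1 y2 (Nat.mul_pos (Nat.mul_pos hq hγ) (pr_pos hfp)) a3 a4 a5 (by linarith)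
      rwa [div_eq_mul_one_div (y2 - y1), a2, ← mul_assoc, mul_one_div, ← a1] at this
  have s1 : ∑ f ∈ P.powerset, lm f * Θ f ≤ ∑ ρ ∈ (Ioc ⌊y1⌋₊ ⌊y2⌋₊).filter (fun ρ : ℕ => ρ.Prime ∧
      ((q * γ : ℕ) : ℤ) ∣ M * ρ - Nn ∧ ∀ π ∈ P, ¬ ((q * γ * π : ℕ) : ℤ) ∣ M * ρ - Nn),
      Real.log ρ := by
    simp only [hΘ, sum_filter, mul_sum]
    rw [sum_comm]
    refine sum_le_sum fun ρ _ => ?_
    by_cases hρ : ρ.Prime ∧ ((q * γ : ℕ) : ℤ) ∣ M * ρ - Nn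
    · obtain ⟨hρ, n', hn'⟩ := hρ
      have hQ0 : ((q * γ : ℕ) : ℤ) ≠ 0 := by exact_mod_cast (Nat.mul_pos hq hγ).ne'
      have e : ∀ m : ℕ, ((q * γ * m : ℕ) : ℤ) ∣ M * ρ - Nn ↔ (m : ℤ) ∣ n' := fun m => by
        rw [hn', Nat.cast_mul (q * γ), mul_dvd_mul_iff_left hQ0]
      have b1 := (hw (fun π => if (π : ℤ) ∣ n' then 1 else 0) fun π _ => by
        split_ifs <;> simp).1
      have b2 : ∀ f ∈ P.powerset, (lm f * if ρ.Prime ∧ ((q * γ * pr f : ℕ) : ℤ) ∣ M * ρ - Nn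
          then Real.log ρ else 0) =
          (lm f * ∏ π ∈ f, if (π : ℤ) ∣ n' then (1 : ℝ) else 0) * Real.log ρ := fun f hf => by
        simp only [prod_boole, e, pr_dvd_iff fun π hπ => (hPP π (mem_powerset.1 hf hπ)).1]
        simp [hρ]
      rw [sum_congr rfl b2, ← sum_mul]
      refine (mul_le_mul_of_nonneg_right b1 (Real.log_natCast_nonneg ρ)).trans (le_of_eq ?_)
      have b3 : ∀ π : ℕ, (1 - if (π : ℤ) ∣ n' then (1 : ℝ) else 0) =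
          if ¬ (π : ℤ) ∣ n' then (1 : ℝ) else 0 := fun π => by split_ifs <;> simp
      simp only [b3, prod_boole, e]
      simp [hρ, hn']
    · rw [if_neg fun h => hρ ⟨h.1, h.2.1⟩]
      refine (sum_eq_zero fun f _ => ?_).le
      rw [if_neg fun h => hρ ⟨h.1, (Int.natCast_dvd_natCast.2 (Dvd.intro _ rfl)).trans h.2⟩, mul_zero]
  have s2 : A * ∑ f ∈ P.powerset, lm f * ∏ π ∈ f, g π - 2 ^ V * (C * y2 ^ (1 - c)) ≤
      ∑ f ∈ P.powerset, lm f * Θ f := by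
    have b1 : ∑ f ∈ P.powerset, |lm f| * (C * y2 ^ (1 - c)) ≤ 2 ^ V * (C * y2 ^ (1 - c)) := by
      rw [← sum_mul]
      exact mul_le_mul_of_nonneg_right (hs.trans (pow_le_pow_right₀ one_le_two hut)) hE0
    refine (sub_le_sub_left b1 _).trans ?_
    rw [mul_sum, ← sum_sub_distrib]
    refine sum_le_sum fun f hf => ?_
    by_cases hl : lm f = 0
    · simp [hl]
    · have := mul_le_mul_of_nonneg_left (key f (mem_powerset.1 hf) hl) (abs_nonneg (lm f))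
      rw [← abs_mul] at this
      linarith [(abs_le.1 this).1]
  have s3 := (hg g fun π hπ => ⟨(hgb π hπ).1, (hgb π hπ).2.trans (hhalf π hπ).1,
    (hgb π hπ).2.trans (hhalf π hπ).2⟩).1
  set Pi := ∏ π ∈ P.filter (fun π : ℕ => ¬ (π : ℤ) ∣ Nn), (1 - 1 / ((π : ℝ) - 1)) with hPi
  have s4 : Pi ≤ ∏ π ∈ P, (1 - g π) := by
    rw [hPi, prod_filter]
    refine prod_le_prod (fun π hπ => ?_) fun π hπ => ?_
    · split_ifs
      · exact zero_le_one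
      · linarith [(hhalf π hπ).1]
    · split_ifs with h
      · have : ¬ π ∣ q := fun h' => (hPP π hπ).1.one_lt.ne' (Nat.eq_one_of_dvd_coprimes
          (Int.isCoprime_iff_nat_coprime.1 hN) (Int.natCast_dvd.1 h) (h'.mul_right γ))
        simp [hgd, this, h]
      · linarith [(hgb π hπ).2]
  have s5 : c1 / t ≤ Pi := hlow t ht _ fun π hπ =>
    have := hPP π (mem_filter.1 hπ).1
    ⟨this.1, this.2.1, this.2.2.1⟩
  have s6 : y2 ^ (1 - c) ≤ 2 ^ k / 2 ^ (9 * V) := by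
    refine (Real.rpow_le_rpow (by linarith) h2 (by linarith)).trans ?_
    rw [Real.rpow_sub (by positivity), Real.rpow_one]
    gcongr
    rw [← Real.rpow_natCast, ← Real.rpow_natCast, ← Real.rpow_mul two_pos.le]
    refine Real.rpow_le_rpow_of_exponent_le one_le_two ?_
    have b1 : 9 / c ≤ ⌈9 / c⌉₊ := Nat.le_ceil _
    have b2 : ((⌈9 / c⌉₊ * V : ℕ) : ℝ) ≤ k := by
      exact_mod_cast (Nat.mul_le_mul_right V (by omega)).trans hκV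
    rw [div_le_iff₀ hc] at b1
    push_cast at b2 ⊢
    nlinarith [Nat.cast_nonneg (α := ℝ) V]
  have s7 : 2 ^ V * (C * y2 ^ (1 - c)) ≤ 1 / 4 * A * Pi := by
    have hV2 : (V : ℝ) ≤ 2 ^ V := by exact_mod_cast (Nat.lt_two_pow_self (n := V)).le
    have b1 : 16 * C ≤ c1 * 2 ^ V := by
      have : 16 * C / c1 ≤ V := (Nat.le_ceil _).trans (by exact_mod_cast (by omega))
      rw [div_le_iff₀ hc10] at this
      nlinarith
    have b2 : c1 / 2 ^ V ≤ Pi := le_trans (by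
      have : (0 : ℝ) < t := by exact_mod_cast ht
      have : (t : ℝ) ≤ V := by exact_mod_cast htV
      gcongr
      linarith) s5
    have b3 : 2 ^ k / 2 ^ (3 * V + 2) / 2 ^ (3 * V) ≤ A := by
      have : (Nat.totient (q * γ) : ℝ) ≤ 2 ^ (3 * V) := by
        exact_mod_cast (Nat.totient_le _).trans hQ
      rw [hA]
      gcongr
      rwa [div_le_iff₀' (by positivity)]
    calc _ ≤ 2 ^ V * (c1 * 2 ^ V / 16 * (2 ^ k / 2 ^ (9 * V))) := by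
          exact mul_le_mul_of_nonneg_left (mul_le_mul (by linarith) s6
            (Real.rpow_nonneg (by linarith) _) (by positivity)) (by positivity)
      _ = 1 / 4 * (2 ^ k / 2 ^ (3 * V + 2) / 2 ^ (3 * V)) * (c1 / 2 ^ V) := by
          field_simp
          ring
      _ ≤ _ := by gcongr
  nlinarith [mul_le_mul_of_nonneg_left s3 hA0.le, mul_le_mul_of_nonneg_left s4 hA0.le]

end Crest.Agent.R1
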