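import Crest.Agent.R1.PAP_Main
import Crest.Agent.S0022

/-!
# R1 / PAP : primes in arithmetic progressions with a power saving (from S0022)

SUB-LEAD file.  Use only `Crest.Agent.S0022.result` (no zeros of `L(s,χ)` on `Re s > 7/8`).
Split into `R1/PAP_*.lean` as you like (let the auxiliary files take the zero-free statement as a hypothesis, so
that they do not import S0022 = all of R17); only the statement `pap` below is used elsewhere.

**Plan.**
1. *Growth.* For `χ ≠ 1` mod `q`, `Re s ≥ 3/4`: `‖L(s,χ)‖ ≤ C q (‖s‖+1)`.  (`S(n) = ∑_{m ≤ n} χ m` is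
   bounded by `q`; `G(s) = ∑ S(n) (n^{-s} - (n+1)^{-s})` converges locally uniformly on `Re s > 0`, each
   term is `≤ q ‖s‖ n^{-Re s - 1}`, `G = L` on `Re s > 1` by Abel summation, identity theorem.  Or use
   Mathlib's `LSeries_eq_mul_integral`, or the Hurwitz/`ZMod.LFunction` decomposition.)  For `ζ`:
   `h(s) = (s-1) ζ(s)` is entire with `‖h s‖ ≤ C (‖s‖+1)^2` on `Re s ≥ 3/4` (same proof with
   `∑ (n^{-s} - ∫_n^{n+1} x^{-s})`, or through the non-trivial characters: `η(s) = (1-2^{1-s}) ζ(s)`, ...).
   The principal character mod `q` is reduced to `q = 1`: `ψ(y,χ₀) = ψ(y) + O(log q · log y)`.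
2. *Log derivative.* `Crest.Agent.R17.log_lemma` (file `R17/Local_Log`, centre `c = 2 + it`, `r = 9/8`,
   `δ = 1/16`; on `ball c (3/4)` and at `c` use the absolutely convergent series for `L` and `1/L`) gives
   `‖L'/L(s)‖ ≤ K log (q (|t|+3))` for `15/16 ≤ Re s ≤ 2`.  For `ζ` apply it to `(s-1)ζ(s)/s`.
3. *Smoothed sums.* With a Gaussian kernel in `log n` (compare `R17.blks_mellin`, `R17.shift_line`,
   `R17.shift_line_pole` in `R17/Contour`): for `η > 0`, `v` real,
   `∑ Λ(n) χ(n) exp(-(log n - v)^2/η^2) = (1/2π) ∫ (-L'/L)(σ+it) · η√π · exp(η² s²/4 + s v) dt`, move from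
   `σ = 2` to `σ = 15/16`: the sum is `[χ = 1] η √π e^{v + η²/4} + O(e^{15 v/16} log (q/η))`.
   Integrate in `v ≤ log y` (or use directly the kernel `exp(η² s²/4 + s log y)/s`, which is the Mellin
   transform of the smoothed indicator `erfc`), `η = y^{-1/32}`, and unsmooth using `Λ(n) ≤ log n` and
   Gaussian tails: `ψ(y,χ) = [χ = 1] y + O(y^{1-1/40})` uniformly for `q ≤ y`.
   (Any other smoothing, e.g. Riesz means `∑ Λ(n)χ(n)(y-n)` with kernel `y^{s+1}/(s(s+1))` and the
   monotonicity of `ψ(y;q,a)`, is fine - this is probably the shortest route: `ψ₁(y;q,a) = y²/(2φ(q)) +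
   O(y^{2-1/17})`, then difference with step `h = y^{1-1/40}`.)
4. Orthogonality (`DirichletCharacter.sum_char_inv_mul_char_eq`), remove prime powers
   (`Chebyshev.abs_psi_sub_theta_le_sqrt_mul_log`), absorb small `y` in `C`.
-/

set_option autoImplicit false

namespace Crest.Agent.R1

/-- Primes in arithmetic progressions, power saving error, uniform in the modulus
(`PAP` is defined in `R1/Defs`). -/
theorem pap : PAP :=
  pap_of_zf fun _ _ χ s h1 h2 => Crest.Agent.S0022.result χ s h1 h2

end Crest.Agent.R1
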