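import Mathlib

/-!
# R1 / PAP_Growth : growth of Dirichlet `L`-functions on `Re s > 0`
-/

set_option autoImplicit false

noncomputable section

open MeasureTheory Filter Topology Finset

namespace Crest.Agent.R1

theorem pap_partial {f : ℕ → ℂ} {q : ℕ} (hq : 1 ≤ q) (hper : ∀ n, f (n + q) = f n)
    (hb : ∀ n, ‖f n‖ ≤ 1) : ∃ l : ℂ, ‖l‖ ≤ 1 ∧ ∀ t : ℝ, 0 ≤ t →
      ‖∑ k ∈ Icc 1 ⌊t⌋₊, f k - l * t‖ ≤ 3 * q := by
  have hq0 : (q : ℂ) ≠ 0 := Nat.cast_ne_zero.2 (by omega)
  have hq1 : (1 : ℝ) ≤ q := by exact_mod_cast hq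
  have hs : ∀ n, ‖∑ k ∈ Icc 1 n, f k‖ ≤ n := fun n => by
    refine (norm_sum_le _ _).trans ((sum_le_card_nsmul _ _ 1 fun k _ => hb k).trans ?_)
    simp
  set l : ℂ := (∑ k ∈ Icc 1 q, f k) / q with hl
  have hl1 : ‖l‖ ≤ 1 := by
    rw [hl, norm_div, Complex.norm_natCast, div_le_one (by linarith)]
    exact hs q
  have h1 : ∀ n, ∑ k ∈ Icc 1 (n + q), f k - l * (n + q : ℕ) = ∑ k ∈ Icc 1 n, f k - l * n := by
    intro n
    induction n with
    | zero => simp [hl, hq0]
    | succ n ih =>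
      rw [show n + 1 + q = (n + q) + 1 by ring, sum_Icc_succ_top (by omega),
        sum_Icc_succ_top (by omega), show n + q + 1 = (n + 1) + q by ring, hper]
      push_cast at ih ⊢
      linear_combination ih
  have h2 : ∀ n, ‖∑ k ∈ Icc 1 n, f k - l * n‖ ≤ 2 * q := by
    intro n
    induction n using Nat.strong_induction_on with
    | _ n ih =>
      rcases lt_or_ge n q with h | h
      · have hn : (n : ℝ) ≤ q := by exact_mod_cast h.le
        refine (norm_sub_le _ _).trans ?_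
        rw [norm_mul, Complex.norm_natCast]
        nlinarith [hs n, Nat.cast_nonneg (α := ℝ) n]
      · obtain ⟨m, rfl⟩ := Nat.exists_eq_add_of_le' h
        rw [h1]
        exact ih m (by omega)
  refine ⟨l, hl1, fun t ht => ?_⟩
  have e : ∑ k ∈ Icc 1 ⌊t⌋₊, f k - l * t =
      (∑ k ∈ Icc 1 ⌊t⌋₊, f k - l * (⌊t⌋₊ : ℕ)) - l * ((t - ⌊t⌋₊ : ℝ) : ℂ) := by
    push_cast
    ring
  rw [e]
  refine (norm_sub_le _ _).trans ?_
  have h3 : ‖((t - ⌊t⌋₊ : ℝ) : ℂ)‖ ≤ 1 := by
    rw [Complex.norm_real, Real.norm_of_nonneg (sub_nonneg.2 (Nat.floor_le ht))]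
    linarith [Nat.lt_floor_add_one t]
  have h4 : ‖l * ((t - ⌊t⌋₊ : ℝ) : ℂ)‖ ≤ 1 := by
    rw [norm_mul]
    exact mul_le_one₀ hl1 (norm_nonneg _) h3
  linarith [h2 ⌊t⌋₊]

theorem pap_rep {f : ℕ → ℂ} {q : ℕ} (hq : 1 ≤ q) (hper : ∀ n, f (n + q) = f n)
    (hb : ∀ n, ‖f n‖ ≤ 1) : ∃ (l : ℂ) (M : ℂ → ℂ), ‖l‖ ≤ 1 ∧ DifferentiableOn ℂ M {s | 0 < s.re} ∧
      (∀ s : ℂ, 0 < s.re → ‖M s‖ ≤ 3 * q / s.re) ∧
      ∀ s : ℂ, 1 < s.re → (s - 1) * LSeries f s = l * s + s * (s - 1) * M s := by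
  obtain ⟨l, hl, hB⟩ := pap_partial hq hper hb
  set g : ℝ → ℂ := Set.indicator (Set.Ioi 1) (fun t => ∑ k ∈ Icc 1 ⌊t⌋₊, f k - l * t) with hg
  have hm0 : Measurable fun t : ℝ => ∑ k ∈ Icc 1 ⌊t⌋₊, f k :=
    (measurable_from_nat (f := fun n => ∑ k ∈ Icc 1 n, f k)).comp Nat.measurable_floor
  have hgm : Measurable g :=
    (hm0.sub (Complex.measurable_ofReal.const_mul l)).indicator measurableSet_Ioi
  have hgb : ∀ t, ‖g t‖ ≤ 3 * q := fun t => by
    by_cases ht : t ∈ Set.Ioi (1 : ℝ)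
    · rw [hg, Set.indicator_of_mem ht]
      exact hB t (by linarith [Set.mem_Ioi.1 ht])
    · rw [hg, Set.indicator_of_notMem ht, norm_zero]
      positivity
  have hM : ∀ s : ℂ, mellin g (-s) =
      ∫ t in Set.Ioi (1 : ℝ), (∑ k ∈ Icc 1 ⌊t⌋₊, f k - l * t) * (t : ℂ) ^ (-(s + 1)) := fun s => by
    rw [mellin]
    simp_rw [hg, ← Set.indicator_smul]
    rw [setIntegral_indicator measurableSet_Ioi,
      Set.inter_eq_right.2 (Set.Ioi_subset_Ioi zero_le_one)]
    refine setIntegral_congr_fun measurableSet_Ioi fun t _ => ?_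
    simp only [smul_eq_mul]
    rw [mul_comm, show -s - 1 = -(s + 1) by ring]
  refine ⟨l, fun s => mellin g (-s), hl, fun s hs => ?_, fun s hs => ?_, fun s hs => ?_⟩
  · have hs' : 0 < s.re := hs
    have : DifferentiableAt ℂ (mellin g) (-s) := by
      refine mellin_differentiableAt_of_isBigO_rpow (a := 0) (b := -s.re - 1) ?_ ?_
        (by simpa using hs') ?_ (by simp)
      · exact ((locallyIntegrable_const (3 * (q : ℝ))).mono hgm.aestronglyMeasurable
          (Eventually.of_forall fun t => (hgb t).trans (Real.le_norm_self _))).locallyIntegrableOn _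
      · exact Asymptotics.IsBigO.of_bound (3 * q) (Eventually.of_forall fun t => by
          simpa using hgb t)
      · refine Asymptotics.IsBigO.of_bound 0 ?_
        filter_upwards [Ioo_mem_nhdsGT (zero_lt_one' ℝ)] with t ht
        rw [hg, Set.indicator_of_notMem (by simpa using ht.2.le)]
        simp
    exact (this.comp s differentiableAt_id.neg).differentiableWithinAt
  · simp only [hM]
    have h1 : -(s.re + 1) < -1 := by linarith
    refine (norm_integral_le_of_norm_le ((integrableOn_Ioi_rpow_of_lt h1 one_pos).const_mul (3 * q))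
      ?_).trans ?_
    · refine (ae_restrict_iff' measurableSet_Ioi).2 (Eventually.of_forall fun t ht => ?_)
      have ht' : (0 : ℝ) < t := one_pos.trans ht
      rw [norm_mul, Complex.norm_cpow_eq_rpow_re_of_pos ht']
      simp only [Complex.neg_re, Complex.add_re, Complex.one_re]
      exact mul_le_mul_of_nonneg_right (hB t ht'.le) (Real.rpow_nonneg ht'.le _)
    · rw [integral_const_mul, integral_Ioi_rpow_of_lt h1 one_pos, Real.one_rpow]
      refine le_of_eq ?_
      rw [show -(s.re + 1) + 1 = -s.re by ring, neg_div_neg_eq, mul_one_div]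
  · have hs1 : s - 1 ≠ 0 := fun h => by
      have := congrArg Complex.re h
      simp at this
      linarith
    have h1 := LSeries_eq_mul_integral' f zero_le_one hs
      (Asymptotics.IsBigO.of_bound 1 (Eventually.of_forall fun n => by
        rw [Real.rpow_one, one_mul, Real.norm_of_nonneg (sum_nonneg fun _ _ => norm_nonneg _),
          Real.norm_of_nonneg (Nat.cast_nonneg _)]
        refine (sum_le_card_nsmul _ _ 1 fun k _ => hb k).trans ?_
        simp))
    have h2 : (-s).re < -1 := by simpa using hs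
    have i1 : IntegrableOn (fun t : ℝ => l * (t : ℂ) ^ (-s)) (Set.Ioi 1) :=
      (integrableOn_Ioi_cpow_of_lt h2 one_pos).const_mul l
    have i2 : IntegrableOn (fun t : ℝ => (∑ k ∈ Icc 1 ⌊t⌋₊, f k - l * t) * (t : ℂ) ^ (-(s + 1)))
        (Set.Ioi 1) := by
      have h3 : (-(s + 1)).re < -1 := by simp; linarith
      refine Integrable.bdd_mul (c := 3 * q) (integrableOn_Ioi_cpow_of_lt h3 one_pos)
        (hm0.sub (Complex.measurable_ofReal.const_mul l)).aestronglyMeasurable ?_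
      exact (ae_restrict_iff' measurableSet_Ioi).2 (Eventually.of_forall fun t ht =>
        hB t (zero_le_one.trans (le_of_lt ht)))
    have h4 : ∫ t in Set.Ioi (1 : ℝ), (∑ k ∈ Icc 1 ⌊t⌋₊, f k) * (t : ℂ) ^ (-(s + 1)) =
        (∫ t in Set.Ioi (1 : ℝ), l * (t : ℂ) ^ (-s)) +
        ∫ t in Set.Ioi (1 : ℝ), (∑ k ∈ Icc 1 ⌊t⌋₊, f k - l * t) * (t : ℂ) ^ (-(s + 1)) := by
      rw [← integral_add i1 i2]
      refine setIntegral_congr_fun measurableSet_Ioi fun t ht => ?_
      have ht' : (t : ℂ) ≠ 0 := Complex.ofReal_ne_zero.2 (one_pos.trans ht).ne'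
      have e : (t : ℂ) ^ (-s) = t * (t : ℂ) ^ (-(s + 1)) := by
        rw [show -s = 1 + -(s + 1) by ring, Complex.cpow_add _ _ ht', Complex.cpow_one]
      simp only [e]
      ring
    rw [h1, h4, integral_const_mul, integral_Ioi_cpow_of_lt h2 one_pos, ← hM]
    have hs2 : -s + 1 ≠ 0 := fun h => hs1 (by linear_combination -h)
    simp only [Complex.ofReal_one, Complex.one_cpow]
    field_simp
    ring

theorem pap_ident {f g : ℂ → ℂ} (hf : DifferentiableOn ℂ f {s | 0 < s.re})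
    (hg : DifferentiableOn ℂ g {s | 0 < s.re}) (h : ∀ s : ℂ, 1 < s.re → f s = g s) {s : ℂ}
    (hs : 0 < s.re) : f s = g s := by
  have ho : IsOpen {s : ℂ | 0 < s.re} := isOpen_lt continuous_const Complex.continuous_re
  refine (hf.analyticOnNhd ho).eqOn_of_preconnected_of_eventuallyEq (hg.analyticOnNhd ho)
    (convex_halfSpace_re_gt 0).isPreconnected (z₀ := 2) (by simp) ?_ hs
  filter_upwards [(isOpen_lt continuous_const Complex.continuous_re).mem_nhds
    (show (1 : ℝ) < (2 : ℂ).re by simp)] with z hz using h z hz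

open DirichletCharacter in
theorem pap_growth {q : ℕ} [NeZero q] {s : ℂ} (hs : 1 / 2 ≤ s.re) :
    ‖LFunctionTrivChar₁ q s‖ ≤ 7 * q * (‖s‖ + 1) ^ 2 ∧
    ∀ χ : DirichletCharacter ℂ q, χ ≠ 1 → ‖LFunction χ s‖ ≤ 7 * q * (‖s‖ + 1) ^ 2 := by
  have hq : 1 ≤ q := NeZero.one_le
  have hq1 : (1 : ℝ) ≤ q := by exact_mod_cast hq
  have hs0 : 0 < s.re := by linarith
  have hn := norm_nonneg s
  have hM6 : ∀ M : ℂ → ℂ, (∀ s : ℂ, 0 < s.re → ‖M s‖ ≤ 3 * q / s.re) → ‖M s‖ ≤ 6 * q :=
    fun M hM => (hM s hs0).trans (by rw [div_le_iff₀ hs0]; nlinarith)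
  have hne : ∀ z : ℂ, 1 < z.re → z ≠ 1 := fun z hz h => by simp [h] at hz
  constructor
  · obtain ⟨l, M, hl, hd, hM, he⟩ := pap_rep (f := fun n => (1 : DirichletCharacter ℂ q) n) hq
      (fun n => by simp) (fun n => norm_le_one _ _)
    have h1 := pap_ident (f := LFunctionTrivChar₁ q) (g := fun s => l * s + s * (s - 1) * M s)
      (differentiable_LFunctionTrivChar₁ q).differentiableOn (by fun_prop) (fun z hz => by
        rw [LFunctionTrivChar₁, Function.update_of_ne (hne z hz), LFunctionTrivChar,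
          LFunction_eq_LSeries _ hz]
        exact he z hz) hs0
    rw [h1]
    refine (norm_add_le _ _).trans ?_
    rw [norm_mul, norm_mul, norm_mul]
    have a1 : ‖s - 1‖ ≤ ‖s‖ + 1 := by simpa using norm_sub_le s 1
    have a2 : ‖s‖ * ‖s - 1‖ * ‖M s‖ ≤ ‖s‖ * (‖s‖ + 1) * (6 * q) := by
      gcongr
      exact hM6 M hM
    have a3 : ‖l‖ * ‖s‖ ≤ q * ‖s‖ := by gcongr; linarith
    nlinarith [mul_nonneg (zero_le_one.trans hq1) hn, mul_nonneg (zero_le_one.trans hq1) (sq_nonneg ‖s‖)]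
  · intro χ hχ
    obtain ⟨l, M, hl, hd, hM, he⟩ := pap_rep (f := fun n => χ n) hq
      (fun n => by simp) (fun n => norm_le_one _ _)
    have hL := differentiable_LFunction hχ
    have h0 := pap_ident (f := fun s => (s - 1) * LFunction χ s)
      (g := fun s => l * s + s * (s - 1) * M s) (by fun_prop) (by fun_prop) (fun z hz => by
        rw [LFunction_eq_LSeries _ hz]
        exact he z hz) (s := 1) (by simp)
    have hl0 : l = 0 := by simpa using h0.symm
    have h1 := pap_ident (f := LFunction χ) (g := fun s => s * M s) hL.differentiableOn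
      (by fun_prop) (fun z hz => by
        have := he z hz
        rw [LFunction_eq_LSeries _ hz]
        refine mul_left_cancel₀ (sub_ne_zero.2 (hne z hz)) ?_
        rw [this, hl0]
        ring) hs0
    rw [h1, norm_mul]
    have a2 : ‖s‖ * ‖M s‖ ≤ ‖s‖ * (6 * q) := by
      gcongr
      exact hM6 M hM
    nlinarith [mul_nonneg (zero_le_one.trans hq1) hn, mul_nonneg (zero_le_one.trans hq1) (sq_nonneg ‖s‖)]

end Crest.Agent.R1
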