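import Crest.Agent.R1.PAP_Growth
import Crest.Agent.R17.Local_Log

/-!
# R1 / PAP_Log : bound for `LFunctionResidueClassAux` on `15/16 ≤ Re s ≤ 2` from the zero free half plane
-/

set_option autoImplicit false

noncomputable section

open Complex Metric DirichletCharacter ArithmeticFunction ArithmeticFunction.vonMangoldt

namespace Crest.Agent.R1

/-- the statement of S0022 -/
def PapZF : Prop := ∀ (N : ℕ) [NeZero N] (χ : DirichletCharacter ℂ N) (s : ℂ), (χ ≠ 1 ∨ s ≠ 1) →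
  7 / 8 < s.re → χ.LFunction s ≠ 0

theorem pap_logd : ∃ K : ℝ, 0 ≤ K ∧ ∀ (f : ℂ → ℂ) (Q : ℝ), 1 ≤ Q → Differentiable ℂ f →
    (∀ s : ℂ, 7 / 8 < s.re → f s ≠ 0) → (∀ s : ℂ, 1 / 2 ≤ s.re → ‖f s‖ ≤ 7 * Q * (‖s‖ + 1) ^ 2) →
    (∀ s : ℂ, s.re = 2 → ‖(f s)⁻¹‖ ≤ 2) → ∀ σ τ : ℝ, 15 / 16 ≤ σ → σ ≤ 2 →
    ‖deriv f (σ + τ * I) / f (σ + τ * I)‖ ≤ K * (1 + Real.log Q) * (1 + ‖τ‖) ^ (1 / 2 : ℝ) := by
  obtain ⟨K, hK⟩ := R17.log_lemma (δ := 1 / 16) (ε := 1) (by norm_num) one_pos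
  refine ⟨356 * K, by positivity, fun f Q hQ hd h0 hb hi σ τ h1 h2 => ?_⟩
  have hτ := norm_nonneg τ
  have hball : ∀ z ∈ ball (2 + τ * I : ℂ) (9 / 8), 7 / 8 < z.re ∧ ‖z‖ + 1 ≤ 5 * (1 + ‖τ‖) := by
    intro z hz
    rw [mem_ball, dist_eq_norm] at hz
    have a1 := (abs_le.1 ((abs_re_le_norm _).trans hz.le)).1
    have a1' := (abs_lt.1 ((abs_re_le_norm _).trans_lt hz)).1
    simp only [sub_re, add_re, re_ofNat, mul_re, ofReal_re, I_re, mul_zero, ofReal_im, I_im,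
      mul_one, sub_self, add_zero] at a1'
    have a2 : ‖z‖ ≤ ‖z - (2 + τ * I)‖ + ‖(2 + τ * I : ℂ)‖ := norm_le_norm_sub_add _ _
    have a3 : ‖(2 + τ * I : ℂ)‖ ≤ 2 + ‖τ‖ := by simpa using norm_add_le (2 : ℂ) (τ * I)
    exact ⟨by linarith, by linarith⟩
  have hX : (3 : ℝ) ≤ 175 * Q * (1 + ‖τ‖) ^ 2 := by nlinarith [mul_nonneg (zero_le_one.trans hQ) (sq_nonneg ‖τ‖)]
  have hbd : ∀ z ∈ ball (2 + τ * I : ℂ) (9 / 8), ‖f z‖ ≤ 175 * Q * (1 + ‖τ‖) ^ 2 := fun z hz => by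
    refine (hb z (by linarith [(hball z hz).1])).trans ?_
    calc 7 * Q * (‖z‖ + 1) ^ 2 ≤ 7 * Q * (5 * (1 + ‖τ‖)) ^ 2 := by
          gcongr
          exact (hball z hz).2
      _ = _ := by ring
  have key := (hK f (2 + τ * I) (9 / 8) _ _ (by norm_num) (by norm_num) hd.differentiableOn
    (fun z hz => h0 z (hball z hz).1) (by linarith) hX hbd
    (fun z hz => hbd z (ball_subset_ball (by norm_num) hz))
    ((hi _ (by simp)).trans (by linarith)) (σ + τ * I) (by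
      rw [show (σ : ℂ) + τ * I - (2 + τ * I) = ((σ - 2 : ℝ) : ℂ) by push_cast; ring, norm_real,
        Real.norm_eq_abs, abs_le]
      constructor <;> linarith)).2.2
  refine key.trans ?_
  set w := (1 + ‖τ‖) ^ (1 / 2 : ℝ) with hw
  have hw1 : 1 ≤ w := Real.one_le_rpow (by linarith) (by norm_num)
  have hlQ : 0 ≤ Real.log Q := Real.log_nonneg hQ
  have b1 : Real.log (1 + ‖τ‖) ≤ w / (1 / 2) := Real.log_le_rpow_div (by linarith) (by norm_num)
  have b2 : Real.log 175 ≤ 175 - 1 := Real.log_le_sub_one_of_pos (by norm_num)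
  have b3 : Real.log (175 * Q * (1 + ‖τ‖) ^ 2) ≤ 178 * ((1 + Real.log Q) * w) := by
    rw [Real.log_mul (by positivity) (by positivity), Real.log_mul (by positivity) (by positivity),
      Real.log_pow]
    push_cast
    nlinarith [mul_nonneg hlQ (sub_nonneg.2 hw1)]
  calc (K : ℝ) * (_ + _) ≤ K * (178 * ((1 + Real.log Q) * w) + 178 * ((1 + Real.log Q) * w)) := by
        gcongr
    _ = _ := by ring

theorem pap_inv {q : ℕ} [NeZero q] (χ : DirichletCharacter ℂ q) {s : ℂ} (hs : s.re = 2) :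
    ‖(LFunction χ s)⁻¹‖ ≤ 2 := by
  have h1 : 1 < s.re := by rw [hs]; norm_num
  rw [LFunction_eq_LSeries _ h1, inv_eq_of_mul_eq_one_right (LSeries.mul_mu_eq_one χ h1)]
  refine (tsum_of_norm_bounded hasSum_zeta_two fun n => ?_).trans ?_
  · rw [LSeries.norm_term_eq, hs]
    split_ifs with h
    · positivity
    · rw [Real.rpow_two]
      gcongr
      rw [Pi.mul_apply, norm_mul]
      refine mul_le_one₀ (norm_le_one _ _) (norm_nonneg _) ?_
      rw [norm_intCast]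
      exact_mod_cast abs_moebius_le_one
  · nlinarith [Real.pi_pos, Real.pi_lt_d2]

theorem pap_triv_ne (hZ : PapZF) (q : ℕ) [NeZero q] {s : ℂ} (hs : 7 / 8 < s.re) :
    LFunctionTrivChar₁ q s ≠ 0 := by
  rcases eq_or_ne s 1 with rfl | h
  · exact LFunctionTrivChar₁_apply_one_ne_zero q
  · rw [LFunctionTrivChar₁, Function.update_of_ne h]
    exact mul_ne_zero (sub_ne_zero.2 h) (hZ q 1 s (Or.inr h) hs)

theorem pap_aux_diff (hZ : PapZF) {q : ℕ} [NeZero q] (a : ZMod q) :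
    DifferentiableOn ℂ (LFunctionResidueClassAux a) {s | 7 / 8 < s.re} := by
  rw [show LFunctionResidueClassAux a = fun s ↦ _ from rfl]
  simp only [LFunctionResidueClassAux]
  have h := differentiable_LFunctionTrivChar₁ q
  refine (differentiableOn_const _).mul (DifferentiableOn.sub ?_ ?_)
  · exact (h.deriv.neg.differentiableOn).div h.differentiableOn fun s hs => pap_triv_ne hZ q hs
  · refine DifferentiableOn.fun_sum fun χ hχ => ?_
    replace hχ : χ ≠ 1 := by simpa using hχ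
    have h' := differentiable_LFunction hχ
    exact ((h'.deriv.const_mul _).differentiableOn).div h'.differentiableOn
      fun s hs => hZ q χ s (Or.inl hχ) hs

theorem pap_aux_bd (hZ : PapZF) : ∃ K : ℝ, 0 ≤ K ∧ ∀ (q : ℕ) [NeZero q] (a : ZMod q) (σ τ : ℝ),
    15 / 16 ≤ σ → σ ≤ 2 → ‖LFunctionResidueClassAux a (σ + τ * I)‖ ≤
      K * (1 + Real.log q) * (1 + ‖τ‖) ^ (1 / 2 : ℝ) := by
  obtain ⟨K, hK0, hK⟩ := pap_logd
  refine ⟨2 * K, by positivity, fun q _ a σ τ h1 h2 => ?_⟩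
  have hq1 : (1 : ℝ) ≤ q := by exact_mod_cast (NeZero.one_le : 1 ≤ q)
  have hφ : (1 : ℝ) ≤ q.totient := by exact_mod_cast Nat.totient_pos.2 (NeZero.pos q)
  set B := K * (1 + Real.log q) * (1 + ‖τ‖) ^ (1 / 2 : ℝ) with hB
  have hB0 : 0 ≤ B := by have := Real.log_nonneg hq1; positivity
  have a1 := hK (LFunctionTrivChar₁ q) q hq1 (differentiable_LFunctionTrivChar₁ q)
    (fun s hs => pap_triv_ne hZ q hs) (fun s hs => (pap_growth hs).1) (fun s hs => by
      have hs1 : s ≠ 1 := fun h => by simp [h] at hs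
      rw [LFunctionTrivChar₁, Function.update_of_ne hs1, mul_inv, norm_mul]
      have b1 : 1 ≤ ‖s - 1‖ := le_trans (by simp [hs]; norm_num) (re_le_norm (s - 1))
      have b2 : ‖(s - 1)⁻¹‖ ≤ 1 := by rw [norm_inv]; exact inv_le_one_of_one_le₀ b1
      have b3 := pap_inv (1 : DirichletCharacter ℂ q) hs
      exact (mul_le_mul b2 b3 (norm_nonneg _) zero_le_one).trans (one_mul _).le) σ τ h1 h2
  have a2 : ∀ χ : DirichletCharacter ℂ q, χ ≠ 1 →
      ‖χ a⁻¹ * deriv (LFunction χ) (σ + τ * I) / LFunction χ (σ + τ * I)‖ ≤ B := fun χ hχ => by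
    rw [mul_div_assoc, norm_mul]
    have := hK (LFunction χ) q hq1 (differentiable_LFunction hχ)
      (fun s hs => hZ q χ s (Or.inl hχ) hs) (fun s hs => (pap_growth hs).2 χ hχ)
      (fun s hs => pap_inv χ hs) σ τ h1 h2
    calc _ ≤ 1 * B := mul_le_mul (norm_le_one _ _) this (norm_nonneg _) zero_le_one
      _ = B := one_mul _
  simp only [LFunctionResidueClassAux]
  rw [norm_mul, norm_inv, Complex.norm_natCast, inv_mul_le_iff₀ (by linarith)]
  refine (norm_sub_le _ _).trans ?_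
  rw [neg_div, norm_neg]
  refine (add_le_add a1 ((norm_sum_le _ _).trans (Finset.sum_le_card_nsmul _ _ B fun χ hχ =>
    a2 χ (by simpa using hχ)))).trans ?_
  rw [nsmul_eq_mul]
  have a3 : ∀ S : Finset (DirichletCharacter ℂ q), (S.card : ℝ) ≤ q.totient := fun S => by
    rw [← card_eq_totient_of_hasEnoughRootsOfUnity ℂ q]
    rw [Nat.card_eq_fintype_card]
    exact_mod_cast S.card_le_univ
  rw [show 2 * K * (1 + Real.log q) * (1 + ‖τ‖) ^ (1 / 2 : ℝ) = 2 * B by rw [hB]; ring]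
  refine (add_le_add le_rfl (mul_le_mul_of_nonneg_right (a3 _) hB0)).trans ?_
  nlinarith [mul_le_mul_of_nonneg_right hφ hB0]

end Crest.Agent.R1
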