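import Mathlib

/-!
# R1 / PAP_Perron : Riesz means by Mellin inversion and a contour shift
-/

set_option autoImplicit false

noncomputable section

open MeasureTheory Filter Topology Complex

namespace Crest.Agent.R1

theorem pap_shift {F : ℂ → ℂ} {a b : ℝ} (hab : a ≤ b)
    (hF : DifferentiableOn ℂ F {s | a ≤ s.re ∧ s.re ≤ b})
    {g : ℝ → ℝ} (hg : Integrable g) (hg0 : Tendsto g (cocompact ℝ) (𝓝 0))
    (hb : ∀ σ τ : ℝ, a ≤ σ → σ ≤ b → ‖F (σ + τ * I)‖ ≤ g τ) :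
    (Integrable fun τ : ℝ => F (b + τ * I)) ∧
    ∫ τ : ℝ, F (a + τ * I) = ∫ τ : ℝ, F (b + τ * I) := by
  have hi : ∀ σ : ℝ, a ≤ σ → σ ≤ b → Integrable fun τ : ℝ => F (σ + τ * I) := fun σ h1 h2 =>
    hg.mono' (hF.continuousOn.comp_continuous (by fun_prop)
      fun τ => by simp [h1, h2]).aestronglyMeasurable (Eventually.of_forall fun τ => hb σ τ h1 h2)
  have ia := hi a le_rfl hab
  have ib := hi b hab le_rfl
  refine ⟨ib, ?_⟩
  have hz : Tendsto (fun τ : ℝ => ∫ x in a..b, F (x + τ * I)) (cocompact ℝ) (𝓝 0) := by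
    refine squeeze_zero_norm' (a := fun τ => g τ * |b - a|) (Eventually.of_forall fun τ => ?_)
      (by simpa using hg0.mul_const |b - a|)
    refine intervalIntegral.norm_integral_le_of_norm_le_const fun x hx => ?_
    rw [Set.uIoc_of_le hab] at hx
    exact hb x τ hx.1.le hx.2
  have h1 : Tendsto (fun T : ℝ => T) atTop (cocompact ℝ) := atTop_le_cocompact
  have h2 : Tendsto (fun T : ℝ => -T) atTop (cocompact ℝ) :=
    tendsto_neg_atTop_atBot.mono_right atBot_le_cocompact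
  have h3 := (((hz.comp h2).sub (hz.comp h1)).add
    ((intervalIntegral_tendsto_integral ib tendsto_neg_atTop_atBot tendsto_id).const_smul I)).sub
    ((intervalIntegral_tendsto_integral ia tendsto_neg_atTop_atBot tendsto_id).const_smul I)
  have h4 := tendsto_nhds_unique h3 (tendsto_const_nhds (x := 0) |>.congr fun T => by
    have := Complex.integral_boundary_rect_eq_zero_of_differentiableOn F ⟨a, -T⟩ ⟨b, T⟩
      (hF.mono fun s hs => by
        have h := hs.1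
        simp only [Set.uIcc_of_le hab, Set.mem_preimage] at h
        exact h)
    exact this.symm)
  rw [sub_zero, zero_add, ← smul_sub, smul_eq_zero, sub_eq_zero] at h4
  exact (h4.resolve_left Complex.I_ne_zero).symm

/-- the majorant -/
def papG (τ : ℝ) : ℝ := (1 + ‖τ‖) ^ (-(3 / 2 : ℝ))

theorem papG_int : Integrable papG := integrable_one_add_norm (by simp; norm_num)

theorem papG_nonneg (τ : ℝ) : 0 ≤ papG τ := Real.rpow_nonneg (by positivity) _

theorem papG_lim : Tendsto papG (cocompact ℝ) (𝓝 0) :=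
  (tendsto_rpow_neg_atTop (by norm_num)).comp
    (tendsto_atTop_add_const_left _ 1 tendsto_norm_cocompact_atTop)

/-- the kernel -/
def papK (s : ℂ) : ℂ := 1 / (s * (s + 1))

theorem papK_le {σ : ℝ} (hσ : 1 / 2 ≤ σ) (τ : ℝ) :
    (1 + ‖τ‖) ^ (1 / 2 : ℝ) * ‖papK (σ + τ * I)‖ ≤ 9 * papG τ := by
  have hτ := norm_nonneg τ
  have h1 : ∀ σ : ℝ, 1 / 2 ≤ σ → (1 + ‖τ‖) / 3 ≤ ‖(σ : ℂ) + τ * I‖ := fun σ hσ => by
    have a1 := re_le_norm ((σ : ℂ) + τ * I)
    have a2 := abs_im_le_norm ((σ : ℂ) + τ * I)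
    simp only [add_re, ofReal_re, mul_re, I_re, mul_zero, ofReal_im, I_im, mul_one, sub_self,
      add_zero, add_im, mul_im, zero_add] at a1 a2
    rw [Real.norm_eq_abs]
    linarith
  have h2 := h1 (σ + 1) (by linarith)
  rw [show ((σ + 1 : ℝ) : ℂ) + τ * I = σ + τ * I + 1 by push_cast; ring] at h2
  have h3 : ‖papK (σ + τ * I)‖ ≤ 9 * (1 + ‖τ‖) ^ (-2 : ℝ) := by
    rw [papK, norm_div, norm_one, norm_mul, Real.rpow_neg (by linarith), Real.rpow_two]
    calc _ ≤ 1 / ((1 + ‖τ‖) / 3 * ((1 + ‖τ‖) / 3)) := by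
          gcongr
          exact h1 σ hσ
      _ = _ := by field_simp; norm_num
  calc _ ≤ (1 + ‖τ‖) ^ (1 / 2 : ℝ) * (9 * (1 + ‖τ‖) ^ (-2 : ℝ)) := by gcongr
    _ = _ := by
      rw [mul_left_comm, ← Real.rpow_add (by linarith), papG]
      norm_num

theorem papK_le' {σ : ℝ} (hσ : 1 / 2 ≤ σ) (τ : ℝ) : ‖papK (σ + τ * I)‖ ≤ 9 * papG τ :=
  (le_mul_of_one_le_left (norm_nonneg _)
    (Real.one_le_rpow (by linarith [norm_nonneg τ]) (by norm_num))).trans (papK_le hσ τ)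

theorem papK_diff : DifferentiableOn ℂ papK {s | 0 < s.re} := by
  refine (differentiableOn_const _).div (by fun_prop) fun s hs => mul_ne_zero ?_ ?_
  · exact ne_zero_of_re_pos hs
  · exact ne_zero_of_re_pos (by have : 0 < s.re := hs; simp; linarith)

theorem papK_int : Integrable fun τ : ℝ => papK ((2 : ℝ) + τ * I) :=
  (papG_int.const_mul 9).mono' (papK_diff.continuousOn.comp_continuous (by fun_prop)
    fun τ => by simp).aestronglyMeasurable (Eventually.of_forall (papK_le' (by norm_num)))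

theorem papK_int' : Integrable fun τ : ℝ => papK ((2 : ℝ) + τ * I) / ((2 : ℝ) + τ * I - 1) := by
  have h : ∀ τ : ℝ, 1 ≤ ‖((2 : ℝ) + τ * I - 1 : ℂ)‖ := fun τ =>
    le_trans (by simp; norm_num) (re_le_norm _)
  simp_rw [div_eq_inv_mul]
  refine papK_int.bdd_mul (c := 1) (Continuous.aestronglyMeasurable ?_)
    (Eventually.of_forall fun τ => ?_)
  · exact Continuous.inv₀ (by fun_prop) fun τ => norm_pos_iff.1 (one_pos.trans_le (h τ))
  · rw [norm_inv]
    exact inv_le_one_of_one_le₀ (h τ)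

theorem pap_norm_pow {x : ℝ} (hx : 0 < x) (σ τ : ℝ) : ‖(x : ℂ) ^ (-((σ : ℂ) + τ * I))‖ = x ^ (-σ) := by
  rw [norm_cpow_eq_rpow_re_of_pos hx]
  simp

theorem pap_int_pow {x : ℝ} (hx : 0 < x) (σ : ℝ) {K : ℝ → ℂ} (hK : Integrable K) :
    Integrable fun τ : ℝ => (x : ℂ) ^ (-((σ : ℂ) + τ * I)) * K τ :=
  hK.bdd_mul (c := x ^ (-σ)) (Continuous.aestronglyMeasurable
    (Continuous.const_cpow (by fun_prop) (Or.inl (ofReal_ne_zero.2 hx.ne'))))
    (Eventually.of_forall fun τ => (pap_norm_pow hx σ τ).le)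

theorem pap_mellin {f : ℝ → ℂ} {K : ℂ → ℂ} (α β γ : ℂ)
    (h0 : ∀ u : ℝ, 1 < u → f u = 0) (h1 : ∀ u : ℝ, 0 < u → u ≤ 1 → f u = α / u + β + γ * u)
    (hK : ∀ s : ℂ, s.re = 2 → K s = α / (s - 1) + β / s + γ / (s + 1))
    (hi : Integrable fun τ : ℝ => K ((2 : ℝ) + τ * I)) {x : ℝ} (hx : 0 < x)
    (hc : ContinuousAt f x) :
    ∫ τ : ℝ, (x : ℂ) ^ (-(((2 : ℝ) : ℂ) + τ * I)) * K ((2 : ℝ) + τ * I) = 2 * Real.pi * f x := by
  have hm : ∀ s : ℂ, s.re = 2 → HasMellin f s (K s) := fun s hs => by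
    have a1 := hasMellin_cpow_Ioc (-1) (s := s) (by simp [hs])
    have a2 := hasMellin_one_Ioc (s := s) (by simp [hs])
    have a3 := hasMellin_cpow_Ioc 1 (s := s) (by simp [hs]; norm_num)
    have b1 := hasMellin_const_smul a1.1 α
    have b2 := hasMellin_const_smul a2.1 β
    have b3 := hasMellin_const_smul a3.1 γ
    have c1 := hasMellin_add b1.1 b2.1
    have c2 := hasMellin_add c1.1 b3.1
    rw [c1.2, b1.2, b2.2, b3.2, a1.2, a2.2, a3.2] at c2
    have e : Set.EqOn (fun t : ℝ => (t : ℂ) ^ (s - 1) •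
        (α • Set.indicator (Set.Ioc 0 1) (fun t : ℝ => (t : ℂ) ^ (-1 : ℂ)) t +
          β • Set.indicator (Set.Ioc 0 1) (fun _ : ℝ => (1 : ℂ)) t +
          γ • Set.indicator (Set.Ioc 0 1) (fun t : ℝ => (t : ℂ) ^ (1 : ℂ)) t))
        (fun t : ℝ => (t : ℂ) ^ (s - 1) • f t) (Set.Ioi 0) := fun t ht => by
      simp only
      congr 1
      rcases le_or_gt t 1 with h | h
      · have hm : t ∈ Set.Ioc (0 : ℝ) 1 := ⟨ht, h⟩
        simp only [Set.indicator_of_mem hm, h1 t ht h, cpow_neg_one, cpow_one, smul_eq_mul,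
          mul_one, div_eq_mul_inv]
      · have hm : t ∉ Set.Ioc (0 : ℝ) 1 := fun hm => absurd hm.2 (not_le.2 h)
        simp only [Set.indicator_of_notMem hm, h0 t h, smul_zero, add_zero]
    refine ⟨c2.1.congr_fun e measurableSet_Ioi, ?_⟩
    rw [mellin, ← setIntegral_congr_fun measurableSet_Ioi e, hK s hs]
    refine c2.2.trans ?_
    simp only [smul_eq_mul, mul_one_div, sub_eq_add_neg]
  have hre : ∀ τ : ℝ, (((2 : ℝ) : ℂ) + τ * I).re = 2 := fun τ => by simp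
  have key := mellinInv_mellin_eq 2 f hx (hm _ (by simp)).1
    (hi.congr (Eventually.of_forall fun τ => (hm _ (hre τ)).2.symm)) hc
  rw [mellinInv] at key
  simp only [(hm _ (hre _)).2, smul_eq_mul] at key
  rw [← key, real_smul, ← mul_assoc]
  have : (Real.pi : ℂ) ≠ 0 := ofReal_ne_zero.2 Real.pi_ne_zero
  have e : (2 * Real.pi * ((1 / (2 * Real.pi) : ℝ) : ℂ)) = 1 := by
    push_cast
    field_simp
  rw [e, one_mul]

theorem pap_mellin1 {x : ℝ} (hx : 0 < x) :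
    ∫ τ : ℝ, (x : ℂ) ^ (-(((2 : ℝ) : ℂ) + τ * I)) * papK ((2 : ℝ) + τ * I) =
      2 * Real.pi * ((max (1 - x) 0 : ℝ) : ℂ) := by
  refine pap_mellin (f := fun x => ((max (1 - x) 0 : ℝ) : ℂ)) 0 1 (-1) (fun u hu => ?_)
    (fun u _ hu => ?_) (fun s hs => ?_) papK_int hx (Continuous.continuousAt (by fun_prop))
  · simp only [max_eq_right (show 1 - u ≤ 0 by linarith), ofReal_zero]
  · simp only [max_eq_left (show 0 ≤ 1 - u by linarith)]
    push_cast
    ring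
  · have a1 : s ≠ 0 := ne_zero_of_re_pos (by simp [hs])
    have a2 : s + 1 ≠ 0 := ne_zero_of_re_pos (by simp [hs]; norm_num)
    rw [papK]
    field_simp
    ring

theorem pap_mellin2 {x : ℝ} (hx : 0 < x) :
    ∫ τ : ℝ, (x : ℂ) ^ (-(((2 : ℝ) : ℂ) + τ * I)) *
        (papK ((2 : ℝ) + τ * I) / ((2 : ℝ) + τ * I - 1)) =
      2 * Real.pi * (((max (1 - x) 0) ^ 2 / (2 * x) : ℝ) : ℂ) := by
  refine pap_mellin (f := fun x => (((max (1 - x) 0) ^ 2 / (2 * x) : ℝ) : ℂ))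
    (K := fun s => papK s / (s - 1)) (1 / 2) (-1) (1 / 2) (fun u hu => ?_)
    (fun u hu0 hu => ?_) (fun s hs => ?_) papK_int' hx ?_
  · simp [max_eq_right (show 1 - u ≤ 0 by linarith)]
  · have : (u : ℂ) ≠ 0 := ofReal_ne_zero.2 hu0.ne'
    simp only [max_eq_left (show 0 ≤ 1 - u by linarith)]
    push_cast
    field_simp
    ring
  · have a1 : s ≠ 0 := ne_zero_of_re_pos (by simp [hs])
    have a2 : s + 1 ≠ 0 := ne_zero_of_re_pos (by simp [hs]; norm_num)
    have a3 : s - 1 ≠ 0 := ne_zero_of_re_pos (by simp [hs])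
    simp only [papK]
    field_simp
    ring
  · refine continuous_ofReal.continuousAt.comp (f := fun x : ℝ => (max (1 - x) 0) ^ 2 / (2 * x)) ?_
    exact ContinuousAt.div (Continuous.continuousAt (by fun_prop)) (by fun_prop) (by positivity)

theorem pap_sum {a : ℕ → ℂ} (ha : LSeriesSummable a (2 : ℝ)) {x : ℝ} (hx : 0 < x) :
    HasSum (fun n : ℕ => if n = 0 then 0 else a n * (2 * Real.pi * ((max (1 - n * x) 0 : ℝ) : ℂ)))
      (∫ τ : ℝ, LSeries a ((2 : ℝ) + τ * I) *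
        ((x : ℂ) ^ (-(((2 : ℝ) : ℂ) + τ * I)) * papK ((2 : ℝ) + τ * I))) := by
  have e : ∀ n : ℕ, n ≠ 0 → ∀ τ : ℝ, LSeries.term a ((2 : ℝ) + τ * I) n *
      ((x : ℂ) ^ (-(((2 : ℝ) : ℂ) + τ * I)) * papK ((2 : ℝ) + τ * I)) =
      a n * (((n * x : ℝ) : ℂ) ^ (-(((2 : ℝ) : ℂ) + τ * I)) * papK ((2 : ℝ) + τ * I)) := by
    intro n hn τ
    rw [LSeries.term_of_ne_zero hn, ofReal_mul,
      mul_cpow_ofReal_nonneg (Nat.cast_nonneg n) hx.le, ofReal_natCast, cpow_neg (n : ℂ)]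
    ring
  have hpos : ∀ n : ℕ, n ≠ 0 → 0 < (n : ℝ) * x := fun n hn =>
    mul_pos (Nat.cast_pos.2 (Nat.pos_of_ne_zero hn)) hx
  have key := hasSum_integral_of_summable_integral_norm (μ := volume)
    (F := fun (n : ℕ) (τ : ℝ) => LSeries.term a ((2 : ℝ) + τ * I) n *
      ((x : ℂ) ^ (-(((2 : ℝ) : ℂ) + τ * I)) * papK ((2 : ℝ) + τ * I))) (fun n => ?_) ?_
  · simp only [tsum_mul_right] at key
    refine (congrArg (fun f => HasSum f _) (funext fun n => ?_)).mp key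
    split_ifs with hn
    · simp [hn]
    · simp only [e n hn, integral_const_mul, pap_mellin1 (hpos n hn)]
  · rcases eq_or_ne n 0 with rfl | hn
    · simp
    · simp only [e n hn]
      exact (pap_int_pow (hpos n hn) 2 papK_int).const_mul _
  · have e2 : ∀ (n : ℕ) (τ : ℝ), ‖LSeries.term a ((2 : ℝ) + τ * I) n‖ = ‖LSeries.term a (2 : ℝ) n‖ :=
      fun n τ => by simp [LSeries.norm_term_eq]
    simp only [norm_mul (LSeries.term _ _ _), e2, integral_const_mul]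
    exact ha.norm.mul_right _

/-- Riesz mean with a power saving -/
theorem pap_perron : ∃ C : ℝ, 0 ≤ C ∧ ∀ (a : ℕ → ℂ) (H : ℂ → ℂ) (ρ : ℂ) (A : ℝ), 0 ≤ A →
    LSeriesSummable a (2 : ℝ) → DifferentiableOn ℂ H {s | 7 / 8 < s.re} →
    (∀ σ τ : ℝ, 15 / 16 ≤ σ → σ ≤ 2 → ‖H (σ + τ * I)‖ ≤ A * (1 + ‖τ‖) ^ (1 / 2 : ℝ)) →
    (∀ s : ℂ, s.re = 2 → H s = LSeries a s - ρ / (s - 1)) → ∀ y : ℝ, 0 < y →
    ‖∑ n ∈ Finset.Icc 1 ⌊y⌋₊, a n * (y - n) - ρ * (((max (y - 1) 0) ^ 2 / 2 : ℝ) : ℂ)‖ ≤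
      C * A * y ^ (31 / 16 : ℝ) := by
  refine ⟨9 * ∫ τ, papG τ, mul_nonneg (by norm_num) (integral_nonneg papG_nonneg),
    fun a H ρ A hA ha hd hb he y hy => ?_⟩
  have hx : 0 < y⁻¹ := inv_pos.2 hy
  set x := y⁻¹ with hxy
  have hx0 : (x : ℂ) ≠ 0 := ofReal_ne_zero.2 hx.ne'
  have hF : ∀ σ τ : ℝ, 15 / 16 ≤ σ → σ ≤ 2 →
      ‖H (σ + τ * I) * ((x : ℂ) ^ (-((σ : ℂ) + τ * I)) * papK (σ + τ * I))‖ ≤
        9 * A * y ^ σ * papG τ := fun σ τ h1 h2 => by
    rw [norm_mul, norm_mul, pap_norm_pow hx, hxy, Real.inv_rpow hy.le, Real.rpow_neg hy.le, inv_inv]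
    have := Real.rpow_nonneg hy.le σ
    calc _ ≤ A * (1 + ‖τ‖) ^ (1 / 2 : ℝ) * (y ^ σ * ‖papK (σ + τ * I)‖) := by
          gcongr
          exact hb σ τ h1 h2
      _ = A * y ^ σ * ((1 + ‖τ‖) ^ (1 / 2 : ℝ) * ‖papK (σ + τ * I)‖) := by ring
      _ ≤ A * y ^ σ * (9 * papG τ) := by
          exact mul_le_mul_of_nonneg_left (papK_le (σ := σ) (by linarith) τ) (by positivity)
      _ = _ := by ring
  obtain ⟨iF, sh⟩ := pap_shift (F := fun s => H s * ((x : ℂ) ^ (-s) * papK s)) (a := 15 / 16) (b := 2)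
    (by norm_num) ((hd.mono fun s hs => by have := hs.1; change 7 / 8 < s.re; linarith).mul
      (DifferentiableOn.mul (Differentiable.differentiableOn
        (differentiable_id.neg.const_cpow (Or.inl hx0)))
        (papK_diff.mono fun s hs => by have := hs.1; change 0 < s.re; linarith)))
    (g := fun τ => 9 * A * (y ^ (15 / 16 : ℝ) + y ^ (2 : ℝ)) * papG τ) (papG_int.const_mul _)
    (by simpa using papG_lim.const_mul (9 * A * (y ^ (15 / 16 : ℝ) + y ^ (2 : ℝ))))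
    (fun σ τ h1 h2 => (hF σ τ h1 h2).trans (by
      have := papG_nonneg τ
      gcongr
      rcases le_total y 1 with h | h
      · exact (Real.rpow_le_rpow_of_exponent_ge hy h h1).trans
          (le_add_of_nonneg_right (by positivity))
      · exact (Real.rpow_le_rpow_of_exponent_le h h2).trans
          (le_add_of_nonneg_left (by positivity))))
  have b1 : ‖∫ τ : ℝ, H ((15 / 16 : ℝ) + τ * I) *
      ((x : ℂ) ^ (-(((15 / 16 : ℝ) : ℂ) + τ * I)) * papK ((15 / 16 : ℝ) + τ * I))‖ ≤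
      9 * A * y ^ (15 / 16 : ℝ) * ∫ τ, papG τ := by
    rw [← integral_const_mul]
    exact norm_integral_le_of_norm_le (papG_int.const_mul _)
      (Eventually.of_forall fun τ => hF _ τ le_rfl (by norm_num))
  have i2 := (pap_int_pow hx 2 papK_int').const_mul ρ
  have b2 : ∫ τ : ℝ, LSeries a ((2 : ℝ) + τ * I) *
      ((x : ℂ) ^ (-(((2 : ℝ) : ℂ) + τ * I)) * papK ((2 : ℝ) + τ * I)) =
      (∫ τ : ℝ, H ((2 : ℝ) + τ * I) *
        ((x : ℂ) ^ (-(((2 : ℝ) : ℂ) + τ * I)) * papK ((2 : ℝ) + τ * I))) +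
      ρ * (2 * Real.pi * (((max (1 - x) 0) ^ 2 / (2 * x) : ℝ) : ℂ)) := by
    rw [← pap_mellin2 hx, ← integral_const_mul, ← integral_add iF i2]
    refine integral_congr_ae (Eventually.of_forall fun τ => ?_)
    simp only [he _ (show (((2 : ℝ) : ℂ) + τ * I).re = 2 by simp)]
    ring
  have b3 := (pap_sum ha hx).unique (hasSum_sum_of_ne_finset_zero (s := Finset.Icc 1 ⌊y⌋₊)
    fun n hn => by
      split_ifs with h
      · rfl
      · have h1 : ⌊y⌋₊ < n := by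
          rw [Finset.mem_Icc] at hn
          omega
        have h2 : y < n := (Nat.floor_lt hy.le).1 h1
        have h3 : 1 - n * x ≤ 0 := by
          rw [hxy, sub_nonpos, ← div_eq_mul_inv, one_le_div hy]
          exact h2.le
        simp [max_eq_right h3])
  have hy0 : (y : ℂ) ≠ 0 := ofReal_ne_zero.2 hy.ne'
  have b4 : (∑ n ∈ Finset.Icc 1 ⌊y⌋₊, if n = 0 then 0 else
      a n * (2 * Real.pi * ((max (1 - n * x) 0 : ℝ) : ℂ))) * y =
      2 * Real.pi * ∑ n ∈ Finset.Icc 1 ⌊y⌋₊, a n * (y - n) := by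
    rw [Finset.sum_mul, Finset.mul_sum]
    refine Finset.sum_congr rfl fun n hn => ?_
    rw [Finset.mem_Icc] at hn
    have h2 : (n : ℝ) ≤ y := (Nat.le_floor_iff hy.le).1 hn.2
    have h3 : 0 ≤ 1 - n * x := by
      rw [hxy, sub_nonneg, ← div_eq_mul_inv, div_le_one hy]
      exact h2
    rw [if_neg (by omega), max_eq_left h3, hxy]
    push_cast
    field_simp
  have b5 : (max (1 - x) 0) ^ 2 / (2 * x) * y = (max (y - 1) 0) ^ 2 / 2 := by
    have : max (y - 1) 0 = max (1 - x) 0 * y := by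
      rw [max_mul_of_nonneg _ _ hy.le, zero_mul, sub_mul, one_mul, hxy, inv_mul_cancel₀ hy.ne']
    rw [this, hxy]
    field_simp
  have b6 : 2 * Real.pi * (∑ n ∈ Finset.Icc 1 ⌊y⌋₊, a n * (y - n) -
      ρ * (((max (y - 1) 0) ^ 2 / 2 : ℝ) : ℂ)) = (∫ τ : ℝ, H ((15 / 16 : ℝ) + τ * I) *
      ((x : ℂ) ^ (-(((15 / 16 : ℝ) : ℂ) + τ * I)) * papK ((15 / 16 : ℝ) + τ * I))) * y := by
    rw [mul_sub, ← b4, ← b3, b2, sh, ← b5, ofReal_mul]
    ring
  have b7 := congrArg norm b6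
  rw [norm_mul, norm_mul _ (y : ℂ), norm_real, Real.norm_of_nonneg hy.le] at b7
  have b8 : (1 : ℝ) ≤ ‖(2 * Real.pi : ℂ)‖ := by
    rw [norm_mul, norm_real, Real.norm_of_nonneg Real.pi_pos.le, Complex.norm_two]
    linarith [Real.pi_gt_three]
  refine (le_mul_of_one_le_left (norm_nonneg _) b8).trans (b7.trans_le ?_)
  rw [show (31 / 16 : ℝ) = 15 / 16 + 1 by norm_num, Real.rpow_add hy, Real.rpow_one]
  calc _ ≤ (9 * A * y ^ (15 / 16 : ℝ) * ∫ τ, papG τ) * y := by gcongr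
    _ = _ := by ring

end Crest.Agent.R1
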