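import Crest.Agent.R1.Defs
import Crest.Agent.R1.PAP_Log
import Crest.Agent.R1.PAP_Perron

/-!
# R1 / PAP_Main : primes in progressions from the zero free half plane
-/

set_option autoImplicit false

noncomputable section

open Finset ArithmeticFunction ArithmeticFunction.vonMangoldt

namespace Crest.Agent.R1

theorem pap_riesz (hZ : PapZF) : ∃ C : ℝ, 0 ≤ C ∧ ∀ (q : ℕ) [NeZero q] (a : ZMod q), IsUnit a →
    ∀ y : ℝ, 0 < y → |∑ n ∈ Icc 1 ⌊y⌋₊, residueClass a n * (y - n) - y ^ 2 / (2 * q.totient)| ≤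
      C * (1 + Real.log q) * y ^ (31 / 16 : ℝ) + y := by
  obtain ⟨C, hC0, hC⟩ := pap_perron
  obtain ⟨K, hK0, hK⟩ := pap_aux_bd hZ
  refine ⟨C * K, by positivity, fun q _ a ha y hy => ?_⟩
  have hq1 : (1 : ℝ) ≤ q := by exact_mod_cast (NeZero.one_le : 1 ≤ q)
  have hφ : (1 : ℝ) ≤ q.totient := by exact_mod_cast Nat.totient_pos.2 (NeZero.pos q)
  have hl := Real.log_nonneg hq1
  have key := hC (fun n => (residueClass a n : ℝ)) (LFunctionResidueClassAux a) ((q.totient : ℂ)⁻¹)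
    (K * (1 + Real.log q)) (by positivity)
    (LSeriesSummable_of_abscissaOfAbsConv_lt_re ((abscissaOfAbsConv_residueClass_le_one a).trans_lt
      (by norm_cast)))
    (pap_aux_diff hZ a) (hK q a)
    (fun s hs => eqOn_LFunctionResidueClassAux ha (show 1 < s.re by rw [hs]; norm_num)) y hy
  have e : (∑ n ∈ Icc 1 ⌊y⌋₊, ((residueClass a n : ℝ) : ℂ) * (y - n) -
      (q.totient : ℂ)⁻¹ * (((max (y - 1) 0) ^ 2 / 2 : ℝ) : ℂ)) =
      ((∑ n ∈ Icc 1 ⌊y⌋₊, residueClass a n * (y - n) -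
        (q.totient : ℝ)⁻¹ * ((max (y - 1) 0) ^ 2 / 2) : ℝ) : ℂ) := by
    push_cast
    rfl
  rw [e, Complex.norm_real, Real.norm_eq_abs] at key
  have h2 : |(q.totient : ℝ)⁻¹ * ((max (y - 1) 0) ^ 2 / 2) - y ^ 2 / (2 * q.totient)| ≤ y := by
    rw [show (q.totient : ℝ)⁻¹ * ((max (y - 1) 0) ^ 2 / 2) - y ^ 2 / (2 * q.totient) =
      (q.totient : ℝ)⁻¹ * (((max (y - 1) 0) ^ 2 - y ^ 2) / 2) by field_simp, abs_mul,
      abs_of_nonneg (by positivity)]
    refine (mul_le_of_le_one_left (abs_nonneg _) (inv_le_one_of_one_le₀ hφ)).trans ?_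
    rw [abs_le]
    rcases le_total y 1 with h | h
    · rw [max_eq_right (by linarith)]
      constructor <;> nlinarith
    · rw [max_eq_left (by linarith)]
      constructor <;> nlinarith
  refine (abs_sub_le _ _ _).trans (add_le_add (key.trans (le_of_eq ?_)) h2)
  ring

theorem pap_diff {r : ℕ → ℝ} (hr : ∀ n, 0 ≤ r n) {y h : ℝ} (hh : 0 ≤ h) (hy : h ≤ y) :
    ∑ n ∈ Icc 1 ⌊y⌋₊, r n * (y - n) + h * ∑ n ∈ Icc 1 ⌊y⌋₊, r n ≤
      ∑ n ∈ Icc 1 ⌊y + h⌋₊, r n * (y + h - n) ∧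
    ∑ n ∈ Icc 1 ⌊y⌋₊, r n * (y - n) - h * ∑ n ∈ Icc 1 ⌊y⌋₊, r n ≤
      ∑ n ∈ Icc 1 ⌊y - h⌋₊, r n * (y - h - n) := by
  rw [mul_sum, ← sum_add_distrib, ← sum_sub_distrib]
  constructor
  · refine (sum_congr rfl fun n _ => by ring).trans_le (sum_le_sum_of_subset_of_nonneg
      (Icc_subset_Icc_right (Nat.floor_mono (by linarith))) fun n hn _ => mul_nonneg (hr n) ?_)
    exact sub_nonneg.2 ((Nat.le_floor_iff (by linarith)).1 (mem_Icc.1 hn).2)
  · refine (sum_congr rfl fun n _ => by ring).trans_le (sum_le_sum_of_subset_of_nonpos'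
      (Icc_subset_Icc_right (Nat.floor_mono (by linarith))) fun n hn hn' =>
        mul_nonpos_of_nonneg_of_nonpos (hr n) ?_)
    rw [mem_Icc] at hn hn'
    exact sub_nonpos.2 ((Nat.floor_lt (by linarith)).1 (by omega)).le

theorem pap_psi (hZ : PapZF) : ∃ C : ℝ, 0 ≤ C ∧ ∀ (q : ℕ) [NeZero q] (a : ZMod q), IsUnit a →
    ∀ y : ℝ, (q : ℝ) ≤ y → |∑ n ∈ Icc 1 ⌊y⌋₊, residueClass a n - y / q.totient| ≤
      C * y ^ (1 - 1 / 64 : ℝ) := by
  obtain ⟨C, hC0, hC⟩ := pap_riesz hZ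
  refine ⟨1 + 4 * (C * 65 * 4 + 2), by positivity, fun q _ a ha y hy => ?_⟩
  have hq1 : (1 : ℝ) ≤ q := by exact_mod_cast (NeZero.one_le : 1 ≤ q)
  have hφ : (1 : ℝ) ≤ q.totient := by exact_mod_cast Nat.totient_pos.2 (NeZero.pos q)
  have hy1 : 1 ≤ y := hq1.trans hy
  have hy0 : 0 < y := by linarith
  set u := y ^ (1 / 64 : ℝ) with hu
  have hu1 : 1 ≤ u := Real.one_le_rpow hy1 (by norm_num)
  have hpow : ∀ k : ℕ, y ^ (k / 64 : ℝ) = u ^ k := fun k => by
    rw [hu, ← Real.rpow_natCast, ← Real.rpow_mul hy0.le]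
    congr 1
    ring
  have e64 : y = u ^ 64 := by rw [← hpow]; norm_num
  have e63 : y ^ (1 - 1 / 64 : ℝ) = u ^ 63 := by rw [← hpow]; norm_num
  have e124 : y ^ (31 / 16 : ℝ) = u ^ 124 := by rw [← hpow]; norm_num
  have hlog : 1 + Real.log q ≤ 65 * u := by
    have := (Real.log_le_log (by linarith) hy).trans
      (Real.log_le_rpow_div hy0.le (show (0 : ℝ) < 1 / 64 by norm_num))
    linarith
  have hl := Real.log_nonneg hq1
  set E := (C * 65 * 4 + 2) * u ^ 125 with hE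
  have hP : ∀ z : ℝ, 0 < z → z ≤ 2 * y →
      |∑ n ∈ Icc 1 ⌊z⌋₊, residueClass a n * (z - n) - z ^ 2 / (2 * q.totient)| ≤ E := by
    intro z hz hz2
    refine (hC q a ha z hz).trans ?_
    have a1 : z ^ (31 / 16 : ℝ) ≤ 4 * u ^ 124 := by
      refine (Real.rpow_le_rpow hz.le hz2 (by norm_num)).trans ?_
      rw [Real.mul_rpow (by norm_num) hy0.le, e124]
      gcongr
      calc (2 : ℝ) ^ (31 / 16 : ℝ) ≤ 2 ^ (2 : ℝ) :=
            Real.rpow_le_rpow_of_exponent_le (by norm_num) (by norm_num)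
        _ = 4 := by norm_num
    have a2 : z ≤ 2 * u ^ 125 := hz2.trans (by
      rw [e64]
      exact mul_le_mul_of_nonneg_left (pow_le_pow_right₀ hu1 (by norm_num)) (by norm_num))
    calc _ ≤ C * (65 * u) * (4 * u ^ 124) + 2 * u ^ 125 := by gcongr
      _ = E := by rw [hE]; ring
  set h := u ^ 62 / 2 with hh
  have hh0 : 0 < h := by positivity
  have hhy : h ≤ y / 2 := by
    rw [hh, e64]
    exact div_le_div_of_nonneg_right (pow_le_pow_right₀ hu1 (by norm_num)) (by norm_num)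
  obtain ⟨d1, d2⟩ := pap_diff (residueClass_nonneg a) hh0.le (show h ≤ y by linarith)
  have p0 := abs_le.1 (hP y hy0 (by linarith))
  have p1 := abs_le.1 (hP (y + h) (by linarith) (by linarith))
  have p2 := abs_le.1 (hP (y - h) (by linarith) (by linarith))
  have c1 : (y + h) ^ 2 / (2 * q.totient) =
      y ^ 2 / (2 * q.totient) + h * (y / q.totient) + h ^ 2 / (2 * q.totient) := by
    field_simp
    ring
  have c2 : (y - h) ^ 2 / (2 * q.totient) =
      y ^ 2 / (2 * q.totient) - h * (y / q.totient) + h ^ 2 / (2 * q.totient) := by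
    field_simp
    ring
  have c3 : h ^ 2 / (2 * q.totient) ≤ h * u ^ 63 := by
    rw [div_le_iff₀ (by positivity), sq, mul_assoc]
    refine mul_le_mul_of_nonneg_left ?_ hh0.le
    have : u ^ 62 ≤ u ^ 63 := pow_le_pow_right₀ hu1 (by norm_num)
    have h63 : 0 < u ^ 63 := by positivity
    nlinarith
  have c4 : 2 * E = h * (4 * (C * 65 * 4 + 2) * u ^ 63) := by rw [hE, hh]; ring
  rw [e63, ← mul_le_mul_iff_right₀ hh0, ← abs_of_pos hh0, ← abs_mul, abs_of_pos hh0, abs_le,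
    mul_sub, add_mul, mul_add, one_mul, ← c4]
  constructor <;> linarith [p0.1, p0.2, p1.1, p1.2, p2.1, p2.2]

theorem pap_theta {q : ℕ} (a : ℕ) (x : ℝ) :
    0 ≤ ∑ n ∈ Icc 1 ⌊x⌋₊, residueClass (a : ZMod q) n -
      ∑ p ∈ (Icc 1 ⌊x⌋₊).filter (fun p => p.Prime ∧ p ≡ a [MOD q]), Real.log p ∧
    ∑ n ∈ Icc 1 ⌊x⌋₊, residueClass (a : ZMod q) n -
      ∑ p ∈ (Icc 1 ⌊x⌋₊).filter (fun p => p.Prime ∧ p ≡ a [MOD q]), Real.log p ≤
      Chebyshev.psi x - Chebyshev.theta x := by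
  have hψ : Chebyshev.psi x = ∑ k ∈ Icc 1 ⌊x⌋₊, vonMangoldt k := rfl
  have hθ : Chebyshev.theta x = ∑ p ∈ (Icc 1 ⌊x⌋₊).filter Nat.Prime, Real.log p := rfl
  have key : ∀ k : ℕ,
      0 ≤ residueClass (a : ZMod q) k - (if k.Prime ∧ k ≡ a [MOD q] then Real.log k else 0) ∧
      residueClass (a : ZMod q) k - (if k.Prime ∧ k ≡ a [MOD q] then Real.log k else 0) ≤
        vonMangoldt k - (if k.Prime then Real.log k else 0) := by
    intro k
    have h1 : ((k : ZMod q) = a) ↔ k ≡ a [MOD q] := ZMod.natCast_eq_natCast_iff _ _ _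
    by_cases hp : k.Prime
    · by_cases h3 : k ≡ a [MOD q]
      · rw [residueClass, Set.indicator_of_mem (by exact h1.2 h3), vonMangoldt_apply_prime hp]
        simp [hp, h3]
      · rw [residueClass, Set.indicator_of_notMem (by exact fun h => h3 (h1.1 h)),
          vonMangoldt_apply_prime hp]
        simp [hp, h3]
    · simp only [hp, false_and, if_false, sub_zero]
      exact ⟨residueClass_nonneg _ k, residueClass_le _ k⟩
  rw [hψ, hθ, sum_filter, sum_filter, ← sum_sub_distrib, ← sum_sub_distrib]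
  exact ⟨sum_nonneg fun k _ => (key k).1, sum_le_sum fun k _ => (key k).2⟩

theorem pap_of_zf (hZ : PapZF) : PAP := by
  obtain ⟨C, hC0, hC⟩ := pap_psi hZ
  refine ⟨1 / 64, by norm_num, C + 8, by positivity, fun y q a hq hy ha => ?_⟩
  have : NeZero q := ⟨by omega⟩
  have hq1 : (1 : ℝ) ≤ q := by exact_mod_cast hq
  have hy1 : 1 ≤ y := hq1.trans hy
  have hy0 : 0 < y := by linarith
  have h1 := abs_le.1 (hC q a ((ZMod.isUnit_iff_coprime a q).2 ha) y hy)
  obtain ⟨h2, h3⟩ := pap_theta (q := q) a y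
  have h4 := (abs_le.1 (Chebyshev.abs_psi_sub_theta_le_sqrt_mul_log hy1)).2
  have h5 : 2 * √y * Real.log y ≤ 8 * y ^ (1 - 1 / 64 : ℝ) := by
    calc 2 * √y * Real.log y ≤ 2 * √y * (y ^ (1 / 4 : ℝ) / (1 / 4)) := by
          gcongr
          exact Real.log_le_rpow_div hy0.le (by norm_num)
      _ = 8 * y ^ (1 / 2 + 1 / 4 : ℝ) := by rw [Real.sqrt_eq_rpow, Real.rpow_add hy0]; ring
      _ ≤ _ := by
          gcongr
          norm_num
  rw [abs_le]
  constructor <;> linarith [h1.1, h1.2]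

end Crest.Agent.R1
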