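import Crest.Agent.R1.Defs

/-!
# R1 / Pot : the potential is a supersolution of the two-step operator

Pure real inequalities.  Notation: `S = R + j`, `s = R/t ≥ 3`, `κ = 24 C + 288`, `κ₁ = κ + 2C`, `t ≥ t1` large
(`t1 ≥ (C + 3) κ₁ + κ + 1`).  Telescoping bounds for integers `k ≥ 1`:
`1/k² ≤ 1/(k-½) - 1/(k+½)`, `1/k³ ≤ ½ (1/(k-½)² - 1/(k+½)²)`, and `1/(k-½) ≤ 1/k + 1/k²`,
`1/(k-½)² ≤ 1/k² + 3/k³`.

*Inner sum* (`t ≤ j < R`).  `Pot κ (S + j') j' = S²/(2j') (1 + κ/j')` and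
`m j' (1 + κ/j') ≤ (1/j') (1 + κ₁/j')`.  The `j'` form the interval `[j, n)`, `n = ⌈S/2⌉ > j`, `n - ½ ≤ S/2`.  So
`∑ 1/j'² ≤ 1/j + 1/j² - 2/S`, `∑ 1/j'³ ≤ ½ (1/j² + 3/j³ - 4/S²)`, and using `S ≤ 2R`, `t ≥ 3κ₁`:
`I(j) ≤ (R² - j²)/(2j) + κ₁ (S²/(4j²) - 1) + 3R²/j²`  (all three terms are `≥ 0`).

*Outer sum.*  `m j ≤ (1/j)(1 + C/j)` gives
`m j I(j) ≤ (R²/(2j²) - ½) + κ₁ (R²/(4j³) + R/(2j²) - 3/(4j)) + (C/2 + 7) R²/j³`.
Summing over `t ≤ j < R`: `∑ 1/j² ≤ 1/t + 1/t² - 1/R`, `∑ 1/j³ ≤ ½ (1/t² + 3/t³ - 1/R²) ≤ 2/t²`,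
`∑ 1/j ≥ 2/3` (the terms `t ≤ j < 3t`).  First part: `≤ (R-t)²/(2t) + s²/2`.  Second part:
`≤ κ₁ (s²/8 + s/2 - 9/8 + s²/t) ≤ κ₁ (3/8)(s-1)² + s²`, because `(3/8)(s-1)² - (s²/8 + s/2 - 9/8) =
(s-2)(s-3)/4 ≥ 0`.  Third part: `≤ (C + 14) s²`.  Finally `s² ≤ (9/4)(s-1)²` and
`(3/4) κ₁ + (9/2)(C + 16) ≤ κ`, `(s-1)²/2 = (R-t)²/(2t²)`.
-/

set_option autoImplicit false

noncomputable section

open scoped Classical

namespace Crest.Agent.R1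

open Finset

theorem pot_T2 {a n : ℕ} (ha : 1 ≤ a) (h : a ≤ n) :
    ∑ k ∈ Ico a n, 1 / (k : ℝ) ^ 2 ≤ 1 / ((a : ℝ) - 1 / 2) - 1 / ((n : ℝ) - 1 / 2) := by
  induction n, h using Nat.le_induction with
  | base => simp
  | succ n hn ih =>
    rw [Finset.sum_Ico_succ_top hn]
    have h1 : (1 : ℝ) ≤ n := by exact_mod_cast ha.trans hn
    have h2 : 1 / (n : ℝ) ^ 2 ≤ 1 / ((n : ℝ) - 1 / 2) - 1 / (((n + 1 : ℕ) : ℝ) - 1 / 2) := by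
      have e : 1 / ((n : ℝ) - 1 / 2) - 1 / (((n + 1 : ℕ) : ℝ) - 1 / 2) = 1 / ((n : ℝ) ^ 2 - 1 / 4) := by
        push_cast
        rw [div_sub_div _ _ (by linarith) (by linarith)]
        congr 1 <;> ring
      rw [e]
      exact one_div_le_one_div_of_le (by nlinarith) (by linarith)
    linarith

theorem pot_T3 {a n : ℕ} (ha : 1 ≤ a) (h : a ≤ n) :
    ∑ k ∈ Ico a n, 1 / (k : ℝ) ^ 3 ≤
      (1 / ((a : ℝ) - 1 / 2) ^ 2 - 1 / ((n : ℝ) - 1 / 2) ^ 2) / 2 := by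
  induction n, h using Nat.le_induction with
  | base => simp
  | succ n hn ih =>
    rw [Finset.sum_Ico_succ_top hn]
    have h1 : (1 : ℝ) ≤ n := by exact_mod_cast ha.trans hn
    have h2 : 1 / (n : ℝ) ^ 3 ≤
        (1 / ((n : ℝ) - 1 / 2) ^ 2 - 1 / (((n + 1 : ℕ) : ℝ) - 1 / 2) ^ 2) / 2 := by
      have p1 : (0 : ℝ) < (n : ℝ) - 1 / 2 := by linarith
      have p2 : (0 : ℝ) < (n : ℝ) + 1 - 1 / 2 := by linarith
      have p3 : (0 : ℝ) < (n : ℝ) ^ 2 - 1 / 4 := by nlinarith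
      have e : (1 / ((n : ℝ) - 1 / 2) ^ 2 - 1 / (((n + 1 : ℕ) : ℝ) - 1 / 2) ^ 2) / 2 =
          n / ((n : ℝ) ^ 2 - 1 / 4) ^ 2 := by
        push_cast
        rw [div_sub_div _ _ (by positivity) (by positivity), div_div,
          div_eq_div_iff (by positivity) (by positivity)]
        ring
      rw [e, div_le_div_iff₀ (by positivity) (by positivity)]
      nlinarith
    linarith

theorem pot_h1 {k : ℝ} (hk : 1 ≤ k) : 1 / (k - 1 / 2) ≤ 1 / k + 1 / k ^ 2 := by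
  have e : 1 / k + 1 / k ^ 2 = (k + 1) / k ^ 2 := by field_simp
  rw [e, div_le_div_iff₀ (by linarith) (by positivity)]
  nlinarith

theorem pot_h2 {k : ℝ} (hk : 1 ≤ k) : 1 / (k - 1 / 2) ^ 2 ≤ 1 / k ^ 2 + 3 / k ^ 3 := by
  have e : 1 / k ^ 2 + 3 / k ^ 3 = (k + 3) / k ^ 3 := by field_simp
  have : 0 < k - 1 / 2 := by linarith
  rw [e, div_le_div_iff₀ (by positivity) (by positivity)]
  nlinarith

theorem pot_inner {C κ : ℝ} (hC : 0 ≤ C) (hκ : 0 ≤ κ) {m : ℕ → ℝ}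
    (hm : ∀ j : ℕ, 1 ≤ j → m j ≤ 1 / (j : ℝ) + C / (j : ℝ) ^ 2) {R j : ℕ} (hj : 1 ≤ j) (hjR : j < R)
    (h3 : 3 * (κ + 2 * C) ≤ j) :
    ∑ j' ∈ (Ico j R).filter (fun j' => 2 * j' < R + j), m j' * Pot κ (R + j + j') j' ≤
      ((R : ℝ) ^ 2 - j ^ 2) / (2 * j) + (κ + 2 * C) * (((R : ℝ) + j) ^ 2 / (4 * j ^ 2) - 1) +
        3 * R ^ 2 / j ^ 2 := by
  have e : (Ico j R).filter (fun j' => 2 * j' < R + j) = Ico j ((R + j + 1) / 2) := by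
    ext x; simp only [mem_filter, mem_Ico]; omega
  set n := (R + j + 1) / 2 with hn
  have hjn : j ≤ n := by omega
  have hj' : (1 : ℝ) ≤ j := by exact_mod_cast hj
  have hR' : (j : ℝ) ≤ R := by exact_mod_cast hjR.le
  have n1 : (n : ℝ) - 1 / 2 ≤ ((R : ℝ) + j) / 2 := by
    have : (2 * n : ℝ) ≤ R + j + 1 := by exact_mod_cast (by omega : 2 * n ≤ R + j + 1)
    linarith
  have n2 : (0 : ℝ) < (n : ℝ) - 1 / 2 := by
    have : (j : ℝ) ≤ n := by exact_mod_cast hjn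
    linarith
  set S : ℝ := (R : ℝ) + j with hS
  have hS0 : 0 < S := by linarith
  have a2 : ∑ k ∈ Ico j n, 1 / (k : ℝ) ^ 2 ≤ 1 / (j : ℝ) + 1 / (j : ℝ) ^ 2 - 2 / S := by
    have := one_div_le_one_div_of_le n2 n1
    rw [one_div_div] at this
    linarith [pot_T2 hj hjn, pot_h1 hj']
  have a3 : ∑ k ∈ Ico j n, 1 / (k : ℝ) ^ 3 ≤ (1 / (j : ℝ) ^ 2 + 3 / (j : ℝ) ^ 3 - 4 / S ^ 2) / 2 := by
    have := one_div_le_one_div_of_le (pow_pos n2 2) (pow_le_pow_left₀ n2.le n1 2)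
    rw [div_pow, one_div_div, show (2 : ℝ) ^ 2 = 4 by norm_num] at this
    linarith [pot_T3 hj hjn, pot_h2 hj']
  have b : ∀ k ∈ Ico j n, m k * Pot κ (R + j + k) k ≤
      S ^ 2 / 2 * (1 / (k : ℝ) ^ 2) + (κ + 2 * C) * S ^ 2 / 2 * (1 / (k : ℝ) ^ 3) := by
    intro k hk
    have hk1 := (mem_Ico.1 hk).1
    have hk' : (j : ℝ) ≤ k := by exact_mod_cast hk1
    have hk0 : (0 : ℝ) < k := by linarith
    have e1 : Pot κ (R + j + k) k = S ^ 2 / (2 * k) * (1 + κ / k) := by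
      unfold Pot; push_cast; rw [add_sub_cancel_right]
    rw [e1]
    refine (mul_le_mul_of_nonneg_right (hm k (hj.trans hk1)) (by positivity)).trans ?_
    have e2 : S ^ 2 / 2 * (1 / (k : ℝ) ^ 2) + (κ + 2 * C) * S ^ 2 / 2 * (1 / (k : ℝ) ^ 3) -
        (1 / (k : ℝ) + C / (k : ℝ) ^ 2) * (S ^ 2 / (2 * k) * (1 + κ / k)) =
        C * S ^ 2 * (k - κ) / (2 * (k : ℝ) ^ 4) := by field_simp; ring
    have : 0 ≤ C * S ^ 2 * (k - κ) / (2 * (k : ℝ) ^ 4) := by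
      have : 0 ≤ (k : ℝ) - κ := by linarith
      positivity
    linarith
  rw [e]
  refine (Finset.sum_le_sum b).trans ?_
  rw [Finset.sum_add_distrib, ← Finset.mul_sum, ← Finset.mul_sum]
  have c1 := mul_le_mul_of_nonneg_left a2 (show 0 ≤ S ^ 2 / 2 by positivity)
  have c2 := mul_le_mul_of_nonneg_left a3 (show 0 ≤ (κ + 2 * C) * S ^ 2 / 2 by positivity)
  have d1 : S ^ 2 / 2 * (1 / (j : ℝ) + 1 / (j : ℝ) ^ 2 - 2 / S) =
      ((R : ℝ) ^ 2 - j ^ 2) / (2 * j) + S ^ 2 / (j : ℝ) ^ 2 / 2 := by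
    rw [show (R : ℝ) = S - j by rw [hS]; ring]; field_simp; ring
  have d2 : (κ + 2 * C) * S ^ 2 / 2 * ((1 / (j : ℝ) ^ 2 + 3 / (j : ℝ) ^ 3 - 4 / S ^ 2) / 2) =
      (κ + 2 * C) * (S ^ 2 / (4 * j ^ 2) - 1) + 3 * (κ + 2 * C) / j * (S ^ 2 / (j : ℝ) ^ 2) / 4 := by
    field_simp; ring
  have d3 : S ^ 2 / (j : ℝ) ^ 2 ≤ 4 * ((R : ℝ) ^ 2 / j ^ 2) := by
    rw [← mul_div_assoc]
    exact div_le_div_of_nonneg_right (by nlinarith) (by positivity)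
  have d4 : 3 * (κ + 2 * C) / j * (S ^ 2 / (j : ℝ) ^ 2) ≤ S ^ 2 / (j : ℝ) ^ 2 :=
    mul_le_of_le_one_left (by positivity) ((div_le_one (by linarith)).2 h3)
  rw [mul_div_assoc 3 ((R : ℝ) ^ 2)]
  linarith

theorem pot_outer {C K R j x y : ℝ} (hC : 0 ≤ C) (hK : 1 ≤ K) (hj : 1 ≤ j) (hjR : j ≤ R)
    (h3 : C * K ≤ j) (hx0 : 0 ≤ x) (hx : x ≤ 1 / j + C / j ^ 2)
    (hy : y ≤ (R ^ 2 - j ^ 2) / (2 * j) + K * ((R + j) ^ 2 / (4 * j ^ 2) - 1) + 3 * R ^ 2 / j ^ 2) :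
    x * y ≤ R ^ 2 / 2 * (1 / j ^ 2) - 1 / 2 + K * (R ^ 2 / 4 * (1 / j ^ 3) + R / 2 * (1 / j ^ 2) -
      3 / 4 * (1 / j)) + (C / 2 + 7) * (R ^ 2 * (1 / j ^ 3)) := by
  have hj0 : 0 < j := by linarith
  set I := (R ^ 2 - j ^ 2) / (2 * j) + K * ((R + j) ^ 2 / (4 * j ^ 2) - 1) + 3 * R ^ 2 / j ^ 2 with hI
  have q1 : 0 ≤ (R + j) ^ 2 / (4 * j ^ 2) - 1 := by
    rw [sub_nonneg, one_le_div (by positivity)]; nlinarith
  have q2 : (R + j) ^ 2 / (4 * j ^ 2) - 1 ≤ R ^ 2 / j ^ 2 := by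
    have : (R + j) ^ 2 / (4 * j ^ 2) ≤ R ^ 2 / j ^ 2 := by
      rw [div_le_div_iff₀ (by positivity) (by positivity)]
      have : (R + j) ^ 2 ≤ 4 * R ^ 2 := by nlinarith
      nlinarith [mul_le_mul_of_nonneg_right this (sq_nonneg j)]
    linarith
  have q3 : 0 ≤ (R ^ 2 - j ^ 2) / (2 * j) := div_nonneg (by nlinarith) (by positivity)
  have hI0 : 0 ≤ I := by positivity
  have h1 : x * y ≤ (1 / j + C / j ^ 2) * I :=
    (mul_le_mul_of_nonneg_left hy hx0).trans (mul_le_mul_of_nonneg_right hx hI0)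
  have e1 : 1 / j * I = R ^ 2 / 2 * (1 / j ^ 2) - 1 / 2 + K * (R ^ 2 / 4 * (1 / j ^ 3) +
      R / 2 * (1 / j ^ 2) - 3 / 4 * (1 / j)) + 3 * (R ^ 2 * (1 / j ^ 3)) := by
    rw [hI]; field_simp; ring
  have h2 : I ≤ R ^ 2 / (2 * j) + K * (R ^ 2 / j ^ 2) + 3 * R ^ 2 / j ^ 2 := by
    have a1 : (R ^ 2 - j ^ 2) / (2 * j) ≤ R ^ 2 / (2 * j) :=
      div_le_div_of_nonneg_right (by nlinarith) (by positivity)
    have a2 := mul_le_mul_of_nonneg_left q2 (show 0 ≤ K by linarith)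
    rw [hI]; linarith
  have e2 : C / j ^ 2 * (R ^ 2 / (2 * j) + K * (R ^ 2 / j ^ 2) + 3 * R ^ 2 / j ^ 2) =
      (C / 2 + C * K / j + 3 * (C / j)) * (R ^ 2 * (1 / j ^ 3)) := by field_simp
  have a1 : C * K / j ≤ 1 := (div_le_one hj0).2 h3
  have a2 : C / j ≤ 1 := (div_le_one hj0).2 (by nlinarith)
  have h4 := mul_le_mul_of_nonneg_left h2 (show 0 ≤ C / j ^ 2 by positivity)
  have h5 : (C / 2 + C * K / j + 3 * (C / j)) * (R ^ 2 * (1 / j ^ 3)) ≤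
      (C / 2 + 4) * (R ^ 2 * (1 / j ^ 3)) :=
    mul_le_mul_of_nonneg_right (by linarith) (by positivity)
  rw [add_mul] at h1
  linarith

theorem pot_fin {C R t A1 A2 A3 : ℝ} (hC : 0 ≤ C) (ht : 26 * C + 288 ≤ t) (hR : 3 * t ≤ R)
    (h2 : A2 ≤ 1 / t + 1 / t ^ 2 - 1 / R) (h3 : A3 ≤ (1 / t ^ 2 + 3 / t ^ 3 - 1 / R ^ 2) / 2)
    (h1 : 2 / 3 ≤ A1) :
    R ^ 2 / 2 * A2 - (R - t) / 2 + (26 * C + 288) * (R ^ 2 / 4 * A3 + R / 2 * A2 - 3 / 4 * A1) +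
      (C / 2 + 7) * (R ^ 2 * A3) ≤ (R - t) ^ 2 / (2 * t) * (1 + (24 * C + 288) / t) := by
  have ht0 : 0 < t := by linarith
  obtain ⟨s, rfl⟩ : ∃ s, R = s * t := ⟨R / t, by field_simp⟩
  have hs : 3 ≤ s := le_of_mul_le_mul_right hR ht0
  have hs0 : 0 < s := by linarith
  have a1 : (s * t) ^ 2 * A2 ≤ s ^ 2 * t + s ^ 2 - s * t :=
    (mul_le_mul_of_nonneg_left h2 (by positivity)).trans (le_of_eq (by field_simp))
  have a2 : (s * t) * A2 ≤ s + s / t - 1 :=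
    (mul_le_mul_of_nonneg_left h2 (by positivity)).trans (le_of_eq (by field_simp))
  have a3 : (s * t) ^ 2 * A3 ≤ (s ^ 2 + 3 * (s ^ 2 / t) - 1) / 2 :=
    (mul_le_mul_of_nonneg_left h3 (by positivity)).trans (le_of_eq (by field_simp))
  have b1 : s / t ≤ s ^ 2 / t := div_le_div_of_nonneg_right (by nlinarith) ht0.le
  have b2 : (26 * C + 288) * (s ^ 2 / t) ≤ s ^ 2 := by
    rw [← mul_div_assoc, div_le_iff₀ ht0]; nlinarith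
  have b3 : s ^ 2 / t ≤ s ^ 2 := div_le_self (by positivity) (by linarith)
  have b4 : 0 ≤ s ^ 2 / t := by positivity
  have e : (s * t - t) ^ 2 / (2 * t) * (1 + (24 * C + 288) / t) =
      (s - 1) ^ 2 * t / 2 + (24 * C + 288) * ((s - 1) ^ 2 / 2) := by field_simp
  have c1 : (s * t) ^ 2 / 4 * A3 + s * t / 2 * A2 - 3 / 4 * A1 ≤ 3 / 8 * (s - 1) ^ 2 + s ^ 2 / t := by
    nlinarith
  have c2 : (s * t) ^ 2 * A3 ≤ 2 * s ^ 2 := by linarith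
  have c3 := mul_le_mul_of_nonneg_left c1 (show 0 ≤ 26 * C + 288 by positivity)
  have c4 := mul_le_mul_of_nonneg_left c2 (show 0 ≤ C / 2 + 7 by positivity)
  have c5 : s ^ 2 ≤ 9 / 4 * (s - 1) ^ 2 := by nlinarith
  have c6 := mul_le_mul_of_nonneg_left c5 (show 0 ≤ C + 16 by positivity)
  rw [e]
  nlinarith [sq_nonneg s]

theorem pot_super (C : ℝ) (hC : 0 ≤ C) : ∃ (κ : ℝ) (t1 : ℕ), 0 ≤ κ ∧ κ ≤ t1 ∧ 1 ≤ t1 ∧
    ∀ m : ℕ → ℝ, (∀ j, 0 ≤ m j) → (∀ j : ℕ, 1 ≤ j → m j ≤ 1 / (j : ℝ) + C / (j : ℝ) ^ 2) →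
    ∀ R t : ℕ, t1 ≤ t → 3 * t ≤ R →
      ∑ j ∈ Ico t R, m j * ∑ j' ∈ (Ico j R).filter (fun j' => 2 * j' < R + j),
        m j' * Pot κ (R + j + j') j' ≤ Pot κ R t := by
  refine ⟨24 * C + 288, ⌈(C + 3) * (26 * C + 288)⌉₊, by positivity,
    le_trans (by nlinarith) (Nat.le_ceil _), Nat.ceil_pos.2 (by positivity),
    fun m hm0 hm R t ht hR => ?_⟩
  have ht' : (C + 3) * (26 * C + 288) ≤ t := (Nat.le_ceil _).trans (by exact_mod_cast ht)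
  have ht1 : 1 ≤ t := le_trans (Nat.ceil_pos.2 (by positivity)) ht
  have ht1' : (1 : ℝ) ≤ t := by exact_mod_cast ht1
  have hR' : 3 * (t : ℝ) ≤ R := by exact_mod_cast hR
  have htR : t ≤ R := by omega
  have b : ∀ j ∈ Ico t R, m j * ∑ j' ∈ (Ico j R).filter (fun j' => 2 * j' < R + j),
      m j' * Pot (24 * C + 288) (R + j + j') j' ≤ (R : ℝ) ^ 2 / 2 * (1 / (j : ℝ) ^ 2) - 1 / 2 +
        (26 * C + 288) * ((R : ℝ) ^ 2 / 4 * (1 / (j : ℝ) ^ 3) + R / 2 * (1 / (j : ℝ) ^ 2) -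
          3 / 4 * (1 / j)) + (C / 2 + 7) * ((R : ℝ) ^ 2 * (1 / (j : ℝ) ^ 3)) := by
    intro j hj
    rw [mem_Ico] at hj
    have hj' : (t : ℝ) ≤ j := by exact_mod_cast hj.1
    have h1 := pot_inner (κ := 24 * C + 288) hC (by positivity) hm (ht1.trans hj.1) hj.2
      (by nlinarith)
    rw [show 24 * C + 288 + 2 * C = 26 * C + 288 by ring] at h1
    exact pot_outer hC (by linarith) (by linarith) (by exact_mod_cast hj.2.le) (by nlinarith)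
      (hm0 j) (hm j (ht1.trans hj.1)) h1
  refine (Finset.sum_le_sum b).trans ?_
  simp only [Finset.sum_add_distrib, Finset.sum_sub_distrib, ← Finset.mul_sum, Finset.sum_const,
    Nat.card_Ico, nsmul_eq_mul]
  rw [Nat.cast_sub htR, mul_one_div ((R : ℝ) - t)]
  have p1 : (0 : ℝ) < (R : ℝ) - 1 / 2 := by linarith
  refine pot_fin hC (by nlinarith) hR' ?_ ?_ ?_
  · have := one_div_le_one_div_of_le p1 (show (R : ℝ) - 1 / 2 ≤ R by linarith)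
    linarith [pot_T2 ht1 htR, pot_h1 ht1']
  · have := one_div_le_one_div_of_le (pow_pos p1 2)
      (pow_le_pow_left₀ p1.le (show (R : ℝ) - 1 / 2 ≤ R by linarith) 2)
    linarith [pot_T3 ht1 htR, pot_h2 ht1']
  · calc (2 / 3 : ℝ) = ∑ _j ∈ Ico t (3 * t), 1 / (3 * (t : ℝ)) := by
          rw [Finset.sum_const, Nat.card_Ico, nsmul_eq_mul, show 3 * t - t = 2 * t by omega]
          push_cast; field_simp
      _ ≤ ∑ j ∈ Ico t (3 * t), 1 / (j : ℝ) := Finset.sum_le_sum fun j hj => by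
          rw [mem_Ico] at hj
          have a1 : (t : ℝ) ≤ j := by exact_mod_cast hj.1
          have a2 : (j : ℝ) ≤ 3 * t := by exact_mod_cast hj.2.le
          exact one_div_le_one_div_of_le (by linarith) a2
      _ ≤ _ := Finset.sum_le_sum_of_subset_of_nonneg (Ico_subset_Ico_right hR)
          fun _ _ _ => by positivity

end Crest.Agent.R1
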