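import Crest.Agent.R1.Basic1

/-!
# R1 / Reduce : from `thmA` to the statement

Let `Q = pr (PL 0 t0)` (product of the primes of level `≤ t0`), `N0 ≥ 10` large, `C = 9 · Q · (2^(N0+1) + 8)`.
Since `0 < log log (3k) ≤ log (3k) ≤ 3k` we get `m ≥ C/9`.  Let `N` be maximal with `Q (2^N + 1) ≤ m`; `N ≥ N0` and
`m < Q (2^(N+1) + 1) ≤ 4 Q X`, `X = 2^N`.  From `C k² ≤ m (log log 3k)²`: first `(log log 3k)² ≤ log (3k) ≤ 3k`
(`log u ≤ √u`) gives `k ≤ 3m/C ≤ X`, then `log log (3k) ≤ log (3X) ≤ N + 2 ≤ 2N`... more precisely we only need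
`k² ≤ X N²`: `k² ≤ (4QX/C)(2N)² ≤ X N²` as `C ≥ 16 Q`.
Choose `c ∈ [a, a + Q)` with `c ≡ 1 (mod Q)`.  Let `S` = the primes of level `> t0` that divide `n` or have level `≤ Z = ZZ N`;
`Q` is coprime to `pr S`, so there is `a0` with `Q a0 ≡ c (mod pr S)`; then for `π ∈ S`: `π ∣ c + Q j ↔ π ∣ a0 + j`.
The primes `π ∣ n` of level `> Z` are at most `k`, each divides `a0 + j` for at most `X/π + 1 ≤ X/2^Z + 1` values `j < X`
(`cnt_approx`).  `2^(2Z) ≥ X N⁶` (`params`, `N ≤ 2^Λ`) gives `k X/2^Z ≤ X/N²`, and `k < X/N²` because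
`k² ≤ X N² < X²/N⁴` (`N⁶ < 2^N`).  So fewer than `2X/N² ≤ Surv` values of `j` are removed, and `x = c + Q j` with a
remaining `j` is coprime to `n` (a prime of level `≤ t0` divides `Q` and `c - 1`), `a ≤ x < a + Q + Q X ≤ a + m`.
-/

set_option autoImplicit false

noncomputable section

open scoped Classical

namespace Crest.Agent.R1

open Finset

/-- some survivor avoids the large prime factors of `n` -/
theorem red_surv (t0 N k : ℕ) (a0 : ℤ) (T : Finset ℕ) (hT : ∀ π ∈ T, ZZ N < lv π) (hk : T.card ≤ k)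
    (hA : 2 * 2 ^ N ≤ N ^ 2 * Surv t0 (ZZ N) a0 (2 ^ N)) (h1 : k ^ 2 ≤ 2 ^ N * N ^ 2)
    (h2 : N ^ 6 < 2 ^ N) :
    ∃ j < 2 ^ N, (∀ π ∈ PL (t0 + 1) (ZZ N), ¬ (π : ℤ) ∣ a0 + (j : ℕ)) ∧
      ∀ π ∈ T, ¬ (π : ℤ) ∣ a0 + (j : ℕ) := by
  by_contra hc
  have a1 : Surv t0 (ZZ N) a0 (2 ^ N) ≤ ∑ π ∈ T, cnt a0 (2 ^ N) π := by
    refine le_trans (card_le_card fun j hj => ?_) card_biUnion_le
    obtain ⟨j1, j2⟩ := mem_filter.1 hj
    by_contra hj'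
    exact hc ⟨j, mem_range.1 j1, j2, fun π hπ hd =>
      hj' (mem_biUnion.2 ⟨π, hπ, mem_filter.2 ⟨j1, hd⟩⟩)⟩
  have z0 : (0 : ℝ) < 2 ^ ZZ N := by positivity
  have a2 : ∀ π ∈ T, (cnt a0 (2 ^ N) π : ℝ) ≤ 2 ^ N / 2 ^ ZZ N + 1 := by
    intro π hπ
    have b1 := lt_lv_iff.1 (hT π hπ)
    have b2 := (abs_le.1 (cnt_approx a0 (2 ^ N) π ((Nat.one_le_two_pow).trans b1.le))).2
    have b3 : ((2 ^ N : ℕ) : ℝ) / π ≤ 2 ^ N / 2 ^ ZZ N := by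
      push_cast
      exact div_le_div_of_nonneg_left (by positivity) z0 (by exact_mod_cast b1.le)
    linarith
  have a3 : (Surv t0 (ZZ N) a0 (2 ^ N) : ℝ) ≤ k * (2 ^ N / 2 ^ ZZ N + 1) := by
    have b1 : (Surv t0 (ZZ N) a0 (2 ^ N) : ℝ) ≤ ∑ π ∈ T, (cnt a0 (2 ^ N) π : ℝ) := by
      exact_mod_cast a1
    refine b1.trans ((sum_le_card_nsmul _ _ _ a2).trans ?_)
    rw [nsmul_eq_mul]
    exact mul_le_mul_of_nonneg_right (by exact_mod_cast hk) (by positivity)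
  have a4 : (N ^ 2 * k) ^ 2 ≤ N ^ 6 * 2 ^ N := by
    calc (N ^ 2 * k) ^ 2 = N ^ 4 * k ^ 2 := by ring
      _ ≤ N ^ 4 * (2 ^ N * N ^ 2) := Nat.mul_le_mul_left _ h1
      _ = _ := by ring
  have a5 : N ^ 2 * k ≤ 2 ^ ZZ N := by
    refine (Nat.pow_le_pow_iff_left two_ne_zero).1 (a4.trans ?_)
    calc N ^ 6 * 2 ^ N ≤ (2 ^ Lam N) ^ 6 * 2 ^ N :=
          Nat.mul_le_mul_right _ (Nat.pow_le_pow_left (le_two_pow_Lam N) 6)
      _ = 2 ^ (Lam N * 6 + N) := by rw [← pow_mul, ← pow_add]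
      _ ≤ 2 ^ (ZZ N * 2) := Nat.pow_le_pow_right two_pos (by unfold ZZ; omega)
      _ = _ := pow_mul _ _ _
  have a6 : N ^ 2 * k < 2 ^ N := by
    refine lt_of_pow_lt_pow_left₀ 2 (Nat.zero_le _) (a4.trans_lt ?_)
    rw [sq]
    exact Nat.mul_lt_mul_of_pos_right h2 (by positivity)
  have a5' : (N : ℝ) ^ 2 * k ≤ 2 ^ ZZ N := by exact_mod_cast a5
  have a6' : (N : ℝ) ^ 2 * k < 2 ^ N := by exact_mod_cast a6
  have hA' : (2 : ℝ) * 2 ^ N ≤ N ^ 2 * Surv t0 (ZZ N) a0 (2 ^ N) := by exact_mod_cast hA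
  have a7 : (N : ℝ) ^ 2 * k * (2 ^ N / 2 ^ ZZ N) ≤ 2 ^ N := by
    refine (mul_le_mul_of_nonneg_right a5' (by positivity)).trans (le_of_eq ?_)
    field_simp
  have a8 := mul_le_mul_of_nonneg_left a3 (sq_nonneg (N : ℝ))
  linarith

theorem red_core (t0 N k n : ℕ) (a : ℤ) (hn : 0 < n) (hk : n.primeFactors.card ≤ k)
    (hA : ∀ a0 : ℤ, 2 * 2 ^ N ≤ N ^ 2 * Surv t0 (ZZ N) a0 (2 ^ N)) (h1 : k ^ 2 ≤ 2 ^ N * N ^ 2)
    (h2 : N ^ 6 < 2 ^ N) :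
    ∃ x : ℤ, a ≤ x ∧ x < a + (pr (PL 0 t0) * (2 ^ N + 1) : ℕ) ∧ Int.gcd x n = 1 := by
  have hQp : ∀ p ∈ PL 0 t0, p.Prime := fun p hp => (mem_PL.1 hp).1
  have hQ : (0 : ℤ) < pr (PL 0 t0) := by exact_mod_cast pr_pos hQp
  obtain ⟨S, hS⟩ : ∃ S, S = PL (t0 + 1) (ZZ N) ∪ n.primeFactors.filter fun π => t0 < lv π :=
    ⟨_, rfl⟩
  have hSp : ∀ p ∈ S, p.Prime ∧ t0 < lv p := by
    intro p hp
    rw [hS, mem_union, mem_PL, mem_filter] at hp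
    rcases hp with hp | hp
    · exact ⟨hp.1, hp.2.1⟩
    · exact ⟨Nat.prime_of_mem_primeFactors hp.1, hp.2⟩
  have hcop : Nat.Coprime (pr (PL 0 t0)) (pr S) :=
    coprime_pr (fun p hp => (hSp p hp).1) fun p hp hd => by
      have := (mem_PL.1 ((prime_dvd_pr hQp (hSp p hp).1).1 hd)).2.2
      have := (hSp p hp).2
      omega
  obtain ⟨u, v, huv⟩ := Nat.isCoprime_iff_coprime.2 hcop
  obtain ⟨c, hc⟩ : ∃ c, c = a + (1 - a) % pr (PL 0 t0) := ⟨_, rfl⟩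
  have c1 := Int.emod_nonneg (1 - a) hQ.ne'
  have c2 := Int.emod_lt_of_pos (1 - a) hQ
  have c3 : ((pr (PL 0 t0) : ℕ) : ℤ) ∣ 1 - c :=
    ⟨(1 - a) / pr (PL 0 t0), by have := Int.mul_ediv_add_emod (1 - a) (pr (PL 0 t0)); linarith⟩
  obtain ⟨j, j1, j2, j3⟩ := red_surv t0 N k (u * c) (n.primeFactors.filter fun π => ZZ N < lv π)
    (fun π hπ => (mem_filter.1 hπ).2) ((card_filter_le _ _).trans hk) (hA _) h1 h2
  have j1' : (j : ℤ) < 2 ^ N := by exact_mod_cast j1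
  refine ⟨c + pr (PL 0 t0) * j, ?_, ?_, ?_⟩
  · have := mul_nonneg hQ.le (Int.natCast_nonneg j)
    linarith
  · have := mul_le_mul_of_nonneg_left j1'.le hQ.le
    push_cast
    linarith
  · refine Nat.eq_one_iff_not_exists_prime_dvd.2 fun π hπ hd => ?_
    have d0 : (π : ℤ) ∣ (Int.gcd (c + pr (PL 0 t0) * j) n : ℕ) := Int.natCast_dvd_natCast.2 hd
    have d1 : (π : ℤ) ∣ c + pr (PL 0 t0) * j := d0.trans (Int.gcd_dvd_left ..)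
    have d2 : π ∈ n.primeFactors := Nat.mem_primeFactors.2
      ⟨hπ, Int.natCast_dvd_natCast.1 (d0.trans (Int.gcd_dvd_right ..)), hn.ne'⟩
    by_cases hl : lv π ≤ t0
    · have d3 : (π : ℤ) ∣ pr (PL 0 t0) :=
        Int.natCast_dvd_natCast.2 ((prime_dvd_pr hQp hπ).2 (mem_PL.2 ⟨hπ, Nat.zero_le _, hl⟩))
      have d4 := dvd_sub (dvd_add d1 (d3.trans c3)) (d3.mul_right j)
      rw [show c + pr (PL 0 t0) * j + (1 - c) - pr (PL 0 t0) * j = ((1 : ℕ) : ℤ) by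
        push_cast; ring, Int.natCast_dvd_natCast] at d4
      exact hπ.not_dvd_one d4
    · have d3 : π ∈ S := hS ▸ mem_union_right _ (mem_filter.2 ⟨d2, not_le.1 hl⟩)
      have d4 : (π : ℤ) ∣ pr S :=
        Int.natCast_dvd_natCast.2 ((prime_dvd_pr (fun p hp => (hSp p hp).1) hπ).2 d3)
      have d5 := dvd_add (d1.mul_left u) (d4.mul_left (v * j))
      rw [show u * (c + pr (PL 0 t0) * j) + v * j * pr S = u * c + j by
        linear_combination (j : ℤ) * huv] at d5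
      by_cases hz : lv π ≤ ZZ N
      · exact j2 π (mem_PL.2 ⟨hπ, not_le.1 hl, hz⟩) d5
      · exact j3 π (mem_filter.2 ⟨d2, not_le.1 hz⟩) d5

theorem red_log {k : ℕ} (hk : 1 ≤ k) : 0 < Real.log (Real.log (3 * (k : ℝ))) ∧
    Real.log (Real.log (3 * (k : ℝ))) ≤ Real.log (3 * (k : ℝ)) ∧
    Real.log (3 * (k : ℝ)) ≤ 3 * k ∧ Real.log (3 * (k : ℝ)) ^ 2 ≤ 12 * k := by
  have k1 : (1 : ℝ) ≤ k := by exact_mod_cast hk
  have h1 : 1 < Real.log (3 * (k : ℝ)) := by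
    rw [Real.lt_log_iff_exp_lt (by linarith)]
    linarith [Real.exp_one_lt_d9]
  refine ⟨Real.log_pos h1, Real.log_le_self (by linarith), Real.log_le_self (by linarith), ?_⟩
  have h2 := Real.log_sqrt (x := 3 * (k : ℝ)) (by linarith)
  have h3 := Real.log_le_self (Real.sqrt_nonneg (3 * (k : ℝ)))
  have h4 := Real.sq_sqrt (x := 3 * (k : ℝ)) (by linarith)
  have h5 : Real.log (3 * (k : ℝ)) ^ 2 ≤ (2 * √(3 * (k : ℝ))) ^ 2 :=
    pow_le_pow_left₀ (by linarith) (by linarith) 2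
  linarith

theorem reduce (t0 N0 : ℕ)
    (hA : ∀ N ≥ N0, ∀ a0 : ℤ, 2 * 2 ^ N ≤ N ^ 2 * Surv t0 (ZZ N) a0 (2 ^ N)) :
    ∃ C : ℝ, 0 < C ∧ ∀ (k : ℕ), 1 ≤ k → ∀ (n : ℕ), 0 < n → n.primeFactors.card ≤ k →
      ∀ (a : ℤ) (m : ℕ), C * (k : ℝ) ^ 2 / (Real.log (Real.log (3 * (k : ℝ)))) ^ 2 ≤ (m : ℝ) →
        ∃ x : ℤ, a ≤ x ∧ x < a + m ∧ Int.gcd x n = 1 := by
  obtain ⟨N2, hN2⟩ := poly_le_two_pow 2 6 1 le_rfl
  obtain ⟨N1, n0, n2, n3⟩ : ∃ N1, N0 ≤ N1 ∧ N2 ≤ N1 ∧ 2 ≤ N1 :=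
    ⟨N0 + N2 + 2, by omega, by omega, by omega⟩
  have hQ : 0 < pr (PL 0 t0) := pr_pos fun p hp => (mem_PL.1 hp).1
  obtain ⟨Q, hQd⟩ : ∃ Q, Q = pr (PL 0 t0) := ⟨_, rfl⟩
  rw [← hQd] at hQ
  have hQ' : (0 : ℝ) < Q := by exact_mod_cast hQ
  refine ⟨9 * (Q * (2 ^ (N1 + 1) + 8) : ℕ), by positivity, fun k hk n hn hnk a m hm => ?_⟩
  obtain ⟨l1, l2, l3, l4⟩ := red_log hk
  have k1 : (1 : ℝ) ≤ k := by exact_mod_cast hk
  have m0 : (0 : ℝ) ≤ m := Nat.cast_nonneg _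
  rw [div_le_iff₀ (pow_pos l1 2)] at hm
  have l5 := pow_le_pow_left₀ l1.le l2 2
  have a1 : Q * (2 ^ (N1 + 1) + 8) ≤ m := by
    have b1 := mul_le_mul_of_nonneg_left (pow_le_pow_left₀ l1.le (l2.trans l3) 2) m0
    have b2 : ((Q * (2 ^ (N1 + 1) + 8) : ℕ) : ℝ) * (9 * k ^ 2) ≤ m * (9 * k ^ 2) := by linarith
    exact_mod_cast le_of_mul_le_mul_right b2 (by positivity)
  have a2 : 2 ^ (N1 + 1) + 8 ≤ m / Q := (Nat.le_div_iff_mul_le hQ).2 (by rwa [mul_comm])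
  obtain ⟨N, hN⟩ : ∃ N, N = Nat.log 2 (m / Q - 1) := ⟨_, rfl⟩
  have a3 : 2 ^ N ≤ m / Q - 1 := hN ▸ Nat.pow_log_le_self 2
    (Nat.sub_ne_zero_of_lt (lt_of_lt_of_le (by norm_num) ((Nat.le_add_left 8 _).trans a2)))
  have a4 : m / Q - 1 < 2 ^ (N + 1) := hN ▸ Nat.lt_pow_succ_log_self one_lt_two _
  have a5 : N1 ≤ N := by
    have : 2 ^ (N1 + 1) < 2 ^ (N + 1) := by omega
    have := (Nat.pow_lt_pow_iff_right one_lt_two).1 this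
    omega
  have a6 : Q * (2 ^ N + 1) ≤ m :=
    (Nat.mul_le_mul_left Q (by omega)).trans (Nat.mul_div_le m Q)
  have a7 : m ≤ Q * (4 * 2 ^ N) := by
    have b1 : m < Q * (m / Q + 1) := Nat.lt_mul_div_succ m hQ
    have b2 : 1 ≤ 2 ^ N := Nat.one_le_two_pow
    exact b1.le.trans (Nat.mul_le_mul_left Q (by rw [pow_succ] at a4; omega))
  have a8 : 18 * (k : ℝ) ^ 2 ≤ 2 ^ N * Real.log (3 * (k : ℝ)) ^ 2 := by
    have b1 : (m : ℝ) ≤ Q * (4 * 2 ^ N) := by exact_mod_cast a7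
    have b2 := mul_le_mul b1 l5 (sq_nonneg _) (by positivity)
    have b3 : (Q : ℝ) * 8 ≤ (Q * (2 ^ (N1 + 1) + 8) : ℕ) := by
      exact_mod_cast Nat.mul_le_mul_left Q (Nat.le_add_left 8 _)
    have b4 := mul_le_mul_of_nonneg_right b3 (sq_nonneg (k : ℝ))
    refine le_of_mul_le_mul_left ?_ (mul_pos hQ' four_pos)
    linarith
  have x0 : (0 : ℝ) < 2 ^ N := by positivity
  have a9 : (k : ℝ) ≤ 2 ^ N := by
    have b1 := mul_le_mul_of_nonneg_left l4 x0.le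
    have b2 : (k : ℝ) * (18 * k) ≤ k * (12 * 2 ^ N) := by linarith
    have b3 := le_of_mul_le_mul_left b2 (by linarith)
    linarith
  have a10 : Real.log (3 * (k : ℝ)) ≤ 2 * N := by
    have b1 : Real.log (3 * (k : ℝ)) ≤ Real.log (2 ^ (N + 2)) :=
      Real.log_le_log (by linarith) (by rw [pow_add]; linarith)
    rw [Real.log_pow] at b1
    have b2 : ((N + 2 : ℕ) : ℝ) * Real.log 2 ≤ ((N + 2 : ℕ) : ℝ) * 1 :=
      mul_le_mul_of_nonneg_left (by linarith [Real.log_two_lt_d9]) (Nat.cast_nonneg _)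
    have b3 : (2 : ℝ) ≤ N := by exact_mod_cast n3.trans a5
    push_cast at b1 b2
    linarith
  have a11 : k ^ 2 ≤ 2 ^ N * N ^ 2 := by
    have b1 := mul_le_mul_of_nonneg_left (pow_le_pow_left₀ (l1.le.trans l2) a10 2) x0.le
    have b2 : (k : ℝ) ^ 2 ≤ 2 ^ N * N ^ 2 := by nlinarith [sq_nonneg (k : ℝ)]
    exact_mod_cast b2
  have a12 : N ^ 6 < 2 ^ N := by
    have b1 := hN2 N (n2.trans a5)
    have b2 : 0 < N ^ 6 := pow_pos (by omega) 6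
    rw [Nat.div_one] at b1
    omega
  obtain ⟨x, x1, x2, x3⟩ := red_core t0 N k n a hn hnk (hA N (n0.trans a5)) a11 a12
  refine ⟨x, x1, x2.trans_le ?_, x3⟩
  rw [← hQd]
  have : ((Q * (2 ^ N + 1) : ℕ) : ℤ) ≤ m := by exact_mod_cast a6
  linarith

end Crest.Agent.R1
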