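import Crest.Agent.R1.Basic1

/-!
# R1 / SelApi : selections (one prime from each box), partitions into blocks

`Sel J` = sets consisting of exactly one prime from each box `B j`, `j ∈ J`.  The basic tool is
`sum_Sel_insert` (`(π, e) ↦ insert π e` is a bijection `B j ×ˢ Sel J → Sel (insert j J)`); the rest follows by
induction on `J`.
-/

set_option autoImplicit false

noncomputable section

open scoped Classical

namespace Crest.Agent.R1

open Finset

theorem mem_Sel {J s : Finset ℕ} : s ∈ Sel J ↔ (∀ π ∈ s, π.Prime ∧ lv π ∈ J) ∧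
    ∀ j ∈ J, (s.filter (fun π => lv π = j)).card = 1 := by
  simp only [Sel, mem_filter, mem_powerset, subset_iff, mem_biUnion, mem_B]
  refine and_congr_left fun _ => forall₂_congr fun π _ => ?_
  exact ⟨fun ⟨j, hj, h1, h2⟩ => ⟨h1, h2 ▸ hj⟩, fun h => ⟨_, h.2, h.1, rfl⟩⟩

theorem Sel_empty : Sel ∅ = {∅} := by
  ext s
  simp [mem_Sel, eq_empty_iff_forall_notMem]

theorem sl_notMem {j π : ℕ} {J e : Finset ℕ} (hj : j ∉ J) (hπ : π ∈ B j) (he : e ∈ Sel J) : π ∉ e :=
  fun h => hj ((mem_B.1 hπ).2 ▸ ((mem_Sel.1 he).1 π h).2)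

theorem sum_Sel_insert {j : ℕ} {J : Finset ℕ} (hj : j ∉ J) (F : Finset ℕ → ℝ) :
    ∑ s ∈ Sel (insert j J), F s = ∑ π ∈ B j, ∑ e ∈ Sel J, F (insert π e) := by
  rw [← sum_product']
  symm
  refine sum_bij (fun x _ => insert x.1 x.2) (fun x hx => ?_) (fun x hx y hy h => ?_)
    (fun s hs => ?_) fun _ _ => rfl
  · obtain ⟨h1, h2⟩ := mem_product.1 hx
    obtain ⟨h3, h4⟩ := mem_Sel.1 h2
    obtain ⟨h5, h6⟩ := mem_B.1 h1
    refine mem_Sel.2 ⟨fun π hπ => ?_, fun k hk => ?_⟩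
    · rcases mem_insert.1 hπ with rfl | h
      · exact ⟨h5, h6 ▸ mem_insert_self _ _⟩
      · exact ⟨(h3 π h).1, mem_insert_of_mem (h3 π h).2⟩
    · rw [filter_insert]
      rcases mem_insert.1 hk with rfl | h
      · rw [if_pos h6, filter_false_of_mem fun π hπ (e : lv π = k) => hj (e ▸ (h3 π hπ).2)]
        rfl
      · rw [if_neg fun e => hj (h6.symm.trans e ▸ h)]
        exact h4 k h
  · obtain ⟨h1, h2⟩ := mem_product.1 hx
    obtain ⟨h3, h4⟩ := mem_product.1 hy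
    have e : x.1 = y.1 := (mem_insert.1 (h ▸ mem_insert_self x.1 x.2)).resolve_right
      (sl_notMem hj h1 h4)
    refine Prod.ext e ?_
    rw [← erase_insert (sl_notMem hj h1 h2), h, e, erase_insert (sl_notMem hj h3 h4)]
  · obtain ⟨h1, h2⟩ := mem_Sel.1 hs
    obtain ⟨π, hπ⟩ := card_eq_one.1 (h2 j (mem_insert_self _ _))
    have h3 : ∀ x, x ∈ s ∧ lv x = j ↔ x = π := fun x => by
      rw [← mem_singleton (a := π), ← hπ, mem_filter]
    obtain ⟨h4, h5⟩ := (h3 π).2 rfl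
    refine ⟨(π, s.erase π), mem_product.2 ⟨mem_B.2 ⟨(h1 π h4).1, h5⟩, mem_Sel.2
      ⟨fun x hx => ?_, fun k hk => ?_⟩⟩, insert_erase h4⟩
    · obtain ⟨h6, h7⟩ := mem_erase.1 hx
      exact ⟨(h1 x h7).1, (mem_insert.1 (h1 x h7).2).resolve_left fun e => h6 ((h3 x).1 ⟨h7, e⟩)⟩
    · rw [filter_erase, erase_eq_of_notMem (by
        exact fun h => hj (h5.symm.trans (mem_filter.1 h).2 ▸ hk))]
      exact h2 k (mem_insert_of_mem hk)

theorem sg_of_mem_Sel {J s : Finset ℕ} (h : s ∈ Sel J) : sg s = ∑ j ∈ J, j := by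
  obtain ⟨h1, h2⟩ := mem_Sel.1 h
  rw [sg, ← sum_fiberwise_of_maps_to (g := lv) fun π hπ => (h1 π hπ).2]
  refine sum_congr rfl fun j hj => ?_
  rw [sum_congr rfl fun π hπ => (mem_filter.1 hπ).2, sum_const, h2 j hj, one_smul]

theorem card_of_mem_Sel {J s : Finset ℕ} (h : s ∈ Sel J) : s.card = J.card := by
  obtain ⟨h1, h2⟩ := mem_Sel.1 h
  rw [card_eq_sum_card_fiberwise (f := lv) fun π hπ => (h1 π hπ).2, sum_congr rfl h2, sum_const,
    smul_eq_mul, mul_one]

theorem sum_prod_Sel (J : Finset ℕ) (f : ℕ → ℝ) :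
    ∑ s ∈ Sel J, ∏ π ∈ s, f π = ∏ j ∈ J, ∑ π ∈ B j, f π := by
  induction J using Finset.induction_on with
  | empty => simp [Sel_empty]
  | insert j J hj ih =>
    rw [sum_Sel_insert hj, prod_insert hj, ← ih, sum_mul_sum]
    exact sum_congr rfl fun π hπ => sum_congr rfl fun e he => prod_insert (sl_notMem hj hπ he)

theorem card_filter_Sel (J : Finset ℕ) (p : ℕ → Prop) [DecidablePred p] :
    ((Sel J).filter (fun s => ∀ π ∈ s, p π)).card = ∏ j ∈ J, ((B j).filter p).card := by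
  have h := sum_prod_Sel J fun π => if p π then 1 else 0
  simp only [prod_boole, sum_boole] at h
  exact_mod_cast h

theorem sum_wt_Sel (J : Finset ℕ) : ∑ s ∈ Sel J, wt s = ∏ j ∈ J, mm j := by
  exact sum_prod_Sel J fun p => 1 / (p : ℝ)

theorem card_Sel_le (J : Finset ℕ) : (Sel J).card ≤ 2 ^ (∑ j ∈ J, j) := by
  have h := sum_prod_Sel J fun _ => 1
  simp only [prod_const_one, sum_const, nsmul_eq_mul, mul_one] at h
  have h2 : (Sel J).card = ∏ j ∈ J, (B j).card := by exact_mod_cast h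
  rw [h2, ← prod_pow_eq_pow_sum]
  exact prod_le_prod' fun j _ => card_B_le j

/-- A set with at least `G ≥ 1` elements is partitioned into fibres of size in `[G, 2G]`.
(E.g. enumerate `S` by `Finset.equivFin`/`orderEmbOfFin`, `k = |S| / G ≥ 1`, `blk = index % k`; or
`blk = min (index / G) (k - 1)`.) -/
theorem exists_blocks (S : Finset ℕ) (G : ℕ) (hG : 1 ≤ G) (hS : G ≤ S.card) :
    ∃ blk : ℕ → ℕ, ∀ x ∈ S, G ≤ (S.filter (fun y => blk y = blk x)).card ∧
      (S.filter (fun y => blk y = blk x)).card ≤ 2 * G := by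
  obtain ⟨f, hf⟩ : ∃ f : ℕ → ℕ, Set.BijOn f S (range S.card) :=
    S.finite_toSet.exists_bijOn_of_encard_eq
      (by rw [Set.encard_coe_eq_coe_finsetCard, Set.encard_coe_eq_coe_finsetCard, card_range])
  have hk : 0 < S.card / G := Nat.div_pos hS hG
  refine ⟨fun y => f y % (S.card / G), fun x _ => ?_⟩
  have e : (S.filter (fun y => f y % (S.card / G) = f x % (S.card / G))).card =
      ((range S.card).filter (fun i => i ≡ f x [MOD S.card / G])).card :=
    card_bij (fun y _ => f y)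
      (fun y hy => mem_filter.2 ⟨hf.mapsTo (mem_filter.1 hy).1, (mem_filter.1 hy).2⟩)
      (fun y hy z hz h => hf.injOn (mem_filter.1 hy).1 (mem_filter.1 hz).1 h) fun i hi => by
        obtain ⟨y, hy, rfl⟩ := hf.surjOn (mem_filter.1 hi).1
        exact ⟨y, mem_filter.2 ⟨hy, (mem_filter.1 hi).2⟩, rfl⟩
  rw [e, ← Nat.count_eq_card_filter_range, Nat.count_modEq_card _ hk]
  have h1 : G ≤ S.card / (S.card / G) := (Nat.le_div_iff_mul_le hk).2 (Nat.mul_div_le _ _)
  have h2 : S.card / (S.card / G) < 2 * G := (Nat.div_lt_iff_lt_mul hk).2 (by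
    have := Nat.lt_mul_div_succ S.card hG
    nlinarith)
  split_ifs <;> omega

/-- Blocks of selections.  Choose `blk j` for each box by `exists_blocks`, `key e = e.image (π ↦ (lv π,
blk (lv π) π))`, `pool k = (J.biUnion B).filter (π ↦ (lv π, blk (lv π) π) ∈ k)`.  The fibre of `key` through
`e₀` consists of all choices of one prime in each of the `|J|` blocks met by `e₀` (prove the lower bound
for its cardinality by induction on `J`, for fixed `blk`, using `sum_Sel_insert` with indicator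
functions). -/
theorem sel_blocks (J : Finset ℕ) (G : ℕ) (hG : 1 ≤ G) (hJ : ∀ j ∈ J, G ≤ (B j).card) :
    ∃ (key : Finset ℕ → Finset (ℕ × ℕ)) (pool : Finset (ℕ × ℕ) → Finset ℕ), ∀ e0 ∈ Sel J,
      G ^ J.card ≤ ((Sel J).filter (fun e => key e = key e0)).card ∧ e0 ⊆ pool (key e0) ∧
      (pool (key e0)).card ≤ 2 * G * J.card ∧ ∀ π ∈ pool (key e0), π.Prime ∧ lv π ∈ J := by
  have h0 : ∀ j, ∃ blk : ℕ → ℕ, j ∈ J → ∀ x ∈ B j, G ≤ ((B j).filter (fun y => blk y = blk x)).card ∧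
      ((B j).filter (fun y => blk y = blk x)).card ≤ 2 * G := fun j => by
    by_cases hj : j ∈ J
    · obtain ⟨blk, h⟩ := exists_blocks (B j) G hG (hJ j hj)
      exact ⟨blk, fun _ => h⟩
    · exact ⟨id, fun h => absurd h hj⟩
  choose blk hb using h0
  refine ⟨fun e => e.image fun π => (lv π, blk (lv π) π),
    fun k => (J.biUnion B).filter fun π => (lv π, blk (lv π) π) ∈ k, fun e0 he0 => ?_⟩
  obtain ⟨h1, h2⟩ := mem_Sel.1 he0
  have h3 : ∀ π ∈ e0, π ∈ B (lv π) := fun π hπ => mem_B.2 ⟨(h1 π hπ).1, rfl⟩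
  refine ⟨?_, fun π hπ => mem_filter.2 ⟨mem_biUnion.2 ⟨_, (h1 π hπ).2, h3 π hπ⟩,
    mem_image_of_mem _ hπ⟩, ?_, fun π hπ => ?_⟩
  · refine le_trans ?_ (card_le_card (s := (Sel J).filter fun s => ∀ π ∈ s,
      (lv π, blk (lv π) π) ∈ e0.image fun π => (lv π, blk (lv π) π)) fun e he => ?_)
    · rw [card_filter_Sel]
      refine pow_card_le_prod _ _ _ fun j hj => ?_
      obtain ⟨π, hπ⟩ := card_pos.1 ((h2 j hj).symm ▸ one_pos)
      obtain ⟨h4, rfl⟩ := mem_filter.1 hπ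
      refine (hb _ hj π (h3 π h4)).1.trans (card_le_card fun y hy => ?_)
      obtain ⟨h5, h6⟩ := mem_filter.1 hy
      refine mem_filter.2 ⟨h5, mem_image.2 ⟨π, h4, ?_⟩⟩
      rw [(mem_B.1 h5).2, h6]
    · obtain ⟨h4, h5⟩ := mem_filter.1 he
      refine mem_filter.2 ⟨h4, eq_of_subset_of_card_le (image_subset_iff.2 h5) ?_⟩
      refine card_image_le.trans ((card_of_mem_Sel he0).trans_le
        (card_le_card_of_surjOn Prod.fst fun j hj => ?_))
      obtain ⟨π, hπ⟩ := card_pos.1 (((mem_Sel.1 h4).2 j hj).symm ▸ one_pos)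
      exact ⟨_, mem_coe.2 (mem_image_of_mem _ (mem_filter.1 hπ).1), (mem_filter.1 hπ).2⟩
  · rw [← card_of_mem_Sel he0, mul_comm]
    refine le_trans (card_le_card fun y hy => ?_) (card_biUnion_le_card_mul e0
      (fun π => (B (lv π)).filter fun y => blk (lv π) y = blk (lv π) π) _ fun π hπ =>
        (hb _ (h1 π hπ).2 π (h3 π hπ)).2)
    obtain ⟨h4, h5⟩ := mem_filter.1 hy
    obtain ⟨j, -, h6⟩ := mem_biUnion.1 h4
    obtain ⟨π, hπ, h7⟩ := mem_image.1 h5
    obtain ⟨h8, h9⟩ := Prod.mk.inj h7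
    refine mem_biUnion.2 ⟨π, hπ, mem_filter.2 ⟨mem_B.2 ⟨(mem_B.1 h6).1, h8.symm⟩, ?_⟩⟩
    rw [h9, h8]
  · obtain ⟨j, hj, h4⟩ := mem_biUnion.1 (mem_filter.1 hπ).1
    exact ⟨(mem_B.1 h4).1, (mem_B.1 h4).2 ▸ hj⟩

/-- A family of pairs `(p, g)` in which every `g` has exactly one element of each level in `K`, and which is
closed under replacing such an element by another prime of the same level, is a disjoint union of
"products" `core ∪ s`, `s ∈ Sel K`.  Proof: `x ↦ ((x.1, core x.2), x.2.filter (lv ∈ K))` is injective with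
inverse `(y, s) ↦ (y.1, y.2 ∪ s)`; it is onto `image ×ˢ Sel K` because one passes from
`x.2.filter (lv ∈ K)` to any `s ∈ Sel K` by single replacements (induction on the number of elements of
`s` not in `x.2`; replacements do not change the core). -/
theorem sum_closed (K : Finset ℕ) (𝒢 : Finset (ℕ × Finset ℕ))
    (h1 : ∀ x ∈ 𝒢, (∀ π ∈ x.2, π.Prime) ∧ ∀ k ∈ K, (x.2.filter (fun π => lv π = k)).card = 1)
    (h2 : ∀ x ∈ 𝒢, ∀ π ∈ x.2, lv π ∈ K → ∀ π' ∈ B (lv π), (x.1, insert π' (x.2.erase π)) ∈ 𝒢)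
    (F : ℕ × Finset ℕ → ℝ) :
    ∑ x ∈ 𝒢, F x = ∑ y ∈ 𝒢.image (fun x => (x.1, x.2.filter (fun π => lv π ∉ K))),
      ∑ s ∈ Sel K, F (y.1, y.2 ∪ s) := by
  have e1 : ∀ g : Finset ℕ, g.filter (fun π => lv π ∉ K) ∪ g.filter (fun π => lv π ∈ K) = g :=
    fun g => by rw [union_comm, filter_union_filter_not_eq]
  have h3 : ∀ x ∈ 𝒢, x.2.filter (fun π => lv π ∈ K) ∈ Sel K := fun x hx =>
    mem_Sel.2 ⟨fun π hπ => ⟨(h1 x hx).1 π (mem_filter.1 hπ).1, (mem_filter.1 hπ).2⟩, fun k hk => by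
      rw [filter_filter, ← (h1 x hx).2 k hk]
      exact congrArg card (filter_congr fun π _ => and_iff_right_of_imp fun h => h ▸ hk)⟩
  have h4 : ∀ s ∈ Sel K, ∀ n, ∀ x ∈ 𝒢, (s \ x.2).card = n →
      (x.1, x.2.filter (fun π => lv π ∉ K) ∪ s) ∈ 𝒢 := fun s hs n => by
    obtain ⟨s1, s2⟩ := mem_Sel.1 hs
    induction n using Nat.strong_induction_on with
    | _ n ih =>
      intro x hx hn
      rcases (s \ x.2).eq_empty_or_nonempty with h | ⟨π', h⟩
      · rw [eq_of_subset_of_card_le (s := s) (t := x.2.filter (fun π => lv π ∈ K))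
          (fun π hπ => mem_filter.2 ⟨sdiff_eq_empty_iff_subset.1 h hπ, (s1 π hπ).2⟩)
          (by rw [card_of_mem_Sel hs, card_of_mem_Sel (h3 x hx)]), e1]
        exact hx
      · obtain ⟨a1, a2⟩ := mem_sdiff.1 h
        have a3 := (s1 π' a1).2
        obtain ⟨π, hπ⟩ := card_pos.1 (((h1 x hx).2 _ a3).symm ▸ one_pos)
        obtain ⟨b1, b2⟩ := mem_filter.1 hπ
        have h6 : s \ insert π' (x.2.erase π) ⊂ s \ x.2 := by
          refine (ssubset_iff_of_subset fun y hy => ?_).2 ⟨π', h, by simp⟩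
          obtain ⟨c1, c2⟩ := mem_sdiff.1 hy
          refine mem_sdiff.2 ⟨c1, fun c3 => c2 (mem_insert.2 (or_iff_not_imp_left.2 fun c4 =>
            mem_erase.2 ⟨fun c5 => c4 ?_, c3⟩))⟩
          exact card_le_one.1 (s2 _ a3).le _ (mem_filter.2 ⟨c1, c5 ▸ b2⟩) _ (mem_filter.2 ⟨a1, rfl⟩)
        have h5 := ih _ (hn ▸ card_lt_card h6) _
          (h2 x hx π b1 (b2 ▸ a3) π' (mem_B.2 ⟨(s1 π' a1).1, b2.symm⟩)) rfl
        have h7 : π ∉ x.2.filter (fun π => lv π ∉ K) := fun h => (mem_filter.1 h).2 (b2 ▸ a3)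
        rwa [filter_insert, if_neg (not_not.2 a3), filter_erase, erase_eq_of_notMem h7] at h5
  rw [← sum_product']
  refine sum_nbij' (fun x => ((x.1, x.2.filter (fun π => lv π ∉ K)), x.2.filter (fun π => lv π ∈ K)))
    (fun z => (z.1.1, z.1.2 ∪ z.2))
    (fun x hx => mem_product.2 ⟨mem_image_of_mem _ hx, h3 x hx⟩) (fun z hz => ?_)
    (fun x _ => Prod.ext rfl (e1 _)) (fun z hz => ?_) fun x _ => by simp only [e1]
  · obtain ⟨x, hx, e⟩ := mem_image.1 (mem_product.1 hz).1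
    rw [← e]
    exact h4 _ (mem_product.1 hz).2 _ x hx rfl
  · obtain ⟨x, hx, e⟩ := mem_image.1 (mem_product.1 hz).1
    have c1 : ∀ π ∈ z.1.2, lv π ∉ K := fun π hπ => (mem_filter.1 (e ▸ hπ :)).2
    have c2 : ∀ π ∈ z.2, lv π ∈ K := fun π hπ => ((mem_Sel.1 (mem_product.1 hz).2).1 π hπ).2
    refine Prod.ext (Prod.ext rfl ?_) ?_
    · simp only [filter_union]
      rw [filter_true_of_mem c1, filter_false_of_mem fun π hπ => not_not.2 (c2 π hπ), union_empty]
    · simp only [filter_union]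
      rw [filter_false_of_mem c1, filter_true_of_mem c2, empty_union]

end Crest.Agent.R1
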