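import Crest.Agent.R1.Good
import Crest.Agent.R1.Primes

/-!
# R1 / Shift : moving the largest prime down

Let `x = (p, g) ∈ G1`, `t = lv p ≤ tm`, `ρ* = max g`, `k = lv ρ*`, `h = g.erase ρ*`.  By `¬ BadOne` there is `π₂ ∈ h` with
`lv π₂ ≥ η`; by `¬ BadClose η Δ` every `π ∈ h` with `lv π ≥ η` has `lv π + Δ < k`, hence every `π ∈ h` has
`lv π + Δ < k`.  `R = T - sg g - t` satisfies `1 ≤ R ≤ 2t` (`Supp.room`, `IsBd`).  Put `D = 2t - R < 2t`,
`k' = k - (D - D/4)`; `D - D/4 ≤ 2t ≤ Δ`, so `k' > lv π` for all `π ∈ h`, `k' > η`.  For every `ρ' ∈ B k'` the pair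
`(p, insert ρ' h)` is in `G2`: `Supp.replace`; the new room is `R' = 2t - D/4`, so `3t ≤ 2R' ≤ 4t`; ties can only
come from `h`; low slots from `exists_low_slots` (their levels are `≤ b < η`, so they are levels of elements of
`h`), top slots `lv π₂ < k'`.
Counting: `∑_{x ∈ G1} wb x ≤ ∑_{(p,h,k)} wt h/(p t) · mm k` over the image `𝒫` of `x ↦ (p, h, k)`,
`mm k ≤ 2/k ≤ 2/k' ≤ 4 mm k'` (`mm_two_sided`, `k' ≥ η ≥ j1`), the map `(p,h,k) ↦ (p,h,k')` is at most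
4-to-1 (`R' = T - sg h - k' - t` determines `D/4`, so `D` has `≤ 4` values and `k = k' + D - D/4`), and
`((p,h,k'), ρ') ↦ (p, insert ρ' h)` is injective (`ρ'` is the maximum).
-/

set_option autoImplicit false

noncomputable section

open scoped Classical

namespace Crest.Agent.R1

open Finset

theorem shift_mem {t0 Z T ω tm a ρ r η Δ : ℕ} (hΔ : 2 * tm ≤ Δ) (hb : 2 ^ r * ρ < η)
    (hr : 2 ^ r * ρ + Z ≤ T) {x : ℕ × Finset ℕ} (hx : x ∈ G1 t0 Z T ω tm a ρ (2 ^ r * ρ) η Δ) :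
    ∃ (ρs D : ℕ), ρs ∈ x.2 ∧ (∀ π ∈ x.2, π ≤ ρs) ∧ sg x.2 + 3 * lv x.1 = T + D ∧
      D - D / 4 + η < lv ρs ∧ (∀ π ∈ x.2.erase ρs, lv π + (D - D / 4) < lv ρs) ∧
      ∀ ρ' ∈ B (lv ρs - (D - D / 4)),
        (x.1, insert ρ' (x.2.erase ρs)) ∈ G2 t0 Z T ω tm a ρ (2 ^ r * ρ) r η := by
  obtain ⟨p, g⟩ := x
  obtain ⟨hBP, hω, htm, hbad⟩ := mem_filter.1 hx
  obtain ⟨hp, hg, hS, hodd, hmin, hT⟩ := mem_BP.1 hBP
  simp only [Bad, not_or] at hbad
  obtain ⟨hE, hTie, hOne, hClose⟩ := hbad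
  dsimp only at *
  have h2 : 1 < (g.filter (fun π => η ≤ lv π)).card := not_le.1 hOne
  have hc2 : 2 ≤ g.card := le_trans h2 (card_filter_le _ _)
  have hne : g.Nonempty := card_pos.1 (by omega)
  obtain ⟨ρs, hρs, hmax⟩ := exists_max_image g id hne
  simp only [id] at hmax
  obtain ⟨π2, hπ2, hπ2ne⟩ := exists_mem_ne h2 ρs
  obtain ⟨hπ2g, hπ2η⟩ := mem_filter.1 hπ2
  have hfar : ∀ π ∈ g, π ≠ ρs → η ≤ lv π → lv π + Δ < lv ρs := fun π hπ hne hη => by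
    by_contra hc
    exact hClose ⟨π, hπ, ρs, hρs, hne, hη, lv_mono (hmax π hπ), not_lt.1 hc⟩
  have hf2 := hfar π2 hπ2g hπ2ne hπ2η
  have hroom := hS.room hc2 fun π hπ => (hmin π hπ).le
  obtain ⟨D, hD⟩ := Nat.exists_eq_add_of_le hT
  have hall : ∀ π ∈ g.erase ρs, lv π + (D - D / 4) < lv ρs := fun π hπ => by
    obtain ⟨h3, h4⟩ := mem_erase.1 hπ
    by_cases hη : η ≤ lv π
    · have := hfar π h4 h3 hη
      omega
    · omega
  refine ⟨ρs, D, hρs, hmax, hD, by omega, hall, fun ρ' hρ' => ?_⟩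
  obtain ⟨hpr, hlv⟩ := mem_B.1 hρ'
  have hlt : ∀ π ∈ g.erase ρs, lv π < lv ρ' := fun π hπ => by
    have := hall π hπ
    omega
  have hnot : ρ' ∉ g.erase ρs := fun h => lt_irrefl _ (hlt ρ' h)
  have hπ2e : π2 ∈ g.erase ρs := mem_erase.2 ⟨hπ2ne, hπ2g⟩
  have hsg : sg g = lv ρs + sg (g.erase ρs) := by
    conv_lhs => rw [← insert_erase hρs, sg_insert (notMem_erase _ _)]
  have hsg' := sg_insert hnot
  have hcard : (insert ρ' (g.erase ρs)).card = g.card := by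
    rw [card_insert_of_notMem hnot, card_erase_add_one hρs]
  have htie : ∀ π ∈ insert ρ' (g.erase ρs), ∀ π' ∈ insert ρ' (g.erase ρs), π ≠ π' → lv π = lv π' →
      π ∈ g ∧ π' ∈ g := fun π hπ π' hπ' hne he => by
    rcases mem_insert.1 hπ with rfl | h3 <;> rcases mem_insert.1 hπ' with rfl | h4
    · exact absurd rfl hne
    · exact absurd he (hlt _ h4).ne'
    · exact absurd he (hlt _ h3).ne
    · exact ⟨mem_of_mem_erase h3, mem_of_mem_erase h4⟩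
  have hlow : ∀ j ∈ g.image lv, j < η → j ∈ (insert ρ' (g.erase ρs)).image lv := fun j hj hη => by
    obtain ⟨π, hπ, rfl⟩ := mem_image.1 hj
    refine mem_image_of_mem _ (mem_insert_of_mem (mem_erase.2 ⟨?_, hπ⟩))
    rintro rfl
    omega
  obtain ⟨j0, J, s1, s2, s3, s4, s5, s6⟩ :=
    exists_low_slots hS (fun π hπ => (hg π hπ).2.2) hE hTie hr
  have hρb : ρ ≤ 2 ^ r * ρ := Nat.le_mul_of_pos_left _ (by positivity)
  refine mem_filter.2 ⟨mem_BP.2 ⟨hp, fun π hπ => ?_, ?_, ?_, fun π hπ => ?_, ?_⟩, ?_, htm, ?_, ?_, ?_,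
    (j0, J, lv π2, lv ρ'), hlow _ s1 (by omega), s2, s3,
    fun j hj => hlow _ (s4 hj) (by have := s6 j hj; omega), s5, s6,
    mem_image_of_mem _ (mem_insert_of_mem hπ2e), mem_image_of_mem _ (mem_insert_self _ _), hπ2η,
    hlt _ hπ2e⟩
  · rcases mem_insert.1 hπ with rfl | h3
    · have h4 := hg π2 hπ2g
      have h5 := hg ρs hρs
      have h6 := hlt π2 hπ2e
      exact ⟨hpr, by omega, by omega⟩
    · exact hg π (mem_of_mem_erase h3)
  · exact hS.replace hρs (fun y hy hne => ⟨fun _ => lt_of_lv_lt (hlt y (mem_erase.2 ⟨hne, hy⟩)),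
      fun h => absurd (hmax y hy) (not_le.2 h)⟩) (by omega)
  · dsimp only
    rwa [hcard]
  · rcases mem_insert.1 hπ with rfl | h3
    · exact (hmin π2 hπ2g).trans (lt_of_lv_lt (hlt π2 hπ2e))
    · exact hmin π (mem_of_mem_erase h3)
  · dsimp only
    omega
  · dsimp only
    omega
  · dsimp only
    omega
  · rintro ⟨π, hπ, π', hπ', hne, he, h3⟩
    obtain ⟨h4, h5⟩ := htie π hπ π' hπ' hne he
    exact hTie ⟨π, h4, π', h5, hne, he, h3⟩
  · rintro ⟨π, hπ, π', hπ', hne, h1, h3, h6⟩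
    obtain ⟨h4, h5⟩ := htie π hπ π' hπ' hne (by omega)
    exact hClose ⟨π, h4, π', h5, hne, h1, h3, by omega⟩

/-- the largest element -/
def shMax (y : ℕ × Finset ℕ) : ℕ := y.2.sup id

/-- the least possible level of the largest prime before the shift -/
def shLev (T : ℕ) (y : ℕ × Finset ℕ) : ℕ := lv (shMax y) + 3 * (sg y.2 + 3 * lv y.1 - T)

theorem sh_max {p ρ' : ℕ} {h : Finset ℕ} (hlt : ∀ π ∈ h, lv π < lv ρ') :
    shMax (p, insert ρ' h) = ρ' := by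
  unfold shMax
  rw [sup_insert]
  exact sup_eq_left.2 (Finset.sup_le fun π hπ => (lt_of_lv_lt (hlt π hπ)).le)

theorem sh_wb {p π : ℕ} {h : Finset ℕ} (hπ : π ∉ h) :
    wb (p, insert π h) = 1 / (π : ℝ) * wb (p, h) := by
  unfold wb
  rw [wt_insert hπ, mul_div_assoc]

theorem shift_le (hP : PAP) : ∃ j1 : ℕ, ∀ t0 Z T ω tm a ρ r η Δ : ℕ, j1 ≤ η → 2 * tm ≤ Δ →
    2 ^ r * ρ < η → 2 ^ r * ρ + Z ≤ T →
    ∑ x ∈ G1 t0 Z T ω tm a ρ (2 ^ r * ρ) η Δ, wb x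
      ≤ 16 * ∑ x ∈ G2 t0 Z T ω tm a ρ (2 ^ r * ρ) r η, wb x := by
  obtain ⟨j1, hj1, hmm⟩ := mm_two_sided hP
  refine ⟨j1, fun t0 Z T ω tm a ρ r η Δ hη hΔ hb hr => ?_⟩
  have key := fun x (hx : x ∈ G1 t0 Z T ω tm a ρ (2 ^ r * ρ) η Δ) => shift_mem hΔ hb hr hx
  have hprime : ∀ x ∈ G1 t0 Z T ω tm a ρ (2 ^ r * ρ) η Δ, ∀ π ∈ x.2, π.Prime := fun x hx π hπ =>
    ((mem_BP.1 (mem_filter.1 hx).1).2.1 π hπ).1
  have hG2 : ∀ y ∈ G2 t0 Z T ω tm a ρ (2 ^ r * ρ) r η, j1 ≤ lv (shMax y) := fun y hy => by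
    obtain ⟨k, -, -, -, -, -, -, h1, -, h2, -⟩ := (mem_filter.1 hy).2.2.2.2.2.2
    obtain ⟨π, hπ, he⟩ := mem_image.1 h1
    have : π ≤ shMax y := le_sup (f := id) hπ
    have := lv_mono this
    omega
  generalize G1 t0 Z T ω tm a ρ (2 ^ r * ρ) η Δ = A at key hprime ⊢
  generalize G2 t0 Z T ω tm a ρ (2 ^ r * ρ) r η = A' at key hG2 ⊢
  choose! ρs D h1 h2 h3 h4 h5 h6 using key
  set I : Finset ((_ : ℕ × Finset ℕ) × ℕ) := A.sigma fun x => B (lv (ρs x) - (D x - D x / 4)) with hI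
  set J : Finset ((_ : ℕ × Finset ℕ) × ℕ) := A'.sigma fun y => PL (shLev T y) (shLev T y + 3) with hJ
  set F : ((_ : ℕ × Finset ℕ) × ℕ) → ((_ : ℕ × Finset ℕ) × ℕ) :=
    fun i => ⟨(i.1.1, insert i.2 (i.1.2.erase (ρs i.1))), ρs i.1⟩ with hF
  set φ : ((_ : ℕ × Finset ℕ) × ℕ) → ℝ := fun j => 2 * lv (shMax j.1) * wb j.1 * (1 / (j.2 : ℝ))
    with hφ
  have hlt : ∀ x ∈ A, ∀ ρ' ∈ B (lv (ρs x) - (D x - D x / 4)), ∀ π ∈ x.2.erase (ρs x),
      lv π < lv ρ' := fun x hx ρ' hρ' π hπ => by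
    have := h5 x hx π hπ
    have := (mem_B.1 hρ').2
    omega
  have hnot : ∀ x ∈ A, ∀ ρ' ∈ B (lv (ρs x) - (D x - D x / 4)), ρ' ∉ x.2.erase (ρs x) :=
    fun x hx ρ' hρ' h => lt_irrefl _ (hlt x hx ρ' hρ' ρ' h)
  have a1 : ∑ x ∈ A, wb x ≤ ∑ i ∈ I, φ (F i) := by
    rw [hI, sum_sigma]
    refine sum_le_sum fun x hx => ?_
    have e1 : ∑ ρ' ∈ B (lv (ρs x) - (D x - D x / 4)), φ (F ⟨x, ρ'⟩) =
        2 * ((lv (ρs x) - (D x - D x / 4) : ℕ) : ℝ) * mm (lv (ρs x) - (D x - D x / 4)) * wb x := by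
      have e2 : wb x = 1 / (ρs x : ℝ) * wb (x.1, x.2.erase (ρs x)) := by
        rw [← sh_wb (notMem_erase _ _), insert_erase (h1 x hx)]
      rw [mm, mul_sum, sum_mul]
      refine sum_congr rfl fun ρ' hρ' => ?_
      simp only [hφ, hF]
      rw [sh_max (hlt x hx ρ' hρ'), sh_wb (hnot x hx ρ' hρ'), (mem_B.1 hρ').2, e2]
      ring
    rw [e1]
    have b1 : j1 ≤ lv (ρs x) - (D x - D x / 4) := by
      have := h4 x hx
      omega
    have b2 := (hmm _ b1).1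
    have b3 : (0 : ℝ) < ((lv (ρs x) - (D x - D x / 4) : ℕ) : ℝ) := by exact_mod_cast (by omega)
    rw [div_le_iff₀' (by positivity)] at b2
    exact le_mul_of_one_le_left (wb_nonneg x) b2
  have a2 : Set.InjOn F I := by
    rintro ⟨x, ρ'⟩ hi ⟨x', ρ''⟩ hi' he
    obtain ⟨hx, hρ'⟩ := mem_sigma.1 (mem_coe.1 hi)
    obtain ⟨hx', hρ''⟩ := mem_sigma.1 (mem_coe.1 hi')
    dsimp only at hx hρ' hx' hρ''
    simp only [hF, Sigma.mk.injEq, heq_eq_eq] at he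
    obtain ⟨he1, he2⟩ := he
    have b1 : ρ' = ρ'' := by
      rw [← sh_max (p := x.1) (hlt x hx ρ' hρ'), he1, sh_max (hlt x' hx' ρ'' hρ'')]
    subst b1
    obtain ⟨he3, he4⟩ := Prod.mk.inj he1
    have b2 : x.2.erase (ρs x) = x'.2.erase (ρs x') := by
      rw [← erase_insert (hnot x hx ρ' hρ'), he4, erase_insert (hnot x' hx' ρ' hρ'')]
    have b3 : x.2 = x'.2 := by
      rw [← insert_erase (h1 x hx), b2, he2, insert_erase (h1 x' hx')]
    rw [Prod.ext he3 b3]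
  have a3 : I.image F ⊆ J := by
    intro j hj
    obtain ⟨⟨x, ρ'⟩, hi, rfl⟩ := mem_image.1 hj
    obtain ⟨hx, hρ'⟩ := mem_sigma.1 hi
    dsimp only at hx hρ'
    refine mem_sigma.2 ⟨h6 x hx ρ' hρ', ?_⟩
    simp only [hF, shLev]
    rw [sh_max (hlt x hx ρ' hρ'), sg_insert (hnot x hx ρ' hρ'), (mem_B.1 hρ').2, mem_PL]
    have b1 : sg x.2 = lv (ρs x) + sg (x.2.erase (ρs x)) := by
      conv_lhs => rw [← insert_erase (h1 x hx), sg_insert (notMem_erase _ _)]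
    have b2 := h3 x hx
    have b3 := h4 x hx
    exact ⟨hprime x hx _ (h1 x hx), by omega, by omega⟩
  have hφ0 : ∀ j, 0 ≤ φ j := fun j => by
    have := wb_nonneg j.1
    simp only [hφ]
    positivity
  have a4 : ∑ j ∈ J, φ j ≤ 16 * ∑ y ∈ A', wb y := by
    rw [hJ, sum_sigma, mul_sum]
    refine sum_le_sum fun y hy => ?_
    simp only [hφ]
    rw [← mul_sum, sum_PL]
    have b1 := hG2 y hy
    have b2 : (0 : ℝ) < lv (shMax y) := by exact_mod_cast (by omega)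
    have b3 : ∑ j ∈ Icc (shLev T y) (shLev T y + 3), ∑ p ∈ B j, 1 / (p : ℝ) ≤
        4 * (2 / lv (shMax y)) := by
      refine (sum_le_card_nsmul _ _ (2 / (lv (shMax y) : ℝ)) fun j hj => ?_).trans ?_
      · have c1 : lv (shMax y) ≤ j := le_trans (Nat.le_add_right _ _) (mem_Icc.1 hj).1
        refine (hmm j (b1.trans c1)).2.trans ?_
        have c2 : (lv (shMax y) : ℝ) ≤ j := by exact_mod_cast c1
        gcongr
      · rw [Nat.card_Icc, show shLev T y + 3 + 1 - shLev T y = 4 by omega, nsmul_eq_mul]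
        norm_num
    have b4 := wb_nonneg y
    calc _ ≤ 2 * lv (shMax y) * wb y * (4 * (2 / lv (shMax y))) := by gcongr
      _ = _ := by field_simp; ring
  refine a1.trans (le_trans ?_ a4)
  rw [← sum_image a2]
  exact sum_le_sum_of_subset_of_nonneg a3 fun j _ _ => hφ0 j

end Crest.Agent.R1
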