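import Crest.Agent.R1.Var

/-!
# R1 / Special : few residue classes are special


-/

set_option autoImplicit false

noncomputable section

open scoped Classical

namespace Crest.Agent.R1

open Finset

theorem spc_inv_sq (Y : ℕ) : ∑ h ∈ Icc 1 Y, 1 / ((h : ℝ) * h) ≤ 2 := by
  have : ∀ Y : ℕ, ∑ h ∈ Icc 1 (Y + 1), 1 / ((h : ℝ) * h) ≤ 2 - 1 / ((Y : ℝ) + 1) := by
    intro Y
    induction Y with
    | zero => norm_num
    | succ Y ih =>
      rw [sum_Icc_succ_top (by omega)]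
      have h0 : (0 : ℝ) ≤ Y := by positivity
      have : 1 / (((Y + 1 + 1 : ℕ) : ℝ) * ((Y + 1 + 1 : ℕ) : ℝ)) ≤ 1 / ((Y : ℝ) + 1) - 1 / (((Y + 1 : ℕ) : ℝ) + 1) := by
        push_cast
        rw [div_sub_div _ _ (by positivity) (by positivity), div_le_div_iff₀ (by positivity) (by positivity)]
        nlinarith
      linarith
  rcases Y with _ | Y
  · simp
  · have h1 := this Y
    have : 0 ≤ 1 / ((Y : ℝ) + 1) := by positivity
    linarith

theorem spc_harm (Y : ℕ) : ∑ h ∈ Icc 1 Y, 1 / (h : ℝ) ≤ 1 + Real.log Y := by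
  have := harmonic_le_one_add_log Y
  rw [harmonic_eq_sum_Icc] at this
  push_cast at this
  simpa only [one_div] using this

theorem spc_eq {Y e e' h h' : ℕ} (he : ∀ π : ℕ, π.Prime → π ∣ e → Y < π)
    (he' : ∀ π : ℕ, π.Prime → π ∣ e' → Y < π) (he1 : 1 ≤ e) (hh : h ∈ Icc 1 Y) (hh' : h' ∈ Icc 1 Y)
    (h0 : h * e' = h' * e) : e = e' ∧ h = h' := by
  rw [mem_Icc] at hh hh'
  have c1 : Nat.Coprime e h := Nat.coprime_of_dvd (fun π hπ h1 h2 => by
    have := he π hπ h1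
    have := Nat.le_of_dvd (by omega) h2
    omega)
  have c2 : Nat.Coprime e' h' := Nat.coprime_of_dvd (fun π hπ h1 h2 => by
    have := he' π hπ h1
    have := Nat.le_of_dvd (by omega) h2
    omega)
  have h1 : e = e' := Nat.dvd_antisymm (c1.dvd_of_dvd_mul_left (h0 ▸ dvd_mul_left e h'))
    (c2.dvd_of_dvd_mul_left (h0 ▸ dvd_mul_left e' h))
  subst h1
  exact ⟨rfl, Nat.eq_of_mul_eq_mul_right he1 h0⟩

theorem Cor_nonneg (Y P : ℕ) (E : Finset ℕ) : 0 ≤ Cor Y P E := by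
  unfold Cor
  refine sum_nonneg (fun _ _ => sum_nonneg (fun _ _ => sum_nonneg (fun _ _ => sum_nonneg (fun _ _ => ?_))))
  split_ifs <;> positivity

/-- `h e' + h' e` is a non-zero integer of size `≤ 2 Y max(e,e')`, so it has `≤ K` prime divisors in `B j0`
(`card_B_dvd_le`); the same for `h e' - h' e` unless it vanishes.  If `h e' = h' e` then `e ∣ e'` (all prime
factors of `e` exceed `Y ≥ h`, so `e` is coprime to `h`) and `e' ∣ e`, so `e = e'`, `h = h'`; these terms give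
`|B| |E| ∑ 1/h² ≤ 2 |B| |E|`.  `∑_{h ≤ Y} 1/h ≤ 1 + log Y` (`harmonic_le_one_add_log`). -/
theorem cor_avg (j0 Y K : ℕ) (hj : 2 ≤ j0) (hY : 1 ≤ Y) (E : Finset ℕ)
    (hE : ∀ e ∈ E, 1 ≤ e ∧ (∀ π : ℕ, π.Prime → π ∣ e → Y < π) ∧ 2 * Y * e ≤ 2 ^ ((j0 - 1) * K)) :
    ∑ P ∈ B j0, Cor Y P E
      ≤ 2 * (B j0).card * E.card + 2 * K * (E.card : ℝ) ^ 2 * (1 + Real.log Y) ^ 2 := by
  have key : ∀ e ∈ E, ∀ e' ∈ E, ∀ h ∈ Icc 1 Y, ∀ h' ∈ Icc 1 Y,
      ∑ P ∈ B j0, (if (P : ℤ) ∣ (h : ℤ) * e' - (h' : ℤ) * e ∨ (P : ℤ) ∣ (h : ℤ) * e' + (h' : ℤ) * e then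
        1 / ((h : ℝ) * h') else 0)
      ≤ (if e = e' then (if h = h' then ((B j0).card : ℝ) * (1 / ((h : ℝ) * h')) else 0) else 0)
        + 2 * K * (1 / (h : ℝ) * (1 / (h' : ℝ))) := by
    intro e he e' he' h hh h' hh'
    obtain ⟨he1, he2, he3⟩ := hE e he
    obtain ⟨he1', he2', he3'⟩ := hE e' he'
    have hh1 := mem_Icc.1 hh
    have hh1' := mem_Icc.1 hh'
    have a1 : h * e' ≤ Y * e' := Nat.mul_le_mul_right _ hh1.2
    have a2 : h' * e ≤ Y * e := Nat.mul_le_mul_right _ hh1'.2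
    have a3 : 0 < h * e' := Nat.mul_pos hh1.1 he1'
    have a4 : h * e' + h' * e ≤ 2 ^ ((j0 - 1) * K) := by
      rw [mul_assoc] at he3 he3'
      omega
    have a5 : (h : ℤ) * e' + (h' : ℤ) * e ≤ 2 ^ ((j0 - 1) * K) := by exact_mod_cast a4
    have a6 : (0 : ℤ) < (h : ℤ) * e' := by exact_mod_cast a3
    have a7 : (0 : ℤ) ≤ (h' : ℤ) * e := by positivity
    have b1 : ((B j0).filter (fun P : ℕ => (P : ℤ) ∣ (h : ℤ) * e' + (h' : ℤ) * e)).card ≤ K :=
      card_B_dvd_le hj (by linarith) (by rw [abs_le]; constructor <;> linarith)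
    rw [← sum_filter, sum_const, nsmul_eq_mul, one_div_mul_one_div]
    have hpos : (0 : ℝ) ≤ 1 / ((h : ℝ) * h') := by positivity
    have hK : (0 : ℝ) ≤ K := by positivity
    by_cases hc : e = e' ∧ h = h'
    · rw [if_pos hc.1, if_pos hc.2]
      have : (((B j0).filter (fun P : ℕ => (P : ℤ) ∣ (h : ℤ) * e' - (h' : ℤ) * e ∨
          (P : ℤ) ∣ (h : ℤ) * e' + (h' : ℤ) * e)).card : ℝ) ≤ (B j0).card := by
        exact_mod_cast card_filter_le _ _
      nlinarith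
    · have b2 : ((B j0).filter (fun P : ℕ => (P : ℤ) ∣ (h : ℤ) * e' - (h' : ℤ) * e)).card ≤ K := by
        refine card_B_dvd_le hj (fun h0 => hc ?_) (by rw [abs_le]; constructor <;> linarith)
        exact spc_eq he2 he2' he1 hh hh' (by exact_mod_cast sub_eq_zero.1 h0)
      have b3 : ((B j0).filter (fun P : ℕ => (P : ℤ) ∣ (h : ℤ) * e' - (h' : ℤ) * e ∨
          (P : ℤ) ∣ (h : ℤ) * e' + (h' : ℤ) * e)).card ≤ 2 * K := by
        rw [filter_or]
        exact (card_union_le _ _).trans (by omega)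
      have b4 : (((B j0).filter (fun P : ℕ => (P : ℤ) ∣ (h : ℤ) * e' - (h' : ℤ) * e ∨
          (P : ℤ) ∣ (h : ℤ) * e' + (h' : ℤ) * e)).card : ℝ) ≤ 2 * K := by exact_mod_cast b3
      have b5 : (0 : ℝ) ≤ (if e = e' then (if h = h' then ((B j0).card : ℝ) * (1 / ((h : ℝ) * h')) else 0)
          else 0) := by
        split_ifs <;> positivity
      nlinarith
  have h1 : ∑ P ∈ B j0, Cor Y P E ≤ ∑ e ∈ E, ∑ e' ∈ E, ∑ h ∈ Icc 1 Y, ∑ h' ∈ Icc 1 Y,
      ((if e = e' then (if h = h' then ((B j0).card : ℝ) * (1 / ((h : ℝ) * h')) else 0) else 0)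
        + 2 * K * (1 / (h : ℝ) * (1 / (h' : ℝ)))) := by
    unfold Cor
    rw [sum_comm]
    refine sum_le_sum (fun e he => ?_)
    rw [sum_comm]
    refine sum_le_sum (fun e' he' => ?_)
    rw [sum_comm]
    refine sum_le_sum (fun h hh => ?_)
    rw [sum_comm]
    exact sum_le_sum (fun h' hh' => key e he e' he' h hh h' hh')
  refine h1.trans ?_
  simp only [sum_add_distrib]
  refine add_le_add ?_ ?_
  · calc _ = ∑ e ∈ E, ∑ h ∈ Icc 1 Y, ((B j0).card : ℝ) * (1 / ((h : ℝ) * h)) := by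
          refine sum_congr rfl (fun e he => ?_)
          rw [sum_eq_single_of_mem e he (fun e' _ hne => by simp [Ne.symm hne])]
          refine sum_congr rfl (fun h hh => ?_)
          simp only [if_true]
          rw [sum_ite_eq, if_pos hh]
      _ ≤ ∑ e ∈ E, ((B j0).card : ℝ) * 2 := by
          refine sum_le_sum (fun e _ => ?_)
          rw [← mul_sum]
          exact mul_le_mul_of_nonneg_left (spc_inv_sq Y) (by positivity)
      _ = _ := by rw [sum_const, nsmul_eq_mul]; ring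
  · simp only [← mul_sum, ← sum_mul, sum_const, nsmul_eq_mul]
    have h2 := spc_harm Y
    have h3 : 0 ≤ ∑ h ∈ Icc 1 Y, 1 / (h : ℝ) := sum_nonneg (fun _ _ => by positivity)
    have h4 := mul_le_mul h2 h2 h3 (h3.trans h2)
    have h5 : (0 : ℝ) ≤ 2 * K * (E.card : ℝ) ^ 2 := by positivity
    nlinarith [mul_le_mul_of_nonneg_left h4 h5]

/-- `Dev ν I P E` depends only on `ν` modulo `P Q` -/
theorem Dev_congr {ν ν' : ℤ} {P Q : ℕ} {E : Finset ℕ} (hE : ∀ e ∈ E, e ∣ Q) (I : ℕ)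
    (h : ((P * Q : ℕ) : ℤ) ∣ ν - ν') : Dev ν I P E = Dev ν' I P E := by
  unfold Dev
  refine sum_congr rfl (fun e he => ?_)
  have h1 : ((P * e : ℕ) : ℤ) ∣ ν - ν' :=
    (Int.natCast_dvd_natCast.2 (Nat.mul_dvd_mul_left P (hE e he))).trans h
  have : cnt ν I (P * e) = cnt ν' I (P * e) := by
    unfold cnt
    congr 1
    refine filter_congr (fun j _ => ?_)
    rw [show ν + j = (ν - ν') + (ν' + j) by ring, dvd_add_right h1]
  rw [this]

theorem abs_Dev_le (ν : ℤ) (I P : ℕ) (hP : 1 ≤ P) {E : Finset ℕ} (hE : ∀ e ∈ E, 1 ≤ e) :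
    |Dev ν I P E| ≤ E.card := by
  unfold Dev
  refine (abs_sum_le_sum_abs _ _).trans ?_
  calc _ ≤ ∑ e ∈ E, (1 : ℝ) := by
        refine sum_le_sum (fun e he => ?_)
        have := cnt_approx ν I (P * e) (Nat.mul_pos hP (hE e he))
        rwa [Nat.cast_mul] at this
    _ = E.card := by simp

/-- Put `Y = 2^j0`, `n = |E| ≥ Y`, `V_P = 2 P Cor Y P E + 2 n²/P`.  By `cor_avg` (`log Y ≤ j0`, `P ≤ Y ≤ n`,
`Y ≤ 4 j0 |B|`): `∑_P V_P ≤ |B| n² (4 + 16 K j0 (1+j0)² + 2) ≤ |B| n² L`.  Call `P` regular if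
`V_P ≤ 8 E0² L n²`; at most `|B|/(8 E0²)` primes are irregular.  For regular `P ∈ B j0` let `Sp ν0 I P` be the image
under `κ ↦ ((ν0 + Qκ) % P).toNat` of `{κ < P : |Dev (ν0 + Qκ) I P E| > n/(8 E0²)}` (by `variance` and
Chebyshev it has `≤ 8 E0² L · 64 E0⁴` elements), and `∅` for all other `P`.  Given `ν`, put `ν0 = ν % Q`,
`κ_P = ((ν / Q) % P).toNat`; then `ν ≡ ν0 + Q κ_P` mod `P Q` (`Dev_congr`).  So
`∑_P |Dev ν| ≤ n (#irregular + #special) + |B| n/(8 E0²)`, and the hypothesis gives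
`#special > |B|/(4 E0²)`. -/
theorem block_special (j0 K Q E0 L : ℕ) (E : Finset ℕ) (hj : 2 ≤ j0) (hE0 : 1 ≤ E0) (hQ : 1 ≤ Q)
    (hQP : ∀ P ∈ B j0, Nat.Coprime Q P)
    (hE : ∀ e ∈ E, e ∣ Q ∧ (∀ π : ℕ, π.Prime → π ∣ e → 2 ^ j0 < π) ∧
      2 * 2 ^ j0 * e ≤ 2 ^ ((j0 - 1) * K))
    (hEc : 2 ^ j0 ≤ E.card) (hB : 2 ^ j0 ≤ 4 * j0 * (B j0).card)
    (hL : 6 + 16 * K * j0 * (1 + j0) ^ 2 ≤ L) :
    ∃ Sp : ℕ → ℕ → ℕ → Finset ℕ, (∀ ν0 I P, (Sp ν0 I P).card ≤ 512 * L * E0 ^ 6) ∧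
      ∀ (ν : ℤ) (I : ℕ),
        ((B j0).card : ℝ) * E.card / (2 * (E0 : ℝ) ^ 2) < ∑ P ∈ B j0, |Dev ν I P E| →
        (B j0).card ≤ 4 * E0 ^ 2 *
          ((B j0).filter (fun P : ℕ => (ν % P).toNat ∈ Sp (ν % Q).toNat I P)).card := by
  have he1 : ∀ e ∈ E, 1 ≤ e := fun e he => Nat.pos_of_dvd_of_pos (hE e he).1 hQ
  have heQ : ∀ e ∈ E, e ∣ Q := fun e he => (hE e he).1
  have hPY : ∀ P ∈ B j0, P.Prime ∧ P ≤ 2 ^ j0 := fun P hP =>
    ⟨(mem_B.1 hP).1, lv_le_iff.1 (mem_B.1 hP).2.le⟩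
  set n : ℝ := (E.card : ℝ) with hn
  set b : ℝ := ((B j0).card : ℝ) with hb
  set F : ℝ := (E0 : ℝ) ^ 2 with hF
  have hb0 : 0 ≤ b := by positivity
  have hF0 : 0 < F := by
    have : (0 : ℝ) < E0 := by exact_mod_cast hE0
    positivity
  have hY0 : (0 : ℝ) < ((2 ^ j0 : ℕ) : ℝ) := by positivity
  have hnY : ((2 ^ j0 : ℕ) : ℝ) ≤ n := by rw [hn]; exact_mod_cast hEc
  have hn0 : 0 < n := hY0.trans_le hnY
  have hYb : ((2 ^ j0 : ℕ) : ℝ) ≤ 4 * j0 * b := by rw [hb]; exact_mod_cast hB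
  have hL' : (6 : ℝ) + 16 * K * j0 * (1 + j0) ^ 2 ≤ L := by exact_mod_cast hL
  have hL0 : (0 : ℝ) < L := lt_of_lt_of_le (by positivity) hL'
  set V : ℕ → ℝ := fun P => 2 * P * Cor (2 ^ j0) P E + 2 * n ^ 2 / P with hV
  have hV0 : ∀ P, 0 ≤ V P := fun P => by
    have := Cor_nonneg (2 ^ j0) P E
    simp only [hV]
    positivity
  have hVs : ∑ P ∈ B j0, V P ≤ L * b * n ^ 2 := by
    have h1 := cor_avg j0 (2 ^ j0) K hj Nat.one_le_two_pow E
      (fun e he => ⟨he1 e he, (hE e he).2.1, (hE e he).2.2⟩)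
    rw [← hn, ← hb] at h1
    have h2 : Real.log ((2 ^ j0 : ℕ) : ℝ) ≤ j0 := by
      rw [Nat.cast_pow, Real.log_pow, Nat.cast_ofNat]
      have := Real.log_two_lt_d9
      have : (0 : ℝ) ≤ j0 := by positivity
      nlinarith
    have h3 : 0 ≤ Real.log ((2 ^ j0 : ℕ) : ℝ) := Real.log_natCast_nonneg _
    have h4 : (1 + Real.log ((2 ^ j0 : ℕ) : ℝ)) ^ 2 ≤ (1 + (j0 : ℝ)) ^ 2 :=
      pow_le_pow_left₀ (by linarith) (by linarith) 2
    set Y : ℝ := ((2 ^ j0 : ℕ) : ℝ) with hY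
    have h5 : ∑ P ∈ B j0, V P ≤ ∑ P ∈ B j0, (2 * Y * Cor (2 ^ j0) P E + 2 * n ^ 2) := by
      refine sum_le_sum (fun P hP => add_le_add ?_ ?_)
      · have : (P : ℝ) ≤ Y := by rw [hY]; exact_mod_cast (hPY P hP).2
        exact mul_le_mul_of_nonneg_right (by linarith) (Cor_nonneg _ _ _)
      · exact div_le_self (by positivity) (by exact_mod_cast (hPY P hP).1.one_le)
    rw [sum_add_distrib (f := fun P => 2 * Y * Cor (2 ^ j0) P E), ← mul_sum, sum_const, nsmul_eq_mul,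
      ← hb] at h5
    have h6 : ∑ P ∈ B j0, Cor (2 ^ j0) P E ≤ 2 * b * n + 2 * K * n ^ 2 * (1 + (j0 : ℝ)) ^ 2 :=
      h1.trans (add_le_add le_rfl (mul_le_mul_of_nonneg_left h4 (by positivity)))
    have h7 := mul_le_mul_of_nonneg_left h6 (by positivity : 0 ≤ 2 * Y)
    have h8 : Y * (b * n) ≤ n * (b * n) := mul_le_mul_of_nonneg_right hnY (by positivity)
    have h9 : Y * (K * n ^ 2 * (1 + (j0 : ℝ)) ^ 2) ≤ 4 * j0 * b * (K * n ^ 2 * (1 + (j0 : ℝ)) ^ 2) :=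
      mul_le_mul_of_nonneg_right hYb (by positivity)
    have h10 := mul_le_mul_of_nonneg_right hL' (by positivity : 0 ≤ b * n ^ 2)
    nlinarith
  have hirr : (((B j0).filter (fun P => ¬ V P ≤ 8 * F * L * n ^ 2)).card : ℝ) * (8 * F) ≤ b := by
    have h1 : ∑ P ∈ (B j0).filter (fun P => ¬ V P ≤ 8 * F * L * n ^ 2), 8 * F * L * n ^ 2 ≤
        ∑ P ∈ (B j0).filter (fun P => ¬ V P ≤ 8 * F * L * n ^ 2), V P :=
      sum_le_sum (fun P hP => (not_le.1 (mem_filter.1 hP).2).le)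
    have h2 : ∑ P ∈ (B j0).filter (fun P => ¬ V P ≤ 8 * F * L * n ^ 2), V P ≤ ∑ P ∈ B j0, V P :=
      sum_le_sum_of_subset_of_nonneg (filter_subset _ _) (fun P _ _ => hV0 P)
    rw [sum_const, nsmul_eq_mul] at h1
    refine le_of_mul_le_mul_right ?_ (by positivity : 0 < L * n ^ 2)
    nlinarith
  refine ⟨fun ν0 I P => if P ∈ B j0 ∧ V P ≤ 8 * F * L * n ^ 2 then
      ((range P).filter (fun κ : ℕ => n / (8 * F) < |Dev (ν0 + Q * κ) I P E|)).image
        (fun κ : ℕ => (((ν0 : ℤ) + Q * κ) % P).toNat) else ∅, fun ν0 I P => ?_, fun ν I hν => ?_⟩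
  · simp only
    split_ifs with hc
    · refine card_image_le.trans ?_
      have h1 := variance P (2 ^ j0) Q (hPY P hc.1).1 (hPY P hc.1).2 hQ (hQP P hc.1) E heQ ν0 I
      have h2 : ∑ κ ∈ (range P).filter (fun κ : ℕ => n / (8 * F) < |Dev (ν0 + Q * κ) I P E|),
          (n / (8 * F)) ^ 2 ≤ ∑ κ ∈ (range P).filter (fun κ : ℕ => n / (8 * F) < |Dev (ν0 + Q * κ) I P E|),
          Dev (ν0 + Q * κ) I P E ^ 2 := by
        refine sum_le_sum (fun κ hκ => ?_)
        rw [← sq_abs (Dev _ _ _ _)]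
        exact pow_le_pow_left₀ (by positivity) (mem_filter.1 hκ).2.le 2
      have h3 : ∑ κ ∈ (range P).filter (fun κ : ℕ => n / (8 * F) < |Dev (ν0 + Q * κ) I P E|),
          Dev (ν0 + Q * κ) I P E ^ 2 ≤ ∑ κ ∈ range P, Dev (ν0 + Q * κ) I P E ^ 2 :=
        sum_le_sum_of_subset_of_nonneg (filter_subset _ _) (fun _ _ _ => sq_nonneg _)
      rw [sum_const, nsmul_eq_mul] at h2
      have h4 := h2.trans (h3.trans (h1.trans hc.2))
      set s : ℝ := (((range P).filter (fun κ : ℕ => n / (8 * F) < |Dev (ν0 + Q * κ) I P E|)).card : ℝ)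
        with hs
      have h5 : s ≤ 512 * L * F ^ 3 := by
        rw [div_pow, ← mul_div_assoc, div_le_iff₀ (by positivity)] at h4
        refine le_of_mul_le_mul_right ?_ (by positivity : 0 < n ^ 2)
        nlinarith
      have h6 : s ≤ ((512 * L * E0 ^ 6 : ℕ) : ℝ) := by
        refine h5.trans (le_of_eq ?_)
        rw [hF]; push_cast; ring
      rw [hs] at h6
      exact_mod_cast h6
    · simp
  · set Sp : Finset ℕ := (B j0).filter (fun P : ℕ => (ν % P).toNat ∈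
      (fun (ν0 I P : ℕ) => if P ∈ B j0 ∧ V P ≤ 8 * F * L * n ^ 2 then
      ((range P).filter (fun κ : ℕ => n / (8 * F) < |Dev (ν0 + Q * κ) I P E|)).image
        (fun κ : ℕ => (((ν0 : ℤ) + Q * κ) % P).toNat) else ∅) (ν % Q).toNat I P) with hSp
    have h1 : ∀ P ∈ B j0, |Dev ν I P E| ≤ n / (8 * F) +
        (if ¬ V P ≤ 8 * F * L * n ^ 2 then n else 0) + (if P ∈ Sp then n else 0) := by
      intro P hP
      have hP1 := (hPY P hP).1.pos
      have h2 := abs_Dev_le ν I P hP1 he1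
      have h3 : 0 ≤ n / (8 * F) := by positivity
      by_cases hc : V P ≤ 8 * F * L * n ^ 2
      · rw [if_neg (not_not.2 hc)]
        split_ifs with hs
        · linarith
        · rw [add_zero, add_zero]
          by_contra hlt
          apply hs
          have hP0 : (0 : ℤ) < P := by exact_mod_cast hP1
          have hQ0 : (0 : ℤ) < Q := by exact_mod_cast hQ
          have e1 : (((ν % Q).toNat : ℕ) : ℤ) = ν % Q := Int.toNat_of_nonneg (Int.emod_nonneg _ hQ0.ne')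
          have e2 : (((ν / Q % P).toNat : ℕ) : ℤ) = ν / Q % P :=
            Int.toNat_of_nonneg (Int.emod_nonneg _ hP0.ne')
          have e3 : ν - (((ν % Q).toNat : ℕ) + Q * ((ν / Q % P).toNat : ℕ)) = P * Q * (ν / Q / P) := by
            rw [e1, e2]
            linear_combination -(Int.emod_add_mul_ediv ν Q) - Q * Int.emod_add_mul_ediv (ν / Q) P
          rw [hSp, mem_filter]
          refine ⟨hP, ?_⟩
          simp only
          rw [if_pos ⟨hP, hc⟩, mem_image]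
          refine ⟨(ν / Q % P).toNat, mem_filter.2 ⟨mem_range.2 ?_, ?_⟩, ?_⟩
          · have : (((ν / Q % P).toNat : ℕ) : ℤ) < P := by rw [e2]; exact Int.emod_lt_of_pos _ hP0
            exact_mod_cast this
          · rw [← Dev_congr (ν := ν) heQ I ⟨ν / Q / P, by rw [e3]; push_cast; ring⟩]
            exact not_le.1 hlt
          · congr 1
            exact (Int.emod_emod_of_dvd _ dvd_rfl).symm.trans ((Int.emod_emod_of_dvd _ dvd_rfl).trans
              (Int.emod_eq_emod_iff_emod_sub_eq_zero.2 (Int.emod_eq_zero_of_dvd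
                ⟨Q * (ν / Q / P), by rw [e3]; ring⟩)).symm)
      · rw [if_pos hc]
        have : 0 ≤ (if P ∈ Sp then n else 0) := by split_ifs <;> positivity
        linarith
    have h2 := sum_le_sum h1
    rw [sum_add_distrib, sum_add_distrib, ← sum_filter, ← sum_filter, sum_const, sum_const, sum_const,
      nsmul_eq_mul, nsmul_eq_mul, nsmul_eq_mul, ← hb] at h2
    have h3 : (B j0).filter (fun P => P ∈ Sp) = Sp := by
      ext P
      rw [mem_filter]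
      exact ⟨fun h => h.2, fun h => ⟨(mem_filter.1 h).1, h⟩⟩
    rw [h3] at h2
    set r : ℝ := (((B j0).filter (fun P => ¬ V P ≤ 8 * F * L * n ^ 2)).card : ℝ)
    have h4 : b ≤ 4 * F * Sp.card := by
      have h5 := hν.trans_le h2
      have e1 : b * n / (2 * F) = 4 * (b / (8 * F)) * n := by field_simp; ring
      have e2 : b * (n / (8 * F)) = (b / (8 * F)) * n := by ring
      rw [e1, e2] at h5
      have h6 : r ≤ b / (8 * F) := by rwa [le_div_iff₀ (by positivity)]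
      have h7 : 2 * (b / (8 * F)) ≤ Sp.card := by
        refine le_of_mul_le_mul_right ?_ hn0
        nlinarith
      have e3 : b = 4 * F * (2 * (b / (8 * F))) := by field_simp; ring
      rw [e3]
      exact mul_le_mul_of_nonneg_left h7 (by positivity)
    rw [hb, hF] at h4
    exact_mod_cast h4

end Crest.Agent.R1
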