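import Crest.Agent.R1.Basic2
import Crest.Agent.R1.Primes
import Crest.Agent.R1.Pot
import Crest.Agent.R1.Rankin_A

/-!
# R1 / Stop : two-step recursion for `WW` and the stopping lemma


-/

set_option autoImplicit false

noncomputable section

open scoped Classical

namespace Crest.Agent.R1

open Finset

/-- Let `g` be counted in `WW Z T Q R t`.  It is not a singleton (`sg g ≤ Z < T - R`), so it has `≥ 3`
elements; let `π₁ < π₂` be the two smallest, `j = lv π₁ ≤ j' = lv π₂`, `g' = g \ {π₁, π₂}`.  `π₂` has even rank,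
so `sg g - j + 2 j' < T`, i.e. `2 j' < R + j`; hence `j ≤ j' < R < a`.  `g'` is supported (`Supp.upward`), odd, lies
in `PL j' Z`, `sg g' + (R + j + j') = T`, and `Q g'` by `LowStable`.  The map `g ↦ (π₁, π₂, g')` is injective and
`wt g = (1/π₁)(1/π₂) wt g'`. -/
theorem WW_rec (Z T R t a : ℕ) (Q : Finset ℕ → Prop) (hQ : LowStable a Q) (hR : R < a)
    (haZ : a + Z ≤ T) :
    WW Z T Q R t ≤ ∑ j ∈ Ico t R, mm j * ∑ j' ∈ (Ico j R).filter (fun j' => 2 * j' < R + j),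
      mm j' * WW Z T Q (R + j + j') j' := by
  unfold WW
  refine (rk_cover _ ((Ico t R).sigma fun j => B j ×ˢ
    (((Ico j R).filter (fun j' => 2 * j' < R + j)).sigma fun j' => B j' ×ˢ
      (PL j' Z).powerset.filter
        (fun g => Supp T g ∧ Odd g.card ∧ sg g + (R + j + j') = T ∧ Q g))) wt
    (fun x => 1 / (x.2.1 : ℝ) * (1 / (x.2.2.2.1 : ℝ) * wt x.2.2.2.2))
    (fun x => insert x.2.1 (insert x.2.2.2.1 x.2.2.2.2))
    (fun x _ => by have := wt_nonneg x.2.2.2.2; positivity) fun g hg => ?_).trans (le_of_eq ?_)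
  · rw [mem_filter, mem_powerset] at hg
    obtain ⟨hg1, hs, ho, hsg, hq⟩ := hg
    obtain ⟨π, g1, m1, n1, rfl⟩ := rk_min (card_pos.1 ho.pos)
    obtain ⟨p1, p2, p3⟩ := mem_PL.1 (hg1 (mem_insert_self _ _))
    have hne : g1.Nonempty := by
      rw [nonempty_iff_ne_empty]
      rintro rfl
      rw [sg_insert n1] at hsg
      simp [sg] at hsg
      omega
    obtain ⟨π', g', m2, n2, rfl⟩ := rk_min hne
    obtain ⟨q1, q2, q3⟩ := mem_PL.1 (hg1 (mem_insert_of_mem (mem_insert_self _ _)))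
    rw [card_insert_of_notMem n1, card_insert_of_notMem n2] at ho
    have ho' : Odd g'.card := by
      rw [Nat.odd_iff] at ho ⊢; omega
    obtain ⟨s1, s2⟩ := (supp_insert_min m2).1 (hs.of_insert_min m1)
    have s3 := s2 ho'
    rw [sg_insert n1, sg_insert n2] at hsg
    have hl : lv π ≤ lv π' := lv_mono (m1 π' (mem_insert_self _ _)).le
    refine ⟨⟨lv π, π, ⟨lv π', π', g'⟩⟩, ?_, rfl, by rw [wt_insert n1, wt_insert n2]⟩
    simp only [mem_sigma, mem_product, mem_filter, mem_Ico, mem_powerset]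
    refine ⟨⟨p2, by omega⟩, mem_B.2 ⟨p1, rfl⟩, ⟨⟨hl, by omega⟩, by omega⟩, mem_B.2 ⟨q1, rfl⟩,
      fun x hx => ?_, s1, ho', by omega, hQ _ _ ?_ ?_ hq⟩
    · obtain ⟨r1, -, r3⟩ := mem_PL.1 (hg1 (mem_insert_of_mem (mem_insert_of_mem hx)))
      exact mem_PL.2 ⟨r1, lv_mono (m2 x hx).le, r3⟩
    · exact (subset_insert _ _).trans (subset_insert _ _)
    · intro x hx hx'
      simp only [mem_insert] at hx
      rcases hx with rfl | rfl | hx
      · omega
      · omega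
      · exact absurd hx hx'
  · rw [Finset.sum_sigma]
    refine Finset.sum_congr rfl fun j _ => ?_
    simp only [Finset.sum_product, Finset.sum_sigma, ← Finset.mul_sum, ← Finset.sum_mul]
    rfl

/-- the double sum -/
def stopDS (κ : ℝ) (R t : ℕ) : ℝ :=
  ∑ j ∈ Ico t R, mm j * ∑ j' ∈ (Ico j R).filter (fun j' => 2 * j' < R + j),
    mm j' * Pot κ (R + j + j') j'

theorem stop_pot_nonneg {κ : ℝ} (hκ : 0 ≤ κ) (R t : ℕ) : 0 ≤ Pot κ R t := by
  unfold Pot; positivity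

theorem stopDS_mono {κ : ℝ} (hκ : 0 ≤ κ) {R R' : ℕ} (h : R ≤ R') (t : ℕ) :
    stopDS κ R t ≤ stopDS κ R' t := by
  unfold stopDS
  have h0 : ∀ (R j : ℕ) (s : Finset ℕ), 0 ≤ ∑ j' ∈ s, mm j' * Pot κ (R + j + j') j' :=
    fun R j s => Finset.sum_nonneg fun j' _ => mul_nonneg (mm_nonneg _) (stop_pot_nonneg hκ _ _)
  refine le_trans (Finset.sum_le_sum fun j _ => mul_le_mul_of_nonneg_left ?_ (mm_nonneg j))
    (Finset.sum_le_sum_of_subset_of_nonneg (Ico_subset_Ico_right h)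
      fun j _ _ => mul_nonneg (mm_nonneg _) (h0 _ _ _))
  refine le_trans (Finset.sum_le_sum fun j' _ => mul_le_mul_of_nonneg_left ?_ (mm_nonneg j'))
    (Finset.sum_le_sum_of_subset_of_nonneg (fun x hx => ?_)
      fun j _ _ => mul_nonneg (mm_nonneg _) (stop_pot_nonneg hκ _ _))
  · unfold Pot
    push_cast
    rw [add_sub_cancel_right, add_sub_cancel_right]
    have : (R : ℝ) ≤ R' := by exact_mod_cast h
    gcongr
  · simp only [mem_filter, mem_Ico] at hx ⊢
    omega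

theorem stop_step {Z T a t1 : ℕ} {Q : Finset ℕ → Prop} (hQ : LowStable a Q) (haZ : a + Z ≤ T)
    (ht1 : 1 ≤ t1) {κ K : ℝ} {R t : ℕ} (ht : t1 ≤ t) (hR : R < a)
    (h : ∀ R' t' : ℕ, R < R' → t1 ≤ t' → 3 * t' < R' → R' < 3 * a →
      WW Z T Q R' t' ≤ K * Pot κ R' t') : WW Z T Q R t ≤ K * stopDS κ R t := by
  refine (WW_rec Z T R t a Q hQ hR haZ).trans ?_
  unfold stopDS
  rw [Finset.mul_sum]
  refine Finset.sum_le_sum fun j hj => ?_
  rw [mul_left_comm, Finset.mul_sum _ _ K]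
  refine mul_le_mul_of_nonneg_left (Finset.sum_le_sum fun j' hj' => ?_) (mm_nonneg j)
  rw [mul_left_comm]
  simp only [mem_filter, mem_Ico] at hj hj'
  exact mul_le_mul_of_nonneg_left (h _ _ (by omega) (by omega) (by omega) (by omega)) (mm_nonneg _)

/-- Take `κ, t1` from `pot_super` (with `mm_bounds`).  Claim: for `t ≥ t1`, `3t < R < 3a`:
`WW R t ≤ (9/2)(Ψ/a²) Pot κ R t`.  If `a ≤ R` this is the hypothesis, since `Pot κ R t ≥ (2R/3)²/(2t)`.  If
`R < a` use strong induction on `a - R` (or on `3a - R`), `WW_rec` (the new states satisfy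
`3j' < R + j + j' < 3R`, `R < R + j + j'`) and `pot_super`.  For an arbitrary start `R < a` apply `WW_rec` once,
then the claim, then monotonicity in `R` of the double sum (`Pot κ (R+j+j') j' = (R+j)²/(2j')(1+κ/j')` and the
ranges increase with `R`) to replace `R` by `R* = max R (3t)`, `pot_super`, and
`Pot κ R* t ≤ R*²/(2t) · 2`. -/
theorem stop (hP : PAP) : ∃ t1 : ℕ, 1 ≤ t1 ∧ ∀ (Z T a : ℕ) (Q : Finset ℕ → Prop), LowStable a Q →
    a + Z ≤ T → ∀ Ψ : ℝ, 0 ≤ Ψ →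
    (∀ R t : ℕ, t1 ≤ t → 3 * t < R → a ≤ R → R < 3 * a → WW Z T Q R t ≤ Ψ / t) →
    ∀ R t : ℕ, t1 ≤ t → R < a →
      WW Z T Q R t ≤ 5 * Ψ * ((max R (3 * t) : ℕ) : ℝ) ^ 2 / (t * (a : ℝ) ^ 2) := by
  obtain ⟨C, hC, hm⟩ := mm_bounds hP
  obtain ⟨κ, t1, hκ, hκt, ht1, hpot⟩ := pot_super C (by linarith)
  have hsup : ∀ R t : ℕ, t1 ≤ t → 3 * t ≤ R → stopDS κ R t ≤ Pot κ R t :=
    hpot mm mm_nonneg fun j hj => by linarith [(abs_le.1 (hm j hj)).2]
  refine ⟨t1, ht1, fun Z T a Q hQ haZ Ψ hΨ h R t ht hR => ?_⟩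
  have ha : (0 : ℝ) < a := by exact_mod_cast (by omega : 0 < a)
  have hK : 0 ≤ 9 / 2 * Ψ / (a : ℝ) ^ 2 := by positivity
  have claim : ∀ n R t : ℕ, 3 * a - R ≤ n → t1 ≤ t → 3 * t < R → R < 3 * a →
      WW Z T Q R t ≤ 9 / 2 * Ψ / (a : ℝ) ^ 2 * Pot κ R t := by
    intro n
    induction n with
    | zero => intro R t h1 _ _ h4; omega
    | succ n ih =>
      intro R t h1 h2 h3 h4
      rcases le_or_gt a R with haR | haR
      · refine (h R t h2 h3 haR h4).trans ?_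
        have t0 : (0 : ℝ) < t := by exact_mod_cast (by omega : 0 < t)
        have a1 : (a : ℝ) ≤ R := by exact_mod_cast haR
        have a2 : 3 * (t : ℝ) ≤ R := by exact_mod_cast h3.le
        have a3 : (2 / 3 * (a : ℝ)) ^ 2 / (2 * t) * 1 ≤ Pot κ R t := by
          unfold Pot
          have : 0 ≤ κ / t := by positivity
          gcongr <;> linarith
        refine le_of_eq_of_le ?_ (mul_le_mul_of_nonneg_left a3 hK)
        field_simp; ring
      · exact (stop_step hQ haZ ht1 h2 haR fun R' t' b1 b2 b3 b4 =>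
          ih R' t' (by omega) b2 b3 b4).trans (mul_le_mul_of_nonneg_left (hsup R t h2 h3.le) hK)
  have t0 : (0 : ℝ) < t := by exact_mod_cast (by omega : 0 < t)
  have h1 := stop_step hQ haZ ht1 ht hR fun R' t' _ b2 b3 b4 => claim _ R' t' le_rfl b2 b3 b4
  have h2 := (stopDS_mono hκ (le_max_left R (3 * t)) t).trans (hsup _ t ht (le_max_right _ _))
  have h3 : 3 * (t : ℝ) ≤ (max R (3 * t) : ℕ) := by exact_mod_cast le_max_right R (3 * t)
  have h4 : Pot κ (max R (3 * t)) t ≤ ((max R (3 * t) : ℕ) : ℝ) ^ 2 / (2 * t) * 2 := by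
    unfold Pot
    have : κ / t ≤ 1 := (div_le_one t0).2 (hκt.trans (by exact_mod_cast ht))
    have : 0 ≤ κ / t := by positivity
    gcongr <;> linarith
  refine h1.trans ((mul_le_mul_of_nonneg_left (h2.trans h4) hK).trans ?_)
  generalize ((max R (3 * t) : ℕ) : ℝ) = M
  have e : 9 / 2 * Ψ / (a : ℝ) ^ 2 * (M ^ 2 / (2 * t) * 2) = 9 / 2 * Ψ * M ^ 2 / (t * (a : ℝ) ^ 2) := by
    field_simp
  rw [e]
  gcongr
  norm_num

end Crest.Agent.R1
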