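import Crest.Agent.R1.Model
import Crest.Agent.R1.Conc
import Crest.Agent.R1.Shift
import Crest.Agent.R1.Decomp

/-!
# R1 / ThmA : many survivors


-/

set_option autoImplicit false

noncomputable section

open scoped Classical

namespace Crest.Agent.R1

open Finset

theorem thmA_real {c0 C c2 θ C0 a Λ n Tm G S : ℝ} (hc0 : 0 < c0) (hc01 : c0 ≤ 1) (hC : 0 ≤ C)
    (hθ0 : 0 < θ) (hθ1 : θ ≤ 1) (hθ : θ * (16 * (C + 1)) ≤ c2) (hC0 : 0 ≤ C0) (hΛ : 1 ≤ Λ)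
    (hn : C + 2 ≤ n) (hG : 0 ≤ G) (ha : C0 + 3 ≤ θ * a)
    (h1 : -(C0 * Λ / n ^ 2) ≤ Tm)
    (h2 : a * Λ / n ^ 2 ≤ c0 * Tm + C / n ^ 3 + 16 * C * G)
    (h3 : Tm - 2 / n ^ 3 + c2 * G ≤ S) : 2 ≤ n ^ 2 * S := by
  have hn0 : 0 < n := by linarith
  have hn2 : 0 < n ^ 2 := by positivity
  set w : ℝ := Λ / n ^ 2 with hw
  set v : ℝ := 1 / n ^ 3 with hv
  have hw0 : 1 / n ^ 2 ≤ w := div_le_div_of_nonneg_right hΛ hn2.le
  have hwp : 0 < 1 / n ^ 2 := by positivity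
  have hv0 : 0 ≤ v := by positivity
  have hv1 : (C + 2) * v ≤ 1 / n ^ 2 := by
    rw [hv, mul_one_div, div_le_div_iff₀ (by positivity) hn2]
    nlinarith
  have e1 : C0 * Λ / n ^ 2 = C0 * w := by rw [hw]; ring
  have e2 : a * Λ / n ^ 2 = a * w := by rw [hw]; ring
  have e3 : C / n ^ 3 = C * v := by rw [hv]; ring
  have e4 : 2 / n ^ 3 = 2 * v := by rw [hv]; ring
  rw [e1] at h1
  rw [e2, e3] at h2
  rw [e4] at h3
  have h4 : θ * (16 * C * G) ≤ c2 * G := by nlinarith [mul_nonneg hθ0.le hG]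
  have h5 : θ * (a * w) ≤ θ * (c0 * Tm + C * v + 16 * C * G) := mul_le_mul_of_nonneg_left h2 hθ0.le
  have h6 : (C0 + 3) * w ≤ θ * a * w := mul_le_mul_of_nonneg_right ha (by linarith)
  have h7 : -(C0 * w) ≤ Tm * (1 - θ * c0) := by
    have t1 : 0 ≤ 1 - θ * c0 := by nlinarith
    have t2 : 0 ≤ θ * c0 := by positivity
    have t3 : 0 ≤ C0 * w := mul_nonneg hC0 (by linarith)
    nlinarith [mul_le_mul_of_nonneg_right h1 t1]
  have h8 : θ * (C * v) ≤ C * v := by nlinarith [mul_nonneg hC hv0]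
  have h9 : 2 * (1 / n ^ 2) ≤ S := by nlinarith
  have : n ^ 2 * (2 * (1 / n ^ 2)) = 2 := by field_simp
  nlinarith [mul_le_mul_of_nonneg_left h9 hn2.le]

set_option maxHeartbeats 1600000 in
theorem thmA (hP : PAP) : ∃ t0 N0 : ℕ, ∀ N ≥ N0, ∀ a0 : ℤ,
    2 * 2 ^ N ≤ N ^ 2 * Surv t0 (ZZ N) a0 (2 ^ N) := by
  obtain ⟨ta, C', hC', hNN⟩ := NN_total hP
  obtain ⟨tb, hconc⟩ := conc hP
  obtain ⟨tc, hgood⟩ := good2_lower hP
  obtain ⟨j1, hshift⟩ := shift_le hP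
  set t0 := 1 + ta + tb + tc with ht0
  obtain ⟨c0, c1, C, hc0, hc01, hc1, hC, Nm, hmod⟩ := model_ineq hP t0 (by omega)
  obtain ⟨c2, hc2, hgood⟩ := hgood t0 (by omega)
  obtain ⟨M, C8, K, hM, hC8, hK, hconc⟩ :=
    hconc t0 (by omega) (c1 / (8 * (C + 1))) (by positivity)
  set θ : ℝ := min 1 (c2 / (16 * (C + 1))) with hθ
  have hθ0 : 0 < θ := lt_min one_pos (by positivity)
  have hθ1 : θ ≤ 1 := min_le_left _ _
  have hθ2 : θ * (16 * (C + 1)) ≤ c2 := by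
    rw [← le_div_iff₀ (by positivity)]; exact min_le_right _ _
  set C0 : ℝ := (C + 80 * C * C') / c0 with hC0
  have hC00 : 0 ≤ C0 := by positivity
  obtain ⟨A, hA13, hA⟩ : ∃ A : ℕ, 13 ≤ A ∧ C0 + 3 ≤ θ * (c1 * (3 * A / 4 - 13)) := by
    obtain ⟨A, hA⟩ := exists_nat_ge (4 / 3 * ((C0 + 3) / (θ * c1) + 13))
    have hp : 0 < θ * c1 := by positivity
    have h0 : 0 ≤ (C0 + 3) / (θ * c1) := by positivity
    refine ⟨A, ?_, ?_⟩
    · have : (13 : ℝ) ≤ A := by linarith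
      exact_mod_cast this
    · have : (C0 + 3) / (θ * c1) ≤ 3 * A / 4 - 13 := by linarith
      rw [div_le_iff₀ hp] at this
      linarith
  obtain ⟨A2', hgood⟩ := hgood (9 + 4 * M * A) (4 * K) (by omega)
  set A2 := A2' + (6 * M * A + 1) with hA2
  set r := 2 * (C8 * A2) with hr
  obtain ⟨Nc, hconc⟩ := hconc (2 * A) A2 r (by
    have : 3 * M * (2 * A) = 6 * M * A := by ring
    omega)
  obtain ⟨Ng, hgood⟩ := hgood (C8 * A2) (2 ^ r * (C8 * A2))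
  obtain ⟨Np, hpar⟩ := params
  set A4 := 2 ^ r * (C8 * A2) with hA4
  obtain ⟨Nl, hl⟩ := lam_small (2 * K * (A4 + j1 + 1) + 5 * A4 + A + 13) 1
  obtain ⟨Nr, hNr⟩ := exists_nat_ge (C + 2)
  refine ⟨t0, Nm + Nc + Ng + Np + Nl + Nr, fun N hN a0 => ?_⟩
  obtain ⟨hT, h53, hNT, -, -, -, h100, hΛ3⟩ := hpar N (by omega)
  obtain ⟨-, hl⟩ := hl N (by omega)
  rw [pow_one] at hl
  replace hmod := hmod N (by omega)
  replace hconc := hconc N (by omega)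
  replace hgood := hgood N (by omega) a0
  have hNΛ := le_two_pow_Lam N
  have hn : C + 2 ≤ (N : ℝ) := hNr.trans (by exact_mod_cast (by omega : Nr ≤ N))
  clear hN hNr hpar
  generalize Lam N = Λ at *
  generalize TT N = T at *
  generalize ZZ N = Z at *
  have hΛ1 : 1 ≤ Λ := by omega
  have e0 : (2 * K * (A4 + j1 + 1) + 5 * A4 + A + 13) * Λ
      = 2 * (K * ((A4 + j1 + 1) * Λ)) + 5 * (A4 * Λ) + A * Λ + 13 * Λ := by ring
  rw [e0] at hl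
  have hb : 2 ^ r * (C8 * (A2 * Λ)) = A4 * Λ := by rw [hA4]; ring
  have hη : (A4 + j1 + 1) * Λ ≤ T / K := by
    rw [Nat.le_div_iff_mul_le (by omega), mul_comm]; omega
  have hη1 : A4 * Λ + j1 + 1 ≤ T / K := by
    refine le_trans ?_ hη
    have h1 : (j1 + 1) * 1 ≤ (j1 + 1) * Λ := Nat.mul_le_mul_left _ hΛ1
    have h2 : (A4 + j1 + 1) * Λ = A4 * Λ + (j1 + 1) * Λ := by ring
    omega
  have hNK : N ≤ 4 * K * (T / K) := by
    have h1 : T < K * (T / K + 1) := Nat.lt_mul_div_succ T (by omega)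
    have h2 : K * 1 ≤ K * (T / K) := Nat.mul_le_mul_left _ (by omega)
    have h3 : 4 * K * (T / K) = 4 * (K * (T / K)) := by ring
    rw [mul_add] at h1
    omega
  have hτ : A * Λ + 6 * Λ + 1 ≤ 2 * A * Λ := by
    have h1 : 13 * Λ ≤ A * Λ := Nat.mul_le_mul_right _ hA13
    have h2 : 2 * A * Λ = 2 * (A * Λ) := by ring
    omega
  have htm : M * (A * Λ + 6 * Λ + 1) ≤ 2 * (M * A * Λ) :=
    (Nat.mul_le_mul_left M hτ).trans (le_of_eq (by ring))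
  have k1 := hmod (13 * Λ) le_rfl (by omega)
  have k2 := hmod (A * Λ) (Nat.mul_le_mul_right _ hA13) (by omega)
  have k3 := hNN t0 (by omega) Z T (6 * Λ) (13 * Λ + 6 * Λ + 1) h53 (by omega) (by omega)
  have k4 := hconc (6 * Λ) (A * Λ + 6 * Λ + 1) (by omega) hτ
  have k5 := hshift t0 Z T (6 * Λ) (M * (A * Λ + 6 * Λ + 1)) (A2 * Λ) (C8 * (A2 * Λ)) r (T / K)
    (2 * (M * (A * Λ + 6 * Λ + 1))) (by omega) le_rfl (by omega) (by omega)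
  have k6 := hgood (M * (A * Λ + 6 * Λ + 1)) (A2 * Λ) (C8 * (A2 * Λ))
    (2 ^ r * (C8 * (A2 * Λ))) (T / K) (Nat.mul_le_mul_right _ (by omega)) (by rw [mul_assoc])
    (Nat.le_mul_of_pos_left _ (by positivity)) hb.le (by omega) hNK
    (by
      have : A2 * Λ = A2' * Λ + 6 * (M * A * Λ) + Λ := by rw [hA2]; ring
      omega)
    (by
      have : (9 + 4 * M * A) * Λ = 9 * Λ + 4 * (M * A * Λ) := by ring
      omega)
  have k7 := real_lower t0 Z T (2 ^ N) (by omega) a0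
  rw [← hr] at k6
  set 𝒢 := G2 t0 Z T (6 * Λ) (M * (A * Λ + 6 * Λ + 1)) (A2 * Λ) (C8 * (A2 * Λ))
    (2 ^ r * (C8 * (A2 * Λ))) r (T / K) with h𝒢
  have k8 : ∑ x ∈ 𝒢, (Scnt t0 a0 (2 ^ N) (x.1 * pr x.2) x.1 : ℝ)
      ≤ ∑ x ∈ BP t0 Z T, (Scnt t0 a0 (2 ^ N) (x.1 * pr x.2) x.1 : ℝ) :=
    Finset.sum_le_sum_of_subset_of_nonneg (Finset.filter_subset _ _) fun _ _ _ => by positivity
  set G : ℝ := ∑ x ∈ 𝒢, wb x with hG
  have hG0 : 0 ≤ G := Finset.sum_nonneg fun x _ => wb_nonneg x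
  have hn0 : (0 : ℝ) < N := by linarith
  have hn1 : (1 : ℝ) ≤ N := by linarith
  have hΛr : (1 : ℝ) ≤ Λ := by exact_mod_cast hΛ1
  have hTr : (N : ℝ) ≤ 2 * T := by exact_mod_cast hNT
  have hT0 : (0 : ℝ) < T := by linarith
  have hX : (0 : ℝ) < 2 ^ N := by positivity
  have hD : (2 : ℝ) ^ T ≤ 2 ^ N / (N : ℝ) ^ 3 := by
    rw [le_div_iff₀ (by positivity)]
    have h1 : N ^ 3 ≤ (2 ^ Λ) ^ 3 := Nat.pow_le_pow_left hNΛ 3
    have h2 : 2 ^ T * N ^ 3 ≤ 2 ^ N := by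
      calc 2 ^ T * N ^ 3 ≤ 2 ^ T * (2 ^ Λ) ^ 3 := Nat.mul_le_mul_left _ h1
        _ = 2 ^ (T + 3 * Λ) := by rw [← pow_mul, ← pow_add, mul_comm]
        _ = 2 ^ N := by rw [hT]
    exact_mod_cast h2
  have key : 2 ≤ (N : ℝ) ^ 2 * ((Surv t0 Z a0 (2 ^ N) : ℝ) / 2 ^ N) := by
    refine thmA_real (Tm := Tm t0 Z T) (G := G) (Λ := Λ) hc0 hc01 hC hθ0 hθ1 hθ2 hC00 hΛr hn hG0 hA
      ?_ ?_ ?_
    · have a1 : C' * ((13 * Λ + 6 * Λ + 1 : ℕ) : ℝ) / (T : ℝ) ^ 2 ≤ 80 * C' * Λ / (N : ℝ) ^ 2 := by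
        rw [div_le_div_iff₀ (by positivity) (by positivity)]
        push_cast
        have b1 : (N : ℝ) ^ 2 ≤ 4 * (T : ℝ) ^ 2 := by nlinarith
        have b2 : 13 * (Λ : ℝ) + 6 * Λ + 1 ≤ 20 * Λ := by linarith
        calc C' * (13 * (Λ : ℝ) + 6 * Λ + 1) * (N : ℝ) ^ 2 ≤ C' * (20 * Λ) * (4 * (T : ℝ) ^ 2) := by
              gcongr
          _ = _ := by ring
      have a2 : C / (N : ℝ) ^ 3 ≤ C * Λ / (N : ℝ) ^ 2 := by
        rw [div_le_div_iff₀ (by positivity) (by positivity)]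
        have : (N : ℝ) ^ 2 ≤ Λ * (N : ℝ) ^ 3 := by nlinarith [pow_pos hn0 2, pow_pos hn0 3]
        nlinarith [mul_le_mul_of_nonneg_left this hC]
      have a3 : C * NN t0 Z T (6 * Λ) (13 * Λ + 6 * Λ + 1) ≤ C * (80 * C' * Λ / (N : ℝ) ^ 2) :=
        mul_le_mul_of_nonneg_left (k3.trans a1) hC
      have a4 : c1 * (((13 * Λ : ℕ) : ℝ) - 13 * Λ) / (N : ℝ) ^ 2 = 0 := by push_cast; simp
      rw [a4] at k1
      have a5 : c0 * (C0 * Λ / (N : ℝ) ^ 2) = C * Λ / (N : ℝ) ^ 2 + C * (80 * C' * Λ / (N : ℝ) ^ 2) := by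
        rw [hC0]; field_simp
      have a6 : c0 * -(C0 * Λ / (N : ℝ) ^ 2) ≤ c0 * Tm t0 Z T := by linarith
      exact le_of_mul_le_mul_left a6 hc0
    · have a1 : C * (c1 / (8 * (C + 1)) * ((A * Λ + 6 * Λ + 1 : ℕ) : ℝ) / (N : ℝ) ^ 2)
          ≤ c1 * (A / 4) * Λ / (N : ℝ) ^ 2 := by
        have b1 : ((A * Λ + 6 * Λ + 1 : ℕ) : ℝ) ≤ 2 * A * Λ := by exact_mod_cast hτ
        have b2 : C * (c1 / (8 * (C + 1))) ≤ c1 / 8 := by
          rw [← mul_div_assoc, div_le_div_iff₀ (by positivity) (by positivity)]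
          nlinarith
        calc _ = C * (c1 / (8 * (C + 1))) * ((A * Λ + 6 * Λ + 1 : ℕ) : ℝ) / (N : ℝ) ^ 2 := by ring
          _ ≤ c1 / 8 * (2 * A * Λ) / (N : ℝ) ^ 2 := by gcongr
          _ = _ := by ring
      have a2 := mul_le_mul_of_nonneg_left (k4.trans (add_le_add_left k5 _)) hC
      have a3 : c1 * (((A * Λ : ℕ) : ℝ) - 13 * Λ) / (N : ℝ) ^ 2
          = c1 * (3 * A / 4 - 13) * Λ / (N : ℝ) ^ 2 + c1 * (A / 4) * Λ / (N : ℝ) ^ 2 := by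
        push_cast; ring
      rw [a3] at k2
      rw [mul_add] at a2
      linarith
    · rw [le_div_iff₀ hX]
      push_cast at k7
      have : (Tm t0 Z T - 2 / (N : ℝ) ^ 3 + c2 * G) * 2 ^ N
          = 2 ^ N * Tm t0 Z T - 2 * (2 ^ N / (N : ℝ) ^ 3) + c2 * (2 ^ N * G) := by ring
      rw [this]
      linarith
  rw [← mul_div_assoc, le_div_iff₀ hX] at key
  exact_mod_cast key

end Crest.Agent.R1
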