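import Crest.Agent.R1.EDefs

/-!
# R1 / Var : variance of `Dev` over the residue classes modulo a prime `P`

Fix `e ∈ E`, `e ∣ Q`.  The `i < I` with `e ∣ ν0 + Qκ + i` are `i = i_e + e k`, `k < K_e`, where `i_e < e`, `K_e` do not
depend on `κ` and `|K_e - I/e| ≤ 1`; write `ν0 + i_e = e μ_e`, so that `ν0 + Qκ + i = e (μ_e + (Q/e) κ + k)`.  Hence
`cnt (ν0 + Qκ) I (P e) = #{k < K_e : P ∣ μ_e + (Q/e) κ + k}
 = K_e/P + ∑_{h=1}^{P-1} a(e,h) e(h (Q/e) κ / P)`, `a(e,h) = (1/P) e(h μ_e/P) ∑_{k<K_e} e(hk/P)`,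
`|a(e,h)| ≤ 1/(P |sin (π h/P)|) ≤ 1/(2 min(h, P-h))` (geometric sum, `sin x ≥ 2x/π`: `Real.mul_le_sin`).
So `Dev = Dev₀ + Err`, `|Err| ≤ |E|/P`, and by orthogonality in `κ`
`∑_κ |Dev₀|² ≤ P ∑_{e,e',h,h'} [P ∣ h Q/e - h' Q/e'] |a(e,h)| |a(e',h')|`.  Multiplying by `e e'` and using
`Coprime Q P`: the condition gives `P ∣ h e' - h' e`.  Replace `h` by `m = min (h, P-h) ∈ [1, Y]` (`h ≡ ± m`; each `m`
comes from at most two `h`): the sum is `≤ P · 4 · (1/4) · Cor`.  Finally `(x+y)² ≤ 2x² + 2y²`.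
(Use `ZMod.stdAddChar`/`AddChar.sum_mulShift`, or `Complex.exp (2 π i ·/P)` and `Finset.geom_sum_eq`.)
-/

set_option autoImplicit false

noncomputable section

open scoped Classical

namespace Crest.Agent.R1

open Finset

theorem var_interval (e : ℕ) (he : 1 ≤ e) (ν0 : ℤ) (I : ℕ) : ∃ (μ : ℤ) (K : ℕ), ∀ (t : ℤ) (m : ℕ),
    cnt (ν0 + e * t) I (m * e) = ((range K).filter (fun k : ℕ => (m : ℤ) ∣ μ + t + k)).card := by
  have he' : (0 : ℤ) < e := by exact_mod_cast he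
  have key : ∀ a n : ℤ, a ≤ e * n ↔ -((-a) / e) ≤ n := by
    intro a n
    rw [neg_le, Int.le_ediv_iff_mul_le he']
    constructor <;> intro h <;> linarith
  set μ := -((-ν0) / e) with hμ
  set μ' := -((-(ν0 + I)) / e) with hμ'
  have hle : μ ≤ μ' := by
    rw [← key]
    have := (key (ν0 + I) μ').2 le_rfl
    have : (0 : ℤ) ≤ I := by positivity
    linarith
  have hK : (((μ' - μ).toNat : ℕ) : ℤ) = μ' - μ := Int.toNat_of_nonneg (by linarith)
  refine ⟨μ, (μ' - μ).toNat, fun t m => ?_⟩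
  unfold cnt
  symm
  have h0 : ∀ k : ℕ, ((((e : ℤ) * (μ + k) - ν0).toNat : ℕ) : ℤ) = e * (μ + k) - ν0 := by
    intro k
    refine Int.toNat_of_nonneg ?_
    have := (key ν0 (μ + k)).2 (by have : (0 : ℤ) ≤ k := by positivity
                                   linarith)
    linarith
  refine card_bij (fun k _ => ((e : ℤ) * (μ + k) - ν0).toNat) ?_ ?_ ?_
  · intro k hk
    rw [mem_filter, mem_range] at hk ⊢
    constructor
    · have h1 : (k : ℤ) < μ' - μ := by rw [← hK]; exact_mod_cast hk.1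
      have h2 : ¬ (ν0 + I ≤ e * (μ + k)) := by rw [key]; linarith
      have h3 : (((e : ℤ) * (μ + k) - ν0).toNat : ℤ) < I := by rw [h0]; linarith
      exact_mod_cast h3
    · rw [h0]
      obtain ⟨c, hc⟩ := hk.2
      exact ⟨c, by push_cast; linear_combination (e : ℤ) * hc⟩
  · intro k _ k' _ h
    have h1 : (((e : ℤ) * (μ + k) - ν0).toNat : ℤ) = ((e : ℤ) * (μ + k') - ν0).toNat := by
      exact_mod_cast h
    rw [h0, h0] at h1
    have h2 : (k : ℤ) = k' := by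
      have : (e : ℤ) * k = e * k' := by linarith
      exact mul_left_cancel₀ he'.ne' this
    exact_mod_cast h2
  · intro i hi
    rw [mem_filter, mem_range] at hi
    obtain ⟨hi, c, hc⟩ := hi
    have hi' : (i : ℤ) < I := by exact_mod_cast hi
    have hn : (e : ℤ) * (m * c - t) = ν0 + i := by push_cast at hc; linear_combination -hc
    have h1 : μ ≤ m * c - t := by
      rw [← key, hn]
      have : (0 : ℤ) ≤ i := by positivity
      linarith
    have h2 : ¬ μ' ≤ m * c - t := by rw [← key, hn]; linarith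
    have h3 : ((((m : ℤ) * c - t - μ).toNat : ℕ) : ℤ) = m * c - t - μ := Int.toNat_of_nonneg (by linarith)
    refine ⟨((m : ℤ) * c - t - μ).toNat, ?_, ?_⟩
    · rw [mem_filter, mem_range]
      constructor
      · have : ((((m : ℤ) * c - t - μ).toNat : ℕ) : ℤ) < (μ' - μ).toNat := by rw [h3, hK]; linarith
        exact_mod_cast this
      · exact ⟨c, by rw [h3]; ring⟩
    · have : ((((e : ℤ) * (μ + (((m : ℤ) * c - t - μ).toNat : ℕ)) - ν0).toNat : ℕ) : ℤ) = i := by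
        rw [h0, h3]; linear_combination hn
      exact_mod_cast this

theorem var_sum_zmod (P : ℕ) [NeZero P] {M : Type} [AddCommMonoid M] (f : ZMod P → M) :
    ∑ x : ZMod P, f x = ∑ k ∈ range P, f (k : ZMod P) := by
  refine sum_nbij' ZMod.val (fun k : ℕ => (k : ZMod P)) ?_ ?_ ?_ ?_ ?_
  · intro x _
    exact mem_range.2 (ZMod.val_lt x)
  · intro k _
    exact mem_univ _
  · intro x _
    exact ZMod.natCast_zmod_val x
  · intro k hk
    exact ZMod.val_cast_of_lt (mem_range.1 hk)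
  · intro x _
    rw [ZMod.natCast_zmod_val]

theorem var_orth (P : ℕ) [NeZero P] (b : ZMod P) :
    ∑ k ∈ range P, ZMod.stdAddChar ((k : ZMod P) * b) = if b = 0 then (P : ℂ) else 0 := by
  rw [← var_sum_zmod P (fun x => ZMod.stdAddChar (x * b)),
    AddChar.sum_mulShift b (ZMod.isPrimitive_stdAddChar P), ZMod.card]
  split_ifs <;> simp

theorem var_norm (P : ℕ) [NeZero P] (x : ZMod P) : ‖ZMod.stdAddChar x‖ = 1 := by
  rw [ZMod.stdAddChar_apply, Circle.norm_coe]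

theorem var_sq (P : ℕ) [NeZero P] {ι : Type} (s : Finset ι) (a : ι → ℂ) (c : ι → ZMod P) :
    ∑ κ ∈ range P, ‖∑ x ∈ s, a x * ZMod.stdAddChar ((κ : ZMod P) * c x)‖ ^ 2
      ≤ P * ∑ x ∈ s, ∑ y ∈ s, if c x = c y then ‖a x‖ * ‖a y‖ else 0 := by
  have h1 : ((∑ κ ∈ range P, ‖∑ x ∈ s, a x * ZMod.stdAddChar ((κ : ZMod P) * c x)‖ ^ 2 : ℝ) : ℂ)
      = ∑ x ∈ s, ∑ y ∈ s, a x * (starRingEnd ℂ) (a y) * if c x - c y = 0 then (P : ℂ) else 0 := by
    simp only [← var_orth, mul_sum]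
    rw [sum_congr rfl (fun x _ => sum_comm), sum_comm]
    push_cast
    refine sum_congr rfl (fun κ _ => ?_)
    rw [← Complex.mul_conj', map_sum, sum_mul_sum]
    refine sum_congr rfl (fun x _ => sum_congr rfl (fun y _ => ?_))
    rw [map_mul (starRingEnd ℂ), ← AddChar.map_neg_eq_conj, mul_sub, sub_eq_add_neg, AddChar.map_add_eq_mul]
    ring
  have h2 := congrArg norm h1
  rw [Complex.norm_real, Real.norm_of_nonneg (by positivity)] at h2
  rw [h2, mul_sum]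
  refine (norm_sum_le _ _).trans (sum_le_sum (fun x _ => ?_))
  rw [mul_sum]
  refine (norm_sum_le _ _).trans (sum_le_sum (fun y _ => ?_))
  simp only [sub_eq_zero]
  split_ifs
  · rw [norm_mul, norm_mul, Complex.norm_conj, Complex.norm_natCast]
    exact le_of_eq (by ring)
  · simp

theorem var_sin (P : ℕ) [NeZero P] {h : ℕ} (hh : h ∈ Ico 1 P) :
    4 * ((min h (P - h) : ℕ) : ℝ) / P ≤ ‖ZMod.stdAddChar (h : ZMod P) - 1‖ := by
  rw [mem_Ico] at hh
  have hP : (0 : ℝ) < P := by exact_mod_cast (by omega : 0 < P)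
  have e1 : ZMod.stdAddChar (h : ZMod P) = Complex.exp (Complex.I * ((2 * Real.pi * h / P : ℝ) : ℂ)) := by
    have := ZMod.stdAddChar_coe (N := P) (h : ℤ)
    rw [Int.cast_natCast] at this
    rw [this]
    congr 1
    push_cast
    ring
  rw [e1, Complex.norm_exp_I_mul_ofReal_sub_one]
  have aux : ∀ m : ℝ, 0 ≤ m → 2 * m ≤ P → 4 * m / P ≤ 2 * Real.sin (Real.pi * m / P) := by
    intro m hm hm'
    have h1 := Real.mul_le_sin (x := Real.pi * m / P) (by positivity) (by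
      rw [div_le_div_iff₀ hP two_pos]
      nlinarith [Real.pi_pos])
    have h2 : 2 / Real.pi * (Real.pi * m / P) = 2 * m / P := by field_simp
    rw [h2] at h1
    have : 4 * m / P = 2 * (2 * m / P) := by ring
    linarith
  refine le_trans ?_ (le_abs_self _)
  rcases le_total h (P - h) with hc | hc
  · rw [min_eq_left hc]
    have h2 : 2 * (h : ℝ) ≤ P := by exact_mod_cast (by omega : 2 * h ≤ P)
    refine (aux h (by positivity) h2).trans (le_of_eq ?_)
    congr 2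
    ring
  · rw [min_eq_right hc]
    have h2 : 2 * ((P - h : ℕ) : ℝ) ≤ P := by exact_mod_cast (by omega : 2 * (P - h) ≤ P)
    refine (aux _ (by positivity) h2).trans (le_of_eq ?_)
    rw [← Real.sin_pi_sub, Nat.cast_sub hh.2.le]
    congr 2
    field_simp
    ring

theorem var_geom (P : ℕ) [NeZero P] {h : ℕ} (hh : h ∈ Ico 1 P) (μ : ZMod P) (K : ℕ) :
    ‖(P : ℂ)⁻¹ * ∑ k ∈ range K, ZMod.stdAddChar ((h : ZMod P) * (μ + (k : ZMod P)))‖
      ≤ 1 / (2 * ((min h (P - h) : ℕ) : ℝ)) := by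
  have h1 := var_sin P hh
  rw [mem_Ico] at hh
  have hP : (0 : ℝ) < P := by exact_mod_cast (by omega : 0 < P)
  have hm : (0 : ℝ) < ((min h (P - h) : ℕ) : ℝ) := by
    exact_mod_cast (by omega : 0 < min h (P - h))
  set m : ℝ := ((min h (P - h) : ℕ) : ℝ)
  set z := ZMod.stdAddChar (h : ZMod P) with hz
  have e1 : ∀ k : ℕ, ZMod.stdAddChar ((h : ZMod P) * (μ + (k : ZMod P))) = ZMod.stdAddChar ((h : ZMod P) * μ) * z ^ k := by
    intro k
    rw [mul_add, AddChar.map_add_eq_mul, hz, ← AddChar.map_nsmul_eq_pow, nsmul_eq_mul, mul_comm (k : ZMod P)]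
  simp only [e1, ← mul_sum]
  have h2 : ‖∑ k ∈ range K, z ^ k‖ * ‖z - 1‖ ≤ 2 := by
    rw [← norm_mul, geom_sum_mul]
    refine (norm_sub_le _ _).trans ?_
    rw [norm_pow, hz, var_norm, one_pow, norm_one]
    norm_num
  have h3 : ‖∑ k ∈ range K, z ^ k‖ * (4 * m / P) ≤ 2 :=
    (mul_le_mul_of_nonneg_left h1 (norm_nonneg _)).trans h2
  rw [norm_mul, norm_mul, var_norm, one_mul, norm_inv, Complex.norm_natCast, le_div_iff₀ (by positivity)]
  have : (P : ℝ)⁻¹ * ‖∑ k ∈ range K, z ^ k‖ * (2 * m) = ‖∑ k ∈ range K, z ^ k‖ * (4 * m / P) / 2 := by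
    field_simp
    ring
  linarith

theorem var_fourier (P : ℕ) [NeZero P] (μ t : ℤ) (K : ℕ) :
    ((((range K).filter (fun k : ℕ => (P : ℤ) ∣ μ + t + k)).card : ℝ) - K / P : ℝ)
      = ∑ h ∈ Ico 1 P, ((P : ℂ)⁻¹ * ∑ k ∈ range K, ZMod.stdAddChar ((h : ZMod P) * ((μ : ZMod P) + (k : ZMod P))))
          * ZMod.stdAddChar ((h : ZMod P) * (t : ZMod P)) := by
  have hP : 0 < P := Nat.pos_of_ne_zero (NeZero.ne P)
  have hP' : (P : ℂ) ≠ 0 := by exact_mod_cast hP.ne'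
  have h1 : ∀ k : ℕ, (if (P : ℤ) ∣ μ + t + k then (1 : ℂ) else 0)
      = (P : ℂ)⁻¹ + ∑ h ∈ Ico 1 P, (P : ℂ)⁻¹ * ZMod.stdAddChar ((h : ZMod P) * ((μ : ZMod P) + (k : ZMod P)))
          * ZMod.stdAddChar ((h : ZMod P) * (t : ZMod P)) := by
    intro k
    have h2 := var_orth P ((μ + t + k : ℤ) : ZMod P)
    simp only [ZMod.intCast_zmod_eq_zero_iff_dvd] at h2
    rw [range_eq_Ico, sum_eq_sum_Ico_succ_bot hP] at h2
    have h3 : ∀ h : ℕ, (P : ℂ)⁻¹ * ZMod.stdAddChar ((h : ZMod P) * ((μ : ZMod P) + (k : ZMod P)))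
          * ZMod.stdAddChar ((h : ZMod P) * (t : ZMod P))
        = (P : ℂ)⁻¹ * ZMod.stdAddChar ((h : ZMod P) * ((μ + t + k : ℤ) : ZMod P)) := by
      intro h
      rw [mul_assoc, ← AddChar.map_add_eq_mul]
      congr 2
      push_cast
      ring
    simp only [h3, ← mul_sum]
    rw [Nat.cast_zero, zero_mul, AddChar.map_zero_eq_one, zero_add] at h2
    rw [← mul_one_add, h2]
    split_ifs
    · rw [inv_mul_cancel₀ hP']
    · rw [mul_zero]
  push_cast
  rw [card_filter]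
  push_cast
  simp only [h1, sum_add_distrib, sum_const, card_range, nsmul_eq_mul]
  rw [sum_comm, ← div_eq_mul_inv, add_sub_cancel_left]
  refine sum_congr rfl (fun h _ => ?_)
  rw [mul_sum, sum_mul]

theorem var_fold {P Y : ℕ} (hPY : P ≤ Y) (G : ℕ → ℝ) (hG : ∀ m, 0 ≤ G m) :
    ∑ h ∈ Ico 1 P, G (min h (P - h)) ≤ 2 * ∑ m ∈ Icc 1 Y, G m := by
  have h1 : ∑ h ∈ Ico 1 P, G h ≤ ∑ m ∈ Icc 1 Y, G m :=
    sum_le_sum_of_subset_of_nonneg (fun x hx => by rw [mem_Ico] at hx; rw [mem_Icc]; omega)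
      (fun _ _ _ => hG _)
  have h2 : ∑ h ∈ Ico 1 P, G (P - h) = ∑ h ∈ Ico 1 P, G h := by
    refine sum_nbij' (fun h => P - h) (fun h => P - h) ?_ ?_ ?_ ?_ (fun _ _ => rfl)
    all_goals
      intro x hx
      simp only [mem_Ico] at hx ⊢
      omega
  calc ∑ h ∈ Ico 1 P, G (min h (P - h)) ≤ ∑ h ∈ Ico 1 P, (G h + G (P - h)) := by
        refine sum_le_sum (fun h _ => ?_)
        rcases le_total h (P - h) with hc | hc
        · rw [min_eq_left hc]; linarith [hG (P - h)]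
        · rw [min_eq_right hc]; linarith [hG h]
    _ ≤ _ := by rw [sum_add_distrib, h2]; linarith

theorem var_cond {P Q e e' h h' : ℕ} (hQ : Nat.Coprime Q P) (he : e ∣ Q) (he' : e' ∣ Q)
    (hh : h ≤ P) (hh' : h' ≤ P)
    (hc : (h : ZMod P) * ((Q / e : ℕ) : ZMod P) = (h' : ZMod P) * ((Q / e' : ℕ) : ZMod P)) :
    (P : ℤ) ∣ ((min h (P - h) : ℕ) : ℤ) * e' - ((min h' (P - h') : ℕ) : ℤ) * e ∨
      (P : ℤ) ∣ ((min h (P - h) : ℕ) : ℤ) * e' + ((min h' (P - h') : ℕ) : ℤ) * e := by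
  have h1 : (e : ZMod P) * ((Q / e : ℕ) : ZMod P) = Q := by rw [← Nat.cast_mul, Nat.mul_div_cancel' he]
  have h2 : (e' : ZMod P) * ((Q / e' : ℕ) : ZMod P) = Q := by
    rw [← Nat.cast_mul, Nat.mul_div_cancel' he']
  have hu : IsUnit (Q : ZMod P) := (ZMod.isUnit_iff_coprime Q P).2 hQ
  have h3 : (h : ZMod P) * e' = h' * e := by
    refine hu.mul_left_cancel ?_
    linear_combination (e * e' : ZMod P) * hc - (h * e' : ZMod P) * h1 + (h' * e : ZMod P) * h2
  have aux : ∀ k : ℕ, k ≤ P → ((min k (P - k) : ℕ) : ZMod P) = k ∨ ((min k (P - k) : ℕ) : ZMod P) = -k := by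
    intro k hk
    rcases le_total k (P - k) with hc | hc
    · left; rw [min_eq_left hc]
    · right; rw [min_eq_right hc, Nat.cast_sub hk, ZMod.natCast_self, zero_sub]
  rw [← ZMod.intCast_zmod_eq_zero_iff_dvd, ← ZMod.intCast_zmod_eq_zero_iff_dvd]
  simp only [Int.cast_sub, Int.cast_add, Int.cast_mul, Int.cast_natCast]
  rcases aux h hh with a1 | a1 <;> rcases aux h' hh' with a2 | a2 <;> rw [a1, a2]
  · left; linear_combination h3
  · right; linear_combination h3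
  · right; linear_combination -h3
  · left; linear_combination -h3

theorem variance (P Y Q : ℕ) (hP : P.Prime) (hPY : P ≤ Y) (hQ1 : 1 ≤ Q) (hQ : Nat.Coprime Q P)
    (E : Finset ℕ) (hE : ∀ e ∈ E, e ∣ Q) (ν0 : ℤ) (I : ℕ) :
    ∑ κ ∈ range P, Dev (ν0 + Q * κ) I P E ^ 2 ≤ 2 * P * Cor Y P E + 2 * (E.card : ℝ) ^ 2 / P := by
  have : NeZero P := ⟨hP.ne_zero⟩
  have hP0 : (0 : ℝ) < P := by exact_mod_cast hP.pos
  have he1 : ∀ e ∈ E, 1 ≤ e := fun e he => Nat.pos_of_dvd_of_pos (hE e he) hQ1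
  have hex : ∀ e : ℕ, ∃ (μ : ℤ) (K : ℕ), 1 ≤ e → ∀ (t : ℤ) (m : ℕ),
      cnt (ν0 + e * t) I (m * e) = ((range K).filter (fun k : ℕ => (m : ℤ) ∣ μ + t + k)).card := by
    intro e
    by_cases he : 1 ≤ e
    · obtain ⟨μ, K, h⟩ := var_interval e he ν0 I
      exact ⟨μ, K, fun _ => h⟩
    · exact ⟨0, 0, fun h => absurd h he⟩
  choose μ K hμ using hex
  have hK : ∀ e ∈ E, |(K e : ℝ) - I / e| ≤ 1 := by
    intro e he
    have h1 := hμ e (he1 e he) 0 1
    have h2 := cnt_approx ν0 I e (he1 e he)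
    simp only [mul_zero, add_zero, one_mul, Nat.cast_one, one_dvd, filter_true, card_range] at h1
    rwa [h1] at h2
  set a : ℕ × ℕ → ℂ := fun x => (P : ℂ)⁻¹ * ∑ k ∈ range (K x.1),
    ZMod.stdAddChar ((x.2 : ZMod P) * ((μ x.1 : ZMod P) + (k : ZMod P))) with ha
  set c : ℕ × ℕ → ZMod P := fun x => (x.2 : ZMod P) * ((Q / x.1 : ℕ) : ZMod P) with hc
  set D : ℕ → ℂ := fun κ => ∑ x ∈ E ×ˢ Ico 1 P, a x * ZMod.stdAddChar ((κ : ZMod P) * c x) with hD
  have h1 : ∀ κ : ℕ, Dev (ν0 + Q * κ) I P E ^ 2 ≤ 2 * ‖D κ‖ ^ 2 + 2 * ((E.card : ℝ) / P) ^ 2 := by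
    intro κ
    have e1 : ((∑ e ∈ E, ((cnt (ν0 + Q * κ) I (P * e) : ℝ) - K e / P) : ℝ) : ℂ) = D κ := by
      rw [Complex.ofReal_sum, hD]
      simp only
      rw [sum_product]
      refine sum_congr rfl (fun e he => ?_)
      have e2 : (Q : ℤ) * κ = e * (((Q / e : ℕ) : ℤ) * κ) := by
        rw [← mul_assoc, ← Nat.cast_mul e, Nat.mul_div_cancel' (hE e he)]
      rw [e2, hμ e (he1 e he), var_fourier]
      refine sum_congr rfl (fun h _ => ?_)
      simp only [ha, hc, Int.cast_mul, Int.cast_natCast]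
      congr 2
      ring
    have e2 : ‖D κ‖ ^ 2 = (∑ e ∈ E, ((cnt (ν0 + Q * κ) I (P * e) : ℝ) - K e / P)) ^ 2 := by
      rw [← e1, Complex.norm_real, Real.norm_eq_abs, sq_abs]
    have e3 : |∑ e ∈ E, ((K e : ℝ) / P - I / (P * e))| ≤ E.card / P := by
      refine (abs_sum_le_sum_abs _ _).trans ?_
      calc ∑ e ∈ E, |(K e : ℝ) / P - I / (P * e)| ≤ ∑ e ∈ E, 1 / (P : ℝ) := by
            refine sum_le_sum (fun e he => ?_)
            have : (K e : ℝ) / P - I / (P * e) = ((K e : ℝ) - I / e) / P := by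
              rw [sub_div, div_div, mul_comm (e : ℝ)]
            rw [this, abs_div, abs_of_pos hP0]
            exact div_le_div_of_nonneg_right (hK e he) hP0.le
        _ = E.card / P := by rw [sum_const, nsmul_eq_mul, mul_one_div]
    have e4 : Dev (ν0 + Q * κ) I P E = ∑ e ∈ E, ((cnt (ν0 + Q * κ) I (P * e) : ℝ) - K e / P)
        + ∑ e ∈ E, ((K e : ℝ) / P - I / (P * e)) := by
      rw [Dev, ← sum_add_distrib]
      refine sum_congr rfl (fun e _ => by ring)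
    have e5 := sq_le_sq' (abs_le.1 e3).1 (abs_le.1 e3).2
    rw [e4, e2]
    set x := ∑ e ∈ E, ((cnt (ν0 + Q * κ) I (P * e) : ℝ) - K e / P)
    set y := ∑ e ∈ E, ((K e : ℝ) / P - I / (P * e))
    nlinarith [sq_nonneg (x - y)]
  have h2 : ∑ x ∈ E ×ˢ Ico 1 P, ∑ y ∈ E ×ˢ Ico 1 P, (if c x = c y then ‖a x‖ * ‖a y‖ else 0)
      ≤ Cor Y P E := by
    unfold Cor
    rw [sum_product]
    refine sum_le_sum (fun e he => ?_)
    simp only [sum_product]
    rw [sum_comm]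
    refine sum_le_sum (fun e' he' => ?_)
    set F : ℕ → ℕ → ℝ := fun h h' =>
      if (P : ℤ) ∣ (h : ℤ) * e' - (h' : ℤ) * e ∨ (P : ℤ) ∣ (h : ℤ) * e' + (h' : ℤ) * e then
        1 / ((h : ℝ) * h') else 0 with hF
    have hF0 : ∀ h h', 0 ≤ F h h' := fun h h' => by
      simp only [hF]
      split_ifs <;> positivity
    calc ∑ h ∈ Ico 1 P, ∑ h' ∈ Ico 1 P, (if c (e, h) = c (e', h') then ‖a (e, h)‖ * ‖a (e', h')‖ else 0)
        ≤ ∑ h ∈ Ico 1 P, ∑ h' ∈ Ico 1 P, F (min h (P - h)) (min h' (P - h')) / 4 := by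
          refine sum_le_sum (fun h hh => sum_le_sum (fun h' hh' => ?_))
          split_ifs with hcc
          · simp only [hF]
            rw [if_pos (var_cond hQ (hE e he) (hE e' he') (mem_Ico.1 hh).2.le (mem_Ico.1 hh').2.le hcc)]
            refine (mul_le_mul (var_geom P hh _ _) (var_geom P hh' _ _) (norm_nonneg _)
              (by positivity)).trans (le_of_eq ?_)
            rw [div_mul_div_comm, div_div]
            congr 1 <;> ring
          · exact div_nonneg (hF0 _ _) (by norm_num)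
      _ ≤ ∑ h ∈ Ico 1 P, 2 * ∑ m' ∈ Icc 1 Y, F (min h (P - h)) m' / 4 :=
          sum_le_sum (fun h _ => var_fold hPY (fun m' => F (min h (P - h)) m' / 4)
            (fun m' => div_nonneg (hF0 _ _) (by norm_num)))
      _ ≤ 2 * ∑ m ∈ Icc 1 Y, 2 * ∑ m' ∈ Icc 1 Y, F m m' / 4 :=
          var_fold hPY (fun m => 2 * ∑ m' ∈ Icc 1 Y, F m m' / 4)
            (fun m => mul_nonneg two_pos.le (sum_nonneg (fun _ _ => div_nonneg (hF0 _ _) (by norm_num))))
      _ = ∑ m ∈ Icc 1 Y, ∑ m' ∈ Icc 1 Y, F m m' := by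
          simp only [mul_sum]
          refine sum_congr rfl (fun _ _ => sum_congr rfl (fun _ _ => by ring))
  have h3 := var_sq P (E ×ˢ Ico 1 P) a c
  have h4 := mul_le_mul_of_nonneg_left h2 hP0.le
  calc ∑ κ ∈ range P, Dev (ν0 + Q * κ) I P E ^ 2
      ≤ ∑ κ ∈ range P, (2 * ‖D κ‖ ^ 2 + 2 * ((E.card : ℝ) / P) ^ 2) := sum_le_sum (fun κ _ => h1 κ)
    _ = 2 * ∑ κ ∈ range P, ‖D κ‖ ^ 2 + 2 * (E.card : ℝ) ^ 2 / P := by
        rw [sum_add_distrib, ← mul_sum, sum_const, card_range, nsmul_eq_mul]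
        congr 1
        field_simp
    _ ≤ _ := by
        have : ∑ κ ∈ range P, ‖D κ‖ ^ 2 ≤ P * Cor Y P E := h3.trans h4
        linarith

end Crest.Agent.R1
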