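import Crest.Agent.R1.Stop
import Crest.Agent.R1.Rankin

/-!
# R1 / WBound : total mass of supported sets with given room


-/

set_option autoImplicit false

noncomputable section

open scoped Classical

namespace Crest.Agent.R1

open Finset

/-- `g` is non-empty, so `U = sg g = T - R ≥ 1`; `comp_le`. -/
theorem WW_le_inv (hP : PAP) : ∃ C : ℝ, 1 ≤ C ∧ ∀ (Z T : ℕ) (Q : Finset ℕ → Prop) (R t : ℕ), 1 ≤ t →
    WW Z T Q R t ≤ C / t := by
  obtain ⟨C, hC, h⟩ := comp_le hP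
  refine ⟨C, hC, fun Z T Q R t ht => ?_⟩
  have ht' : (0 : ℝ) < t := by exact_mod_cast ht
  unfold WW
  rcases Nat.eq_zero_or_pos (T - R) with h0 | h0
  · rw [Finset.filter_false_of_mem, sum_empty]
    · positivity
    · rintro g hg ⟨-, ho, hs, -⟩
      obtain ⟨π, hπ⟩ := card_pos.1 ho.pos
      have h1 := (mem_PL.1 (mem_powerset.1 hg hπ)).2.1
      have h2 := rk_lv_le_sg hπ
      omega
  · refine le_trans (Finset.sum_le_sum_of_subset_of_nonneg (fun g hg => ?_)
      fun g _ _ => wt_nonneg g) ((h t (max Z 1) (T - R) ht (le_max_right _ _) h0).trans ?_)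
    · rw [mem_filter, mem_powerset] at hg ⊢
      exact ⟨hg.1.trans (PL_mono le_rfl (le_max_left _ _)), by have := hg.2.2.2.1; omega⟩
    · exact mul_le_of_le_one_right (by positivity)
        (Real.exp_le_one_iff.2 (neg_nonpos.2 (by positivity)))

/-- `a = T / 8 ≥ T / 16`, `a + Z ≤ T`.  For `R < a` use `stop` with `Ψ = C` (`WW_le_inv`); for `R ≥ a` use
`WW_le_inv` and `T ≤ 16 R`. -/
theorem W_le (hP : PAP) : ∃ (t1 : ℕ) (C : ℝ), 1 ≤ t1 ∧ 1 ≤ C ∧ ∀ Z T : ℕ, 5 * Z ≤ 3 * T → 8 ≤ T →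
    ∀ R t : ℕ, t1 ≤ t → WW Z T (fun _ => True) R t
      ≤ C * ((max R (3 * t) : ℕ) : ℝ) ^ 2 / (t * (T : ℝ) ^ 2) := by
  obtain ⟨C, hC, h⟩ := WW_le_inv hP
  obtain ⟨t1, ht1, hs⟩ := stop hP
  refine ⟨t1, 1280 * C, ht1, by linarith, fun Z T hZ hT R t ht => ?_⟩
  have t0 : (0 : ℝ) < t := by exact_mod_cast (by omega : 0 < t)
  have T0 : (0 : ℝ) < T := by exact_mod_cast (by omega : 0 < T)
  have a0 : (0 : ℝ) < (T / 8 : ℕ) := by exact_mod_cast (by omega : 0 < T / 8)
  have a1 : (T : ℝ) ≤ 16 * (T / 8 : ℕ) := by exact_mod_cast (by omega : T ≤ 16 * (T / 8))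
  rcases lt_or_ge R (T / 8) with hR | hR
  · refine (hs Z T (T / 8) _ (lowStable_true _) (by omega) C (by linarith)
      (fun R t h1 _ _ _ => h Z T _ R t (ht1.trans h1)) R t ht hR).trans ?_
    generalize ((max R (3 * t) : ℕ) : ℝ) = M
    generalize ((T / 8 : ℕ) : ℝ) = a at a0 a1
    rw [div_le_div_iff₀ (by positivity) (by positivity)]
    have : (T : ℝ) ^ 2 ≤ (16 * a) ^ 2 := by gcongr
    have h2 : 0 ≤ 5 * C * M ^ 2 * t := by positivity
    nlinarith [mul_le_mul_of_nonneg_left this h2]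
  · refine (h Z T _ R t (ht1.trans ht)).trans ?_
    have a2 : (T : ℝ) ≤ 16 * (max R (3 * t) : ℕ) := by
      have := le_max_left R (3 * t)
      exact_mod_cast (by omega : T ≤ 16 * max R (3 * t))
    generalize ((max R (3 * t) : ℕ) : ℝ) = M at a2
    rw [div_le_div_iff₀ (by positivity) (by positivity)]
    have : (T : ℝ) ^ 2 ≤ (16 * M) ^ 2 := by gcongr
    have h2 : 0 ≤ C * t := by positivity
    nlinarith [mul_le_mul_of_nonneg_left this h2, mul_nonneg h2 (sq_nonneg M)]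

/-- Odd `g`: `W_le`.  `g = ∅`: then `R = T` and `1 ≤ (T/a)³ a/T²` because `a² ≤ T`.  Even non-empty `g`:
`g = insert π g'` with `π` the minimum, `j = lv π ≥ a`, of even rank, so `2j < R`; `g'` is odd, supported, in
`PL j Z`, `sg g' + (R + j) = T`, `max (R+j) (3j) ≤ 3R/2`; the sum is
`≤ ∑_{j ≥ a} (C/j) · C (3R/2)²/(j T²) ≤ C' R²/(a T²)`. -/
theorem WS_le (hP : PAP) : ∃ (t1 : ℕ) (C : ℝ), 1 ≤ t1 ∧ 1 ≤ C ∧ ∀ Z T : ℕ, 5 * Z ≤ 3 * T → 8 ≤ T →
    ∀ R a : ℕ, t1 ≤ a → a ^ 2 ≤ T → WS Z T R a ≤ C * ((R : ℝ) / a + 3) ^ 3 * a / (T : ℝ) ^ 2 := by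
  obtain ⟨t1, C, ht1, hC, h⟩ := W_le hP
  obtain ⟨C1, hC1, hm⟩ := mm_le hP
  refine ⟨t1, C + 1 + 5 * C1 * C, ht1, by nlinarith, fun Z T hZ hT R a ha haT => ?_⟩
  have ha1 : 1 ≤ a := ht1.trans ha
  have a0 : (0 : ℝ) < a := by exact_mod_cast ha1
  have T0 : (0 : ℝ) < T := by exact_mod_cast (by omega : 0 < T)
  have r0 : 0 ≤ (R : ℝ) / a := by positivity
  set E : ℝ := ((R : ℝ) / a + 3) ^ 3 * a / (T : ℝ) ^ 2 with hE
  have hE2 : ((R : ℝ) / a + 3) ^ 2 * a / (T : ℝ) ^ 2 ≤ E := by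
    rw [hE]; gcongr <;> linarith
  unfold WS
  set S := (PL a Z).powerset.filter (fun g => Supp T g ∧ sg g + R = T) with hS
  rw [← Finset.sum_filter_add_sum_filter_not S (fun g => Odd g.card),
    ← Finset.sum_filter_add_sum_filter_not (S.filter fun g => ¬ Odd g.card) (fun g => g = ∅)]
  have b1 : ∑ g ∈ S.filter (fun g => Odd g.card), wt g ≤ C * E := by
    have e : ∑ g ∈ S.filter (fun g => Odd g.card), wt g = WW Z T (fun _ => True) R a := by
      unfold WW
      rw [hS, Finset.filter_filter]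
      refine Finset.sum_congr ?_ fun _ _ => rfl
      ext g
      simp only [mem_filter]; tauto
    rw [e]
    refine (h Z T hZ hT R a ha).trans (le_trans ?_ (mul_le_mul_of_nonneg_left hE2 (by linarith)))
    have h1 : ((max R (3 * a) : ℕ) : ℝ) ≤ R + 3 * a := by
      exact_mod_cast (by omega : max R (3 * a) ≤ R + 3 * a)
    calc _ ≤ C * ((R : ℝ) + 3 * a) ^ 2 / (a * (T : ℝ) ^ 2) := by gcongr
      _ = _ := by field_simp
  have b2 : ∑ g ∈ (S.filter fun g => ¬ Odd g.card).filter (fun g => g = ∅), wt g ≤ E := by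
    by_cases hRT : R = T
    · have h1 : (1 : ℝ) ≤ E := by
        subst hRT
        have : (a : ℝ) ^ 2 ≤ R := by exact_mod_cast haT
        calc (1 : ℝ) ≤ R / (a : ℝ) ^ 2 := (one_le_div (by positivity)).2 this
          _ = ((R : ℝ) / a) ^ 3 * a / (R : ℝ) ^ 2 := by field_simp
          _ ≤ _ := by rw [hE]; gcongr; linarith
      refine le_trans (Finset.sum_le_sum_of_subset_of_nonneg (t := {∅}) (fun g hg => ?_)
        fun g _ _ => wt_nonneg g) (by simpa [wt] using h1)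
      exact mem_singleton.2 (mem_filter.1 hg).2
    · rw [Finset.filter_false_of_mem, sum_empty]
      · positivity
      · rintro g hg rfl
        have := (mem_filter.1 (mem_filter.1 hg).1).2.2
        simp [sg] at this
        exact hRT this
  have b3 : ∑ g ∈ (S.filter fun g => ¬ Odd g.card).filter (fun g => ¬ g = ∅), wt g ≤
      5 * C1 * C * E := by
    refine (rk_cover _ (((Ico a R).filter fun j => 2 * j < R).sigma fun j => B j ×ˢ
      (PL j Z).powerset.filter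
        (fun g => Supp T g ∧ Odd g.card ∧ sg g + (R + j) = T ∧ True)) wt
      (fun x => 1 / (x.2.1 : ℝ) * wt x.2.2) (fun x => insert x.2.1 x.2.2)
      (fun x _ => by have := wt_nonneg x.2.2; positivity) fun g hg => ?_).trans ?_
    · simp only [hS, mem_filter, mem_powerset] at hg
      obtain ⟨⟨⟨hg1, hs, hsg⟩, ho⟩, hne⟩ := hg
      obtain ⟨π, g', m1, n1, rfl⟩ := rk_min (nonempty_iff_ne_empty.2 hne)
      obtain ⟨p1, p2, p3⟩ := mem_PL.1 (hg1 (mem_insert_self _ _))
      rw [card_insert_of_notMem n1] at ho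
      have ho' : Odd g'.card := by
        rw [Nat.odd_iff] at ho ⊢; omega
      obtain ⟨s1, s2⟩ := (supp_insert_min m1).1 hs
      have s3 := s2 ho'
      rw [sg_insert n1] at hsg
      refine ⟨⟨lv π, π, g'⟩, ?_, rfl, by rw [wt_insert n1]⟩
      simp only [mem_sigma, mem_product, mem_filter, mem_Ico, mem_powerset]
      refine ⟨⟨⟨p2, by omega⟩, by omega⟩, mem_B.2 ⟨p1, rfl⟩, fun x hx => ?_, s1, ho', by omega,
        trivial⟩
      obtain ⟨r1, -, r3⟩ := mem_PL.1 (hg1 (mem_insert_of_mem hx))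
      exact mem_PL.2 ⟨r1, lv_mono (m1 x hx).le, r3⟩
    · rw [Finset.sum_sigma]
      have key : ∀ j ∈ (Ico a R).filter fun j => 2 * j < R, ∑ x ∈ B j ×ˢ
          (PL j Z).powerset.filter (fun g => Supp T g ∧ Odd g.card ∧ sg g + (R + j) = T ∧ True),
          1 / (x.1 : ℝ) * wt x.2 ≤
          C1 * C * (3 / 2 * R) ^ 2 / (T : ℝ) ^ 2 * (1 / (j : ℝ) ^ 2) := by
        intro j hj
        simp only [mem_filter, mem_Ico] at hj
        have j0 : (0 : ℝ) < j := by exact_mod_cast (by omega : 0 < j)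
        have e : ∑ x ∈ B j ×ˢ (PL j Z).powerset.filter
            (fun g => Supp T g ∧ Odd g.card ∧ sg g + (R + j) = T ∧ True),
            1 / (x.1 : ℝ) * wt x.2 = mm j * WW Z T (fun _ => True) (R + j) j := by
          simp only [Finset.sum_product, ← Finset.mul_sum, ← Finset.sum_mul]
          unfold WW mm
          congr
        have h1 : ((max (R + j) (3 * j) : ℕ) : ℝ) ≤ 3 / 2 * R := by
          have : (2 * (max (R + j) (3 * j) : ℕ) : ℝ) ≤ 3 * R := by
            exact_mod_cast (by omega : 2 * max (R + j) (3 * j) ≤ 3 * R)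
          linarith
        rw [e]
        calc _ ≤ C1 / j * (C * ((max (R + j) (3 * j) : ℕ) : ℝ) ^ 2 / (j * (T : ℝ) ^ 2)) :=
              mul_le_mul (hm j (by omega)) (h Z T hZ hT _ j (by omega)) (WW_nonneg _ _ _ _ _)
                (by positivity)
          _ ≤ C1 / j * (C * (3 / 2 * R) ^ 2 / (j * (T : ℝ) ^ 2)) := by gcongr
          _ = _ := by field_simp
      refine (Finset.sum_le_sum key).trans ?_
      rw [← Finset.mul_sum]
      refine (mul_le_mul_of_nonneg_left (rk_inv_sq ha1 _ fun j hj =>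
        (mem_Ico.1 (mem_filter.1 hj).1).1) (by positivity)).trans
        (le_trans ?_ (mul_le_mul_of_nonneg_left hE2 (by positivity)))
      calc _ = 9 / 2 * C1 * C * (((R : ℝ) / a) ^ 2 * a / (T : ℝ) ^ 2) := by field_simp; ring
        _ ≤ _ := by gcongr <;> linarith
  calc _ ≤ C * E + (E + 5 * C1 * C * E) := add_le_add b1 (add_le_add b2 b3)
    _ = _ := by rw [hE]; ring

end Crest.Agent.R1
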